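import Vale.Agent.P027M.Defs

/-! # P027, route M, block B1 : statements (paper: `notes/P027/B1.md`, owner helper78)

The curve is `w ^ 2 = F m`, `deg F = 7`; the differentials are `m ^ j dm / w`, `j = 0, 1, 2`. -/

open Polynomial NumberField
open scoped PowerSeries

noncomputable section

namespace Vale.Agent.P027M.B

/-- the Cartier-Manin matrix -/
def cm {R : Type*} [CommRing R] (F : R[X]) (p j i : ℕ) : R :=
  (X ^ j * F ^ ((p - 1) / 2)).coeff ((i + 1) * p - 1)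

/-! ### Abel's theorem as a polynomial identity -/

/-- [B1.abel] separable points `(mu i, s i)` with multiplicity `n i`, simple branch points `e ∈ E`,
and (only in characteristic `p`) inseparable points, `p`-th roots of `(nu a, t a)`, with
multiplicity `p * r a` -/
def ABEL : Prop := ∀ (L : Type) [Field L] (d : Derivation ℤ L L) (F : L[X]) (p : ℕ)
  (ι κ : Type) [Fintype ι] [Fintype κ] (mu s : ι → L) (n : ι → ℕ) (E : Finset L)
  (nu t : κ → L) (r : κ → ℕ) (A B V : L[X]) (c : L),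
  (2 : L) ≠ 0 → F.natDegree = 7 → (∀ i, d (F.coeff i) = 0) → c ≠ 0 →
  Function.Injective mu → (∀ i, s i ≠ 0) → (∀ i, V.eval (mu i) = s i) →
  (∀ e ∈ E, F.eval e = 0 ∧ d e = 0) →
  (∀ _ : κ, p.Prime ∧ p ≠ 2 ∧ (p : L) = 0) → Function.Injective nu → (∀ a, t a ≠ 0) →
  (∀ a, X ^ p - C (nu a) ∣ V ^ p - C (t a)) → (∀ a i, mu i ^ p ≠ nu a) →
  (∀ a, ∀ e ∈ E, e ^ p ≠ nu a) →
  ∀ U : L[X], U = (∏ i, (X - C (mu i)) ^ n i) * (∏ e ∈ E, (X - C e)) *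
    ∏ a, (X ^ p - C (nu a)) ^ r a →
  U ∣ V ^ 2 - F → U ∣ A + B * V → A ^ 2 - B ^ 2 * F = C c * U →
  ∀ j < 3, ∑ i, n i * (mu i ^ j * d (mu i) / s i) +
    ∑ a, r a * ((∑ i ∈ Finset.range 3, cm F p j i * nu a ^ i) * d (nu a) / t a) = 0

/-- [B1.abel2] the norm splits; `a i`, `b i` are the orders of `A + B w` at `(mu i, s i)` and at
`(mu i, - s i)` -/
def ABEL2 : Prop := ∀ (L : Type) [Field L] (d : Derivation ℤ L L) (F : L[X])
  (ι : Type) [Fintype ι] (mu s : ι → L) (a b : ι → ℕ) (V : ι → L[X]) (A B : L[X]) (c : L),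
  (2 : L) ≠ 0 → F.natDegree = 7 → (∀ i, d (F.coeff i) = 0) → c ≠ 0 →
  Function.Injective mu → (∀ i, s i ≠ 0) → (∀ i, (V i).eval (mu i) = s i) →
  (∀ i, (X - C (mu i)) ^ (a i + b i) ∣ V i ^ 2 - F) →
  (∀ i, (X - C (mu i)) ^ a i ∣ A + B * V i) → (∀ i, (X - C (mu i)) ^ b i ∣ A - B * V i) →
  A ^ 2 - B ^ 2 * F = C c * ∏ i, (X - C (mu i)) ^ (a i + b i) →
  ∀ j < 3, ∑ i, ((a i : L) - b i) * (mu i ^ j * d (mu i) / s i) = 0

/-! ### the differential system -/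

/-- `q d/dq` -/
def th {R : Type*} [CommRing R] (f : R⟦X⟧) : R⟦X⟧ := PowerSeries.X * PowerSeries.derivative R f

/-- three formal points `(m k, w k)` starting at `(m0 k, s k)` with
`∑ k, m k ^ j (q d/dq m k) / w k = h j` -/
structure Sol {L : Type*} [Field L] (F : L[X]) (m0 s : Fin 3 → L) (h m w : Fin 3 → L⟦X⟧) :
    Prop where
  m_zero : ∀ k, PowerSeries.constantCoeff (m k) = m0 k
  w_zero : ∀ k, PowerSeries.constantCoeff (w k) = s k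
  sq : ∀ k, w k ^ 2 = aeval (m k) F
  ode : ∀ j : Fin 3, ∑ k, m k ^ (j : ℕ) * th (m k) * (w k)⁻¹ = h j

/-- [B1.uniq] -/
def UNIQ : Prop := ∀ (L : Type) [Field L] [CharZero L] (F : L[X]) (m0 s : Fin 3 → L)
  (h m w m' w' : Fin 3 → L⟦X⟧), Function.Injective m0 → (∀ k, s k ≠ 0) →
  Sol F m0 s h m w → Sol F m0 s h m' w' → m = m' ∧ w = w'

/-- the Cartier congruence at `p` -/
def CCp {O : Type*} [CommRing O] (F : O[X]) (b : Fin 3 → ℕ → O) (p : ℕ) : Prop :=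
  ∀ (j : Fin 3) (n : ℕ), (p : O) ∣ b j (n * p) - ∑ i : Fin 3, cm F p j i * b i n ^ p

/-- the Cartier congruence for almost all `p` -/
def CC {O : Type*} [CommRing O] (F : O[X]) (b : Fin 3 → ℕ → O) : Prop :=
  ∃ B : ℕ, B ≠ 0 ∧ ∀ p : ℕ, p.Prime → ¬ p ∣ B → CCp F b p

/-! ### the leaf over the integers -/

/-- power series in `q = X none` and `t k = X (some k)` -/
abbrev RR (O : Type*) := MvPowerSeries (Option (Fin 3)) O

/-- the series `∑ a n q ^ n` in `RR O` -/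
def inq {O : Type*} [CommRing O] (a : ℕ → O) : RR O :=
  fun e => if ∀ k, e (some k) = 0 then a (e none) else 0

/-- the coordinate `m0 k + De * t k` -/
def mu0 {O : Type*} [CommRing O] (m0 : Fin 3 → O) (De : ℕ) (k : Fin 3) : RR O :=
  MvPowerSeries.C (m0 k) + (De : RR O) * MvPowerSeries.X (some k)

/-- the data of the vector field: `mu k = m0 k + De * t k`, `w k ^ 2 = F (mu k)`,
`∑ k, De * mu k ^ j * v k / w k = M0 * h j / q`; `w k` and `mu k - mu l` divide the integer `De'` -/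
structure Leaf {O : Type*} [CommRing O] (F : O[X]) (m0 s : Fin 3 → O) (b : Fin 3 → ℕ → O) where
  De : ℕ
  De' : ℕ
  M0 : ℕ
  w : Fin 3 → RR O
  wi : Fin 3 → RR O
  v : Fin 3 → RR O
  De_pos : 0 < De
  De'_pos : 0 < De'
  M0_pos : 0 < M0
  w_zero : ∀ k, MvPowerSeries.constantCoeff (w k) = s k
  sq : ∀ k, w k ^ 2 = aeval (mu0 m0 De k) F
  w_wi : ∀ k, w k * wi k = De'
  sub_dvd : ∀ k l, k ≠ l → mu0 m0 De k - mu0 m0 De l ∣ (De' : RR O)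
  ode : ∀ j : Fin 3, ∑ k, (De : RR O) * mu0 m0 De k ^ (j : ℕ) * v k * wi k =
    (De' : RR O) * M0 * inq fun n => b j (n + 1)

/-- the vector field `d/dq + M1 ∑ v k d/dt k` -/
def dl {O : Type*} [CommRing O] (v : Fin 3 → RR O) (M1 : ℕ) : Derivation O (RR O) (RR O) :=
  MvPowerSeries.pderiv O none + ∑ k, ((M1 : RR O) * v k) • MvPowerSeries.pderiv O (some k)

/-- [B1.leaf] -/
def LEAF : Prop := ∀ (K : Type) [Field K] [NumberField K] (F : (𝓞 K)[X]) (m0 : Fin 3 → ℤ)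
  (s : Fin 3 → 𝓞 K) (b : Fin 3 → ℕ → 𝓞 K), Function.Injective m0 → (∀ k, s k ≠ 0) →
  (∀ k, s k ^ 2 = F.eval (m0 k : 𝓞 K)) → Nonempty (Leaf F (fun k => (m0 k : 𝓞 K)) s b)

/-- [B1.pc] the `p`-curvature vanishes -/
def PC : Prop := ∀ (O : Type) [CommRing O] (F : O[X]) (m0 s : Fin 3 → O) (b : Fin 3 → ℕ → O)
  (Λ : Leaf F m0 s b) (M1 p : ℕ), F.natDegree ≤ 7 → p.Prime → ¬ p ∣ 2 * Λ.De * Λ.De' →
  CCp F b p → ∀ f : RR O, (p : RR O) ∣ (dl Λ.v M1)^[p] f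

/-- [B1.bad] small and bad primes -/
def BAD : Prop := ∀ (O : Type) [CommRing O] (v : Fin 3 → RR O) (M1 p a : ℕ), p.Prime →
  p ^ padicValNat p (p ^ a).factorial ∣ M1 →
  ∀ f : RR O, ((p ^ padicValNat p (p ^ a).factorial : ℕ) : RR O) ∣ (dl v M1)^[p ^ a] f

/-- the restriction to the leaf -/
def tay {O : Type*} [CommRing O] (K : Type*) [Field K] [Algebra O K] (δ : RR O → RR O)
    (f : RR O) : K⟦X⟧ :=
  PowerSeries.mk fun n => algebraMap O K (MvPowerSeries.constantCoeff (δ^[n] f)) / n.factorial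

/-- [B1.tay] -/
def TAY : Prop := ∀ (O K : Type) [CommRing O] [Field K] [CharZero K] [Algebra O K] (F : O[X])
  (m0 s : Fin 3 → O) (b : Fin 3 → ℕ → O) (Λ : Leaf F m0 s b) (M1 : ℕ), (∀ j, b j 0 = 0) →
  (∀ k, algebraMap O K (s k) ≠ 0) →
  (∃ E : RR O →+* K⟦X⟧, (∀ f, E f = tay K (dl Λ.v M1) f) ∧
    ∀ a : ℕ → O, E (inq a) = PowerSeries.mk fun n => algebraMap O K (a n)) ∧
  Sol (F.map (algebraMap O K)) (fun k => algebraMap O K (m0 k)) (fun k => algebraMap O K (s k))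
    (fun j => PowerSeries.mk fun n => (Λ.M0 * M1 : ℕ) * algebraMap O K (b j n))
    (fun k => tay K (dl Λ.v M1) (mu0 m0 Λ.De k)) (fun k => tay K (dl Λ.v M1) (Λ.w k))

/-- [B1.den] the denominators: for every `ε` and every finite set of primes (the divisors of `B`)
there is `M1` such that every additive map `δ` which behaves as in `PC` and `BAD` has small
denominators -/
def DEN : Prop := ∀ (ε : ℝ) (B : ℕ), 0 < ε → B ≠ 0 → ∃ (M1 : ℕ) (C : ℝ) (d : ℕ → ℕ), 0 < M1 ∧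
  (∀ n, 0 < d n ∧ (d n : ℝ) ≤ C * Real.exp (ε * n)) ∧
  ∀ (R : Type) [CommRing R] (δ : R →+ R),
    (∀ p : ℕ, p.Prime → ¬ p ∣ B → ∀ f, (p : R) ∣ δ^[p] f) →
    (∀ p a : ℕ, p.Prime → p ^ padicValNat p (p ^ a).factorial ∣ M1 →
      ∀ f, ((p ^ padicValNat p (p ^ a).factorial : ℕ) : R) ∣ δ^[p ^ a] f) →
    ∀ (n : ℕ) (f : R), (n.factorial : R) ∣ d n * δ^[n] f

/-- [B1.arith] from `LEAF PC BAD TAY DEN` -/
def ARITH : Prop := ∀ (K : Type) [Field K] [NumberField K] (F : (𝓞 K)[X]) (m0 : Fin 3 → ℤ)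
  (s : Fin 3 → 𝓞 K) (b : Fin 3 → ℕ → 𝓞 K) (x : ℤ⟦X⟧) (ε : ℝ), F.natDegree ≤ 7 →
  Function.Injective m0 → (∀ k, s k ≠ 0) → (∀ k, s k ^ 2 = F.eval (m0 k : 𝓞 K)) →
  (∀ j, b j 0 = 0) → CC F b → 0 < ε →
  ∃ (M : ℕ) (m w : Fin 3 → K⟦X⟧) (C : ℝ) (d : ℕ → ℕ), 0 < M ∧
    Sol (F.map (algebraMap (𝓞 K) K)) (fun k => (m0 k : K)) (fun k => (s k : K))
      (fun j => PowerSeries.mk fun n => (M : K) * (b j n : K)) m w ∧
    (∀ n, 0 < d n ∧ (d n : ℝ) ≤ C * Real.exp (ε * n)) ∧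
    ∀ y ∈ Subring.closure (insert (x.map (Int.castRingHom K)) (Set.range m)), ∀ n,
      IsIntegral ℤ ((d n : K) * PowerSeries.coeff n y)

/-! ### the analytic side -/

/-- an integral matrix `(a b; c d)` of determinant one with `c ≠ 0` -/
structure Gam where
  a : ℤ
  b : ℤ
  c : ℤ
  d : ℤ
  det : a * d - b * c = 1
  c_ne : c ≠ 0

/-- the action on the upper half plane -/
def Gam.act (γ : Gam) (τ : ℂ) : ℂ := (γ.a * τ + γ.b) / (γ.c * τ + γ.d)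

/-- `q = e (τ)` -/
def qq (τ : ℂ) : ℂ := Complex.exp (2 * Real.pi * Complex.I * τ)

/-- the sum of a power series -/
def ev (f : ℂ⟦X⟧) (q : ℂ) : ℂ := ∑' n, PowerSeries.coeff n f * q ^ n

/-- convergent on the disc of radius `r` -/
def Conv (r : ℝ) (f : ℂ⟦X⟧) : Prop :=
  ∀ ρ : ℝ, 0 ≤ ρ → ρ < r → Summable fun n => ‖PowerSeries.coeff n f‖ * ρ ^ n

/-- convergent on the disc of radius `r` and invariant under `γ` -/
structure IsHol (γ : Gam) (r : ℝ) (f : ℂ⟦X⟧) : Prop where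
  conv : Conv r f
  inv : ∀ τ : ℂ, 0 < τ.im → ‖qq τ‖ < r → ‖qq (γ.act τ)‖ < r →
    ev f (qq (γ.act τ)) = ev f (qq τ)

/-- quotients with a denominator that does not vanish at `0` -/
def IsOO (γ : Gam) (r : ℝ) (y : ℂ⟦X⟧) : Prop :=
  ∃ α β, IsHol γ r α ∧ IsHol γ r β ∧ PowerSeries.constantCoeff β ≠ 0 ∧ β * y = α

/-- [B1.hol] the tool box for convergent series -/
structure HOL : Prop where
  const : ∀ r c, Conv r (PowerSeries.C c) ∧ ∀ q, ev (PowerSeries.C c) q = c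
  add : ∀ r f g, Conv r f → Conv r g →
    Conv r (f + g) ∧ ∀ q : ℂ, ‖q‖ < r → ev (f + g) q = ev f q + ev g q
  mul : ∀ r f g, Conv r f → Conv r g →
    Conv r (f * g) ∧ ∀ q : ℂ, ‖q‖ < r → ev (f * g) q = ev f q * ev g q
  zero : ∀ f, ev f 0 = PowerSeries.constantCoeff f
  diff : ∀ r f, Conv r f → Conv r (PowerSeries.derivative ℂ f) ∧
    ∀ q : ℂ, ‖q‖ < r → HasDerivAt (ev f) (ev (PowerSeries.derivative ℂ f) q) q
  shift : ∀ r f, Conv r (PowerSeries.X * f) → Conv r f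
  X : ∀ r, Conv r PowerSeries.X ∧ ∀ q, ev PowerSeries.X q = q
  ofFun : ∀ (r : ℝ) (φ : ℂ → ℂ), DifferentiableOn ℂ φ (Metric.ball 0 r) →
    ∃ f, Conv r f ∧ ∀ q : ℂ, ‖q‖ < r → ev f q = φ q
  inj : ∀ r f, 0 < r → Conv r f → (∀ q : ℂ, ‖q‖ < r → ev f q = 0) → f = 0
  inv : ∀ r f, 0 < r → Conv r f → PowerSeries.constantCoeff f ≠ 0 → ∃ r' > 0, Conv r' f⁻¹
  sub : ∀ γ r, ∃ S : Subring ℂ⟦X⟧, (∀ y, y ∈ S ↔ IsOO γ r y) ∧ (∀ c, PowerSeries.C c ∈ S) ∧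
    ∀ y ∈ S, PowerSeries.constantCoeff y ≠ 0 → y⁻¹ ∈ S

/-- [B1.an] the small divisor -/
def ANA : Prop := ∀ (γ : Gam) (r : ℝ) (F : ℂ[X]) (m0 s : Fin 3 → ℂ) (u : Fin 3 → ℂ⟦X⟧),
  0 < r → r < 1 → Function.Injective m0 → (∀ k, s k ≠ 0) → (∀ k, s k ^ 2 = F.eval (m0 k)) →
  (∀ j, IsHol γ 1 (u j)) → (∀ j, PowerSeries.constantCoeff (u j) = 0) →
  ∃ (n : ℕ) (ν ω : Fin 3 → ℂ⟦X⟧), 0 < n ∧
    Sol F m0 s (fun j => PowerSeries.C (n : ℂ)⁻¹ * th (u j)) ν ω ∧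
    ∀ k, IsHol γ r (ν k) ∧ IsHol γ r (ω k)

/-- [B1.cont] multiplication by `n`, over a local subring `S` of `ℂ⟦X⟧`; from `ABEL2`, `UNIQ` -/
def CONT : Prop := ∀ (S : Subring ℂ⟦X⟧) (F : ℂ[X]) (m0 s : Fin 3 → ℂ) (n : ℕ)
  (h ν ω m w : Fin 3 → ℂ⟦X⟧), (∀ c, PowerSeries.C c ∈ S) →
  (∀ y ∈ S, PowerSeries.constantCoeff y ≠ 0 → y⁻¹ ∈ S) → F.natDegree = 7 → 0 < n →
  Function.Injective m0 → (∀ k, s k ≠ 0) → (∀ k, ν k ∈ S ∧ ω k ∈ S) →
  (∀ k, ν k ≠ PowerSeries.C (m0 k)) →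
  Sol F m0 s (fun j => PowerSeries.C (n : ℂ)⁻¹ * h j) ν ω → Sol F m0 s h m w →
  ∀ i, (∏ k, (X - C (m k))).coeff i ∈ S

/-- [B1.gain] the archimedean gain: a bounded invariant series with a zero of order `T` -/
def GAIN : Prop := ∀ (γ : Gam) (r : ℝ), Real.exp (- Real.pi / (2 * (γ.c : ℝ) ^ 2)) < r →
  ∀ (f : ℂ⟦X⟧) (T : ℕ) (S : ℝ), IsHol γ r f → (∀ n < T, PowerSeries.coeff n f = 0) →
  (∀ q : ℂ, ‖q‖ = Real.exp (- Real.pi / (2 * (γ.c : ℝ) ^ 2)) → ‖ev f q‖ ≤ S) →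
  ‖PowerSeries.coeff T f‖ ≤ S * Real.exp (- T / (γ.c : ℝ) ^ 2)

/-- [B1.alg] the algebraicity criterion; from `HOL`, `GAIN` -/
def ALG : Prop := ∀ (K : Type) [Field K] [NumberField K] (γ : Gam) (r C : ℝ) (d : ℕ → ℕ)
  (x y : K⟦X⟧), Real.exp (- Real.pi / (2 * (γ.c : ℝ) ^ 2)) < r →
  (∀ σ : K →+* ℂ, IsHol γ r (x.map σ) ∧ IsOO γ r (y.map σ)) →
  (∀ n, 0 < d n ∧ (d n : ℝ) ≤ C * Real.exp (1 / (2 * (γ.c : ℝ) ^ 2) * n)) →
  (∀ a b n, IsIntegral ℤ ((d n : K) * PowerSeries.coeff n (x ^ a * y ^ b))) →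
  ∃ P : K[X][X], P ≠ 0 ∧ P.eval₂ (aeval x : K[X] →ₐ[K] K⟦X⟧) y = 0

/-! ### the results -/

/-- the analytic hypothesis -/
def AN {K : Type*} [Field K] (γ : Gam) (b : Fin 3 → ℕ → K) (x : ℤ⟦X⟧) : Prop :=
  IsHol γ 1 (x.map (Int.castRingHom ℂ)) ∧
    ∀ (σ : K →+* ℂ) (j : Fin 3), IsHol γ 1 (PowerSeries.mk fun n => σ (b j n) / n)

/-- [B1.top] the leaf is algebraic; from `ARITH HOL ANA CONT ALG` -/
def LEAFALG : Prop := ∀ (K : Type) [Field K] [NumberField K] (F : (𝓞 K)[X])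
  (b : Fin 3 → ℕ → 𝓞 K) (x : ℤ⟦X⟧) (γ : Gam), F.natDegree = 7 → (∀ j, b j 0 = 0) →
  (∃ j n, b j n ≠ 0) → (∃ n, n ≠ 0 ∧ PowerSeries.coeff n x ≠ 0) →
  AN γ (fun j n => (b j n : K)) x → CC F b →
  ∃ (K' : IntermediateField K (AlgebraicClosure K)) (M : ℕ) (m0 s : Fin 3 → K')
    (m w : Fin 3 → K'⟦X⟧), FiniteDimensional K K' ∧ 0 < M ∧ (∀ k, s k ≠ 0) ∧
    Sol ((F.map (algebraMap (𝓞 K) K)).map (algebraMap K K')) m0 s
      (fun j => PowerSeries.mk fun n => (M : K') * algebraMap K K' (b j n)) m w ∧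
    ∀ k, IsAlgebraic (Algebra.adjoin K' {x.map (Int.castRingHom K')}) (m k)

/-- a correspondence: a finite set with multiplicities of points of `w ^ 2 = F m` over an algebraic
closure `Om` of `Y`, stable under the Galois group, which pulls `m ^ j dm / w` back to
`M * η j * dx` (`D = d / dx`) -/
def CorrF {K Y Om : Type*} [Field K] [Field Y] [Field Om] [Algebra K Om] [Algebra Y Om]
    (F : K[X]) (D : Om → Om) (η : Fin 3 → Y) : Prop :=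
  ∃ (M : ℕ) (Z : Multiset (Om × Om)), 0 < M ∧ (∀ P ∈ Z, P.2 ≠ 0 ∧ P.2 ^ 2 = aeval P.1 F) ∧
    (∀ σ : Om ≃ₐ[Y] Om, Z.map (fun P => (σ P.1, σ P.2)) = Z) ∧
    ∀ j : Fin 3, (Z.map fun P => P.1 ^ (j : ℕ) * D P.1 / P.2).sum = M * algebraMap Y Om (η j)

/-- [B1.corr] **the output of B1**; from `LEAFALG`. `Y` is a field of `q`-expansions over `K`,
algebraic over `K (x)`, which contains `x` and the quotients `h j / (q dx/dq)` -/
def B1 : Prop := ∀ (K : Type) [Field K] [NumberField K] (F : (𝓞 K)[X])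
  (b : Fin 3 → ℕ → 𝓞 K) (x : ℤ⟦X⟧) (γ : Gam), F.natDegree = 7 → (∀ j, b j 0 = 0) →
  (∃ j n, b j n ≠ 0) → (∃ n, n ≠ 0 ∧ PowerSeries.coeff n x ≠ 0) →
  AN γ (fun j n => (b j n : K)) x → CC F b →
  ∀ (Y Om : Type) [Field Y] [Field Om] [Algebra K Y] [Algebra Y Om] [Algebra K Om]
    [IsScalarTower K Y Om] [IsAlgClosure Y Om] (e : Y →ₐ[K] LaurentSeries K) (x0 : Y)
    (η : Fin 3 → Y) (D : Derivation K Om Om),
    e x0 = (x.map (Int.castRingHom K) : K⟦X⟧) →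
    (∀ j, e (η j) * (th (x.map (Int.castRingHom K)) : K⟦X⟧) =
      (PowerSeries.mk fun n => (b j n : K) : K⟦X⟧)) →
    Algebra.IsAlgebraic (IntermediateField.adjoin K {x0}) Y → D (algebraMap Y Om x0) = 1 →
    CorrF (F.map (algebraMap (𝓞 K) K)) D η

/-! ### the Cartier matrix of the family -/

/-- **Cart** (output of FAITH) for an integral model `F` : the linear map
`ω 0 ↦ l0 g1, ω 1 ↦ l1 conj g3, ω 2 ↦ l2 g1` commutes with the Cartier operators -/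
def CartF (F : GaussianInt[X]) (S : Sys) (l0 l1 l2 : GaussianInt) : Prop :=
  ∃ B : ℕ, B ≠ 0 ∧ ∀ p : ℕ, p.Prime → ¬ p ∣ B → ∀ j : Fin 3,
    (p % 4 = 1 →
      (p : GaussianInt) ∣ cm F p j 0 * l0 + cm F p j 2 * l2 - ![l0, 0, l2] j * S.b p ∧
      (p : GaussianInt) ∣ cm F p j 1 * l1 - ![0, l1, 0] j * star (S.b p)) ∧
    (p % 4 = 3 →
      (p : GaussianInt) ∣ cm F p j 0 * star l0 + cm F p j 2 * star l2 -
        ![0, l1, 0] j * star (S.b p) ∧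
      (p : GaussianInt) ∣ cm F p j 1 * star l1 - ![l0, 0, l2] j * (3 * S.b p))

/-- the coefficients `c n` (`= a n` for `n ≡ 1`, `= a n / √3` for `n ≡ 3 mod 4`) satisfy the Hecke
recursion modulo `p` -/
def HeckeMod (S : Sys) (c : ℕ → GaussianInt) : Prop :=
  ∃ B : ℕ, B ≠ 0 ∧ ∀ p : ℕ, p.Prime → ¬ p ∣ B → ∀ n : ℕ,
    (p : GaussianInt) ∣ c (n * p) - (if p % 4 = 3 ∧ n % 4 = 3 then 3 else 1) * S.b p * c n

/-- the coefficients of the three forms `l0 g1, l1 conj g3, l2 g1` -/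
def hb (l0 l1 l2 : GaussianInt) (c : ℕ → GaussianInt) (j : Fin 3) (n : ℕ) : GaussianInt :=
  if n % 4 = 1 then ![l0, 0, l2] j * c n else if n % 4 = 3 then ![0, l1, 0] j * star (c n) else 0

/-- [B1.cc] -/
def CCG : Prop := ∀ (F : GaussianInt[X]) (S : Sys) (l0 l1 l2 : GaussianInt)
  (c : ℕ → GaussianInt), CartF F S l0 l1 l2 → HeckeMod S c → CC F (hb l0 l1 l2 c)

/-- [B1.cc], second part -/
def CCMAP : Prop := ∀ (O O' : Type) [CommRing O] [CommRing O'] (φ : O →+* O') (F : O[X])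
  (b : Fin 3 → ℕ → O), CC F b → CC (F.map φ) fun j n => φ (b j n)

end Vale.Agent.P027M.B
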