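import Vale.Agent.P025.R2.H492.Line
import Vale.Agent.P027M.B.Defs

/-! # P027, route M, block B : the hyperelliptic function field, its places, Abel's theorem -/

open Polynomial Vale.Agent.P019P P025H492

noncomputable section

namespace Vale.Agent.P027M.B

/-- `L = k (m, w)`, `w ^ 2 = F m`, `F` separable of degree `7` -/
structure Hyp {k L : Type*} [Field k] [Field L] [Algebra k L] (F : k[X]) (m w : L) : Prop where
  two : (2 : k) ≠ 0
  deg : F.natDegree = 7
  sep : F.Separable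
  tr : Transcendental k m
  sq : w ^ 2 = aeval m F
  top : ∀ z : L, ∃ a b c : k[X], c ≠ 0 ∧ aeval m c * z = aeval m a + aeval m b * w

section
variable {k L : Type*} [Field k] [Field L] [Algebra k L] [CFF k L]

/-- the value of `m ^ j d m / w` at a place (`0` at infinity and at the branch points) -/
def ajP (d : k → k) (m w : L) (j : ℕ) (P : Plk k L) : k :=
  if 0 ≤ ord P m then vl P m ^ j * d (vl P m) / vl P w else 0

/-- the infinitesimal Abel-Jacobi map `∑ n P * (m ^ j d m / w) (P)` -/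
def AJ (d : k → k) (m w : L) (j : ℕ) : (Plk k L →₀ ℤ) →+ k :=
  Finsupp.liftAddHom fun P => zmultiplesHom k (ajP d m w j P)

/-- the dictionary between places and points -/
structure Pts (F : k[X]) (m w : L) : Prop where
  /-- an affine place is a point -/
  pt : ∀ P : Plk k L, 0 ≤ ord P m → 0 ≤ ord P w ∧ vl P w ^ 2 = F.eval (vl P m)
  inj : ∀ P Q : Plk k L, 0 ≤ ord P m → 0 ≤ ord Q m → vl P m = vl Q m → vl P w = vl Q w → P = Q
  surj : ∀ μ s : k, s ^ 2 = F.eval μ → ∃ P : Plk k L, 0 ≤ ord P m ∧ vl P m = μ ∧ vl P w = s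
  /-- the place at infinity -/
  inf : ∃ P : Plk k L, ord P m = -2 ∧ ord P w = -7 ∧ ∀ Q : Plk k L, ord Q m < 0 → Q = P
  unif : ∀ P : Plk k L, 0 ≤ ord P m → vl P w ≠ 0 → ord P (m - algebraMap k L (vl P m)) = 1
  bra : ∀ P : Plk k L, 0 ≤ ord P m → vl P w = 0 →
    ord P (m - algebraMap k L (vl P m)) = 2 ∧ ord P w = 1
  /-- orders at a point which is not a branch point -/
  dvd : ∀ (P : Plk k L) (n : ℕ) (V a b : k[X]), 0 ≤ ord P m → vl P w ≠ 0 →
    (X - C (vl P m)) ^ n ∣ V ^ 2 - F → V.eval (vl P m) = vl P w →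
    (aeval m a + aeval m b * w ∈ Mge P n ↔ (X - C (vl P m)) ^ n ∣ a + b * V)
  /-- the functions without affine poles -/
  reg : ∀ z : L, (∀ P : Plk k L, 0 ≤ ord P m → 0 ≤ ord P z) →
    ∃ a b : k[X], z = aeval m a + aeval m b * w
  indep : ∀ a b : k[X], aeval m a + aeval m b * w = 0 → a = 0 ∧ b = 0
  /-- the hyperelliptic involution -/
  invol : ∃ ι : L ≃ₐ[k] L, ι m = m ∧ ι w = -w

end

/-- [B1.pts] -/
def PTS : Prop := ∀ (k L : Type) [Field k] [Field L] [Algebra k L] [CFF k L] (F : k[X]) (m w : L),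
  Hyp F m w → Pts F m w

/-- [B1.gen3] -/
def GEN3 : Prop := ∀ (k L : Type) [Field k] [Field L] [Algebra k L] [CFF k L] (F : k[X])
  (m w : L), Hyp F m w → gen k L = 3

/-- [B1.abeld] Abel's theorem for divisors; from `PTS`, `ABEL2` -/
def ABELD : Prop := ∀ (k L : Type) [Field k] [Field L] [Algebra k L] [CFF k L] (F : k[X])
  (m w : L) (d : Derivation ℤ k k), Hyp F m w → (∀ i, d (F.coeff i) = 0) →
  ∀ φ : L, φ ≠ 0 → ∀ j < 3, AJ d m w j (dv k φ) = 0

end Vale.Agent.P027M.B
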