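import Vale.Agent.P027M.B.Defs

/-! # P027, route M, block B1 : Abel's theorem as a polynomial identity -/

set_option linter.all false

open Polynomial

noncomputable section

namespace Vale.Agent.P027M.B

namespace Abel

variable {L : Type} [Field L]

/-- the sum of the residues of `h / U` -/
def top (U : L[X]) : L[X] →ₗ[L] L := (lcoeff L (U.natDegree - 1)).comp (modByMonicHom U)

theorem top_apply (U h : L[X]) : top U h = (h %ₘ U).coeff (U.natDegree - 1) := rfl

theorem top_congr {U h h' : L[X]} (hU : U.Monic) (e : U ∣ h - h') : top U h = top U h' := by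
  rw [top_apply, top_apply, modByMonic_eq_of_dvd_sub hU e]

theorem top_C_mul (U h : L[X]) (c : L) : top U (C c * h) = c * top U h := by
  rw [← smul_eq_C_mul, map_smul, smul_eq_mul]

theorem top_small {U h : L[X]} (hU : U.Monic) (e : h.natDegree < U.natDegree) :
    top U h = h.coeff (U.natDegree - 1) := by
  rw [top_apply, (modByMonic_eq_self_iff hU).2 (degree_lt_degree e)]

theorem top_mul {U₁ U₂ : L[X]} (h₁ : U₁.Monic) (h₂ : U₂.Monic) (h : L[X]) :
    top (U₁ * U₂) (h * U₂) = top U₁ h := by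
  by_cases e : U₁ = 1
  · subst e
    simp [top_apply, mul_self_modByMonic h₂]
  have a1 := natDegree_modByMonic_lt h h₁ e
  have a2 : top (U₁ * U₂) (h * U₂) = top (U₁ * U₂) (h %ₘ U₁ * U₂) :=
    top_congr (h₁.mul h₂) ⟨h /ₘ U₁, by linear_combination (-U₂) * modByMonic_add_div h U₁⟩
  have a3 : (U₁ * U₂).natDegree = U₁.natDegree + U₂.natDegree := h₁.natDegree_mul h₂
  have a4 : (h %ₘ U₁ * U₂).natDegree < (U₁ * U₂).natDegree :=
    natDegree_mul_le.trans_lt (by omega)
  rw [a2, top_small (h₁.mul h₂) a4, a3, top_apply,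
    show U₁.natDegree + U₂.natDegree - 1 = (U₁.natDegree - 1) + U₂.natDegree by omega,
    coeff_mul_add_eq_of_natDegree_le (by omega) le_rfl, h₂.coeff_natDegree, mul_one]

section

variable (D : Derivation ℤ L[X] L[X]) (h : L[X])

theorem phi_mul {U₁ U₂ : L[X]} (h₁ : U₁.Monic) (h₂ : U₂.Monic) :
    top (U₁ * U₂) (h * D (U₁ * U₂)) = top U₁ (h * D U₁) + top U₂ (h * D U₂) := by
  rw [← top_mul h₁ h₂ (h * D U₁), ← top_mul h₂ h₁ (h * D U₂), mul_comm U₂ U₁, ← map_add,
    D.leibniz, smul_eq_mul, smul_eq_mul]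
  congr 1
  ring

theorem phi_pow {U : L[X]} (hU : U.Monic) (n : ℕ) :
    top (U ^ n) (h * D (U ^ n)) = n * top U (h * D U) := by
  induction n with
  | zero => simp
  | succ n ih => rw [pow_succ, phi_mul D h (hU.pow n) hU, ih]; push_cast; ring

theorem phi_prod {ι : Type} (s : Finset ι) (U : ι → L[X]) (hU : ∀ i, (U i).Monic) :
    top (∏ i ∈ s, U i) (h * D (∏ i ∈ s, U i)) = ∑ i ∈ s, top (U i) (h * D (U i)) := by
  classical
  induction s using Finset.induction_on with
  | empty => simp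
  | insert a s ha ih =>
    rw [Finset.prod_insert ha, Finset.sum_insert ha,
      phi_mul D h (hU a) (monic_prod_of_monic _ _ fun i _ => hU i), ih]

end

theorem top_lin (mu : L) (h : L[X]) : top (X - C mu) h = h.eval mu := by
  rw [top_apply, modByMonic_X_sub_C_eq_C_eval, natDegree_X_sub_C]
  simp

theorem top_mono {p : ℕ} (hp : 0 < p) (nu : L) (k : ℕ) (c : L) :
    top (X ^ p - C nu) (monomial k c) = if k % p = p - 1 then c * nu ^ (k / p) else 0 := by
  have hm : (X ^ p - C nu : L[X]).Monic := monic_X_pow_sub_C nu hp.ne'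
  have e : (X ^ p - C nu : L[X]) ∣ monomial k c - monomial (k % p) (c * nu ^ (k / p)) := by
    have := (sub_dvd_pow_sub_pow (X ^ p : L[X]) (C nu) (k / p)).mul_left (C c * X ^ (k % p))
    convert this using 1
    rw [← C_mul_X_pow_eq_monomial, ← C_mul_X_pow_eq_monomial, ← pow_mul, C_mul, C_pow]
    conv_lhs => rw [← Nat.mod_add_div k p, pow_add, Nat.mod_add_div k p]
    ring
  have hd : (X ^ p - C nu : L[X]).natDegree = p := natDegree_X_pow_sub_C
  rw [top_congr hm e, top_small hm (by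
    rw [hd]; exact (natDegree_monomial_le _).trans_lt (Nat.mod_lt _ hp)), hd, coeff_monomial]

theorem top_ins {p : ℕ} (hp : 0 < p) (nu : L) (N : ℕ) (h : L[X])
    (hd : h.natDegree < (N + 1) * p - 1) :
    top (X ^ p - C nu) h = ∑ i ∈ Finset.range N, h.coeff ((i + 1) * p - 1) * nu ^ i := by
  conv_lhs => rw [h.as_sum_range, map_sum]
  conv_rhs => rw [h.as_sum_range]
  simp only [finsetSum_coeff, Finset.sum_mul]
  rw [Finset.sum_comm]
  refine Finset.sum_congr rfl fun k hk => ?_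
  have hk' : k < (N + 1) * p - 1 := by
    have := Finset.mem_range.1 hk
    omega
  have key : ∀ i, k = (i + 1) * p - 1 → k % p = p - 1 ∧ k / p = i := by
    intro i hi
    have : k = (p - 1) + p * i := by
      rw [hi, add_mul, one_mul, mul_comm]; omega
    rw [this, Nat.add_mul_mod_self_left, Nat.add_mul_div_left _ _ hp,
      Nat.mod_eq_of_lt (by omega), Nat.div_eq_of_lt (by omega), zero_add]
    exact ⟨rfl, rfl⟩
  rw [top_mono hp]
  simp only [coeff_monomial]
  split_ifs with h1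
  · have h2 : k = (k / p + 1) * p - 1 := by
      have := Nat.mod_add_div k p
      rw [add_mul, one_mul, mul_comm]; omega
    rw [Finset.sum_eq_single (k / p), if_pos h2]
    · intro i _ hi
      rw [if_neg fun h => hi (key i h).2.symm, zero_mul]
    · intro hn
      exfalso
      have h3 : N ≤ k / p := by simpa using hn
      have h4 := Nat.mul_le_mul_right p (Nat.add_le_add_right h3 1)
      omega
  · refine (Finset.sum_eq_zero fun i _ => ?_).symm
    rw [if_neg fun h => h1 (key i h).1, zero_mul]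

theorem deg_bd {A B F U : L[X]} {c : L} (hF : F.natDegree = 7) (hc : c ≠ 0) (hB : B ≠ 0)
    (h : A ^ 2 - B ^ 2 * F = C c * U) : A.natDegree + B.natDegree + 4 ≤ U.natDegree := by
  have hF0 : F ≠ 0 := by rintro rfl; simp at hF
  have h1 : (A ^ 2).natDegree = 2 * A.natDegree := natDegree_pow _ _
  have h2 : (B ^ 2 * F).natDegree = 2 * B.natDegree + 7 := by
    rw [natDegree_mul (pow_ne_zero _ hB) hF0, natDegree_pow, hF]
  have h3 : (A ^ 2 - B ^ 2 * F).natDegree = U.natDegree := by rw [h, natDegree_C_mul hc]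
  rcases lt_or_gt_of_ne (show (A ^ 2).natDegree ≠ (B ^ 2 * F).natDegree by omega) with e | e
  · rw [natDegree_sub_eq_right_of_natDegree_lt e] at h3
    omega
  · rw [natDegree_sub_eq_left_of_natDegree_lt e] at h3
    omega

end Abel

open Abel in
theorem abel : ABEL := by
  intro L _ d F p ι κ _ _ mu s n E nu t r A B V c h2 hF hdF hc hmu hs hV hE hp hnu ht hVp _ _ U hU
    hW hu hN j hj
  letI : Differential L := ⟨d⟩
  obtain ⟨D, hD⟩ : ∃ D : Derivation ℤ L[X] L[X], ∀ f i, (D f).coeff i = d (f.coeff i) :=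
    ⟨Differential.mapCoeffs, fun f i => Differential.coeff_mapCoeffs f i⟩
  have DC : ∀ x, D (C x) = C (d x) := fun x => by
    ext i
    rw [hD, coeff_C, coeff_C]
    split_ifs <;> simp
  have DX : D X = 0 := by
    ext i
    rw [hD, coeff_X]
    split_ifs <;> simp
  have DF : D F = 0 := by
    ext i
    rw [hD, hdF, coeff_zero]
  have Dd : ∀ f, (D f).natDegree ≤ f.natDegree := fun f =>
    natDegree_le_iff_coeff_eq_zero.2 fun i hi => by rw [hD, coeff_eq_zero_of_natDegree_lt hi, map_zero]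
  have m1 : ∀ i, ((X - C (mu i)) ^ n i).Monic := fun i => (monic_X_sub_C _).pow _
  have m2 : ∀ a, (X ^ p - C (nu a) : L[X]).Monic := fun a =>
    monic_X_pow_sub_C _ (hp a).1.ne_zero
  obtain ⟨U₁, e₁⟩ : ∃ U₁, U₁ = ∏ i, (X - C (mu i)) ^ n i := ⟨_, rfl⟩
  obtain ⟨U₂, e₂⟩ : ∃ U₂, U₂ = ∏ e ∈ E, (X - C e) := ⟨_, rfl⟩
  obtain ⟨U₃, e₃⟩ : ∃ U₃, U₃ = ∏ a, (X ^ p - C (nu a)) ^ r a := ⟨_, rfl⟩
  have M₁ : U₁.Monic := e₁ ▸ monic_prod_of_monic _ _ fun i _ => m1 i
  have M₂ : U₂.Monic := e₂ ▸ monic_prod_of_monic _ _ fun i _ => monic_X_sub_C _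
  have M₃ : U₃.Monic := e₃ ▸ monic_prod_of_monic _ _ fun i _ => (m2 i).pow _
  have eU : U = U₁ * U₃ * U₂ := by rw [hU, ← e₁, ← e₂, ← e₃]; ring
  have MU : U.Monic := eU ▸ (M₁.mul M₃).mul M₂
  have DU₂ : D U₂ = 0 := by
    rw [e₂]
    refine Finset.prod_induction _ (fun f => D f = 0) (fun f g h1 h2 => ?_) (by simp) fun e he => ?_
    · rw [D.leibniz, h1, h2, smul_zero, smul_zero, add_zero]
    · rw [map_sub, DX, DC, (hE e he).2, map_zero, sub_zero]
  obtain ⟨A₁, hA₁⟩ : U₂ ∣ A := by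
    rw [e₂]
    refine Finset.prod_dvd_of_coprime
      ((pairwise_coprime_X_sub_C Function.injective_id).set_pairwise _) fun e he => ?_
    have d1 : X - C e ∣ U := by
      rw [eU, e₂]
      exact (Finset.dvd_prod_of_mem _ he).mul_left _
    have d2 := dvd_iff_isRoot.1 (d1.trans hW)
    have d3 := dvd_iff_isRoot.1 (d1.trans hu)
    rw [IsRoot, eval_sub, eval_pow, (hE e he).1, sub_zero, pow_eq_zero_iff two_ne_zero] at d2
    rw [IsRoot, eval_add, eval_mul, d2, mul_zero, add_zero] at d3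
    exact dvd_iff_isRoot.2 d3
  have hW' := hW
  obtain ⟨W, hW⟩ := hW
  obtain ⟨u, hu⟩ := hu
  have c1 : C c = u * (A - B * V) + B ^ 2 * W :=
    mul_left_cancel₀ MU.ne_zero (by linear_combination -hN + (A - B * V) * hu + B ^ 2 * hW)
  have c2 := congrArg D hu
  have c3 := congrArg D hW
  simp only [map_add, map_sub, D.leibniz, sq, smul_eq_mul, DF] at c2 c3
  have c4 : D U = U₂ * D (U₁ * U₃) := by
    rw [eU, D.leibniz, DU₂, smul_zero, zero_add, smul_eq_mul]
  have c5 : D A = U₂ * D A₁ := by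
    rw [hA₁, D.leibniz, DU₂, smul_zero, add_zero, smul_eq_mul]
  have c6 : 2 * V * (D B * A - D A * B) - C c * D U =
      U * (2 * V * (D B * u - B * D u) + B ^ 2 * D W - u ^ 2 * D U) := by
    linear_combination (-(D U)) * c1 + (2 * V * D B - u * D U) * hu - 2 * V * B * c2 + B ^ 2 * c3
  have c7 : U₁ * U₃ ∣ 2 * V * (D B * A₁ - D A₁ * B) - C c * D (U₁ * U₃) := by
    refine ⟨2 * V * (D B * u - B * D u) + B ^ 2 * D W - u ^ 2 * D U,
      mul_left_cancel₀ M₂.ne_zero ?_⟩
    linear_combination c6 - (2 * V * D B) * hA₁ + (2 * V * B) * c5 + C c * c4 +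
      (2 * V * (D B * u - B * D u) + B ^ 2 * D W - u ^ 2 * D U) * eU
  have cop : IsCoprime V (U₁ * U₃) := by
    rw [e₁, e₃]
    refine IsCoprime.mul_right (IsCoprime.prod_right fun i _ => IsCoprime.pow_right ?_)
      (IsCoprime.prod_right fun a _ => IsCoprime.pow_right ?_)
    · obtain ⟨q, hq⟩ := X_sub_C_dvd_sub_C_eval (p := V) (a := mu i)
      rw [hV] at hq
      refine ⟨C (s i)⁻¹, -(C (s i)⁻¹ * q), ?_⟩
      have : C (s i)⁻¹ * C (s i) = (1 : L[X]) := by rw [← C_mul, inv_mul_cancel₀ (hs i), C_1]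
      linear_combination C (s i)⁻¹ * hq + this
    · obtain ⟨q, hq⟩ := hVp a
      refine (IsCoprime.pow_left_iff (hp a).1.pos).1 ?_
      refine ⟨C (t a)⁻¹, -(C (t a)⁻¹ * q), ?_⟩
      have : C (t a)⁻¹ * C (t a) = (1 : L[X]) := by rw [← C_mul, inv_mul_cancel₀ (ht a), C_1]
      linear_combination C (t a)⁻¹ * hq + this
  obtain ⟨α, β, hαβ⟩ := cop
  have z1 : top U (X ^ j * (D B * A - D A * B)) = 0 := by
    by_cases hB : B = 0
    · simp [hB]
    have a1 := deg_bd hF hc hB hN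
    have a2 : (X ^ j * (D B * A - D A * B)).natDegree ≤ j + (A.natDegree + B.natDegree) := by
      refine natDegree_mul_le.trans (add_le_add (natDegree_X_pow_le _) ((natDegree_sub_le _ _).trans
        (max_le (natDegree_mul_le.trans ?_) (natDegree_mul_le.trans ?_))))
      · linarith [Dd B]
      · linarith [Dd A]
    rw [top_small MU (by omega)]
    exact coeff_eq_zero_of_natDegree_lt (by omega)
  have z2 : top (U₁ * U₃) (X ^ j * (D B * A₁ - D A₁ * B)) = 0 := by
    rw [← top_mul (M₁.mul M₃) M₂, ← eU, ← z1, c5, hA₁]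
    congr 1
    ring
  have z3 : top (U₁ * U₃) (X ^ j * α * D (U₁ * U₃)) = 0 := by
    refine (mul_eq_zero.1 ?_).resolve_left hc
    obtain ⟨q, hq⟩ := c7
    rw [← top_C_mul, top_congr (M₁.mul M₃) (h' := C 2 * (X ^ j * (D B * A₁ - D A₁ * B)))
      ⟨-(X ^ j * α * q) - 2 * X ^ j * (D B * A₁ - D A₁ * B) * β, ?_⟩, top_C_mul, z2, mul_zero]
    rw [map_ofNat]
    linear_combination (-(X ^ j * α)) * hq + (2 * X ^ j * (D B * A₁ - D A₁ * B)) * hαβ
  rw [phi_mul D _ M₁ M₃, e₁, e₃, phi_prod D _ _ _ m1, phi_prod D _ _ _ fun a => (m2 a).pow _] at z3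
  rw [← neg_eq_zero, neg_add, ← Finset.sum_neg_distrib, ← Finset.sum_neg_distrib, ← z3]
  congr 1
  · refine Finset.sum_congr rfl fun i _ => ?_
    rw [phi_pow D _ (monic_X_sub_C _)]
    rcases Nat.eq_zero_or_pos (n i) with h0 | h0
    · simp [h0]
    have d1 : X - C (mu i) ∣ U₁ * U₃ := by
      rw [e₁]
      exact ((dvd_pow_self _ h0.ne').trans
        (Finset.dvd_prod_of_mem (fun i => (X - C (mu i)) ^ n i) (Finset.mem_univ i))).mul_right _
    have d2 := congrArg (eval (mu i)) hαβ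
    rw [eval_add, eval_mul, eval_mul, dvd_iff_isRoot.1 d1, hV, eval_one, mul_zero, add_zero] at d2
    rw [top_lin, map_sub, DX, DC]
    simp only [eval_mul, eval_pow, eval_X, eval_sub, eval_zero, eval_C]
    rw [eq_div_of_mul_eq (hs i) d2]
    ring
  · refine Finset.sum_congr rfl fun a _ => ?_
    rw [phi_pow D _ (m2 a)]
    rcases Nat.eq_zero_or_pos (r a) with h0 | h0
    · simp [h0]
    obtain ⟨pp, p2, -⟩ := hp a
    obtain ⟨k, hk⟩ := pp.odd_of_ne_two p2
    have k1 : 1 ≤ k := by have := pp.two_le; omega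
    have hk' : (p - 1) / 2 = k := by omega
    have d1 : X ^ p - C (nu a) ∣ U₁ * U₃ := by
      rw [e₃]
      exact ((dvd_pow_self _ h0.ne').trans
        (Finset.dvd_prod_of_mem (fun a => (X ^ p - C (nu a)) ^ r a) (Finset.mem_univ a))).mul_left _
    have d2 : X ^ p - C (nu a) ∣ (V ^ 2) ^ k - F ^ k :=
      ((d1.mul_right U₂).trans (eU ▸ hW')).trans (sub_dvd_pow_sub_pow _ _ _)
    have d3 : X ^ p - C (nu a) ∣ α - C (t a)⁻¹ * F ^ k := by
      obtain ⟨q1, h1⟩ := d1
      obtain ⟨q2, h2⟩ := d2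
      obtain ⟨q3, h3⟩ := hVp a
      have h4 : C (t a)⁻¹ * C (t a) = (1 : L[X]) := by rw [← C_mul, inv_mul_cancel₀ (ht a), C_1]
      have h5 : V ^ p = V * (V ^ 2) ^ k := by rw [hk]; ring
      refine ⟨C (t a)⁻¹ * (q2 - α * q3 - (V ^ 2) ^ k * β * q1), ?_⟩
      linear_combination (-α) * h4 + C (t a)⁻¹ * h2 - C (t a)⁻¹ * α * h3 + C (t a)⁻¹ * α * h5 +
        C (t a)⁻¹ * (V ^ 2) ^ k * hαβ - C (t a)⁻¹ * (V ^ 2) ^ k * β * h1
    have d4 : (X ^ j * F ^ k).natDegree < (3 + 1) * p - 1 := by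
      have := natDegree_mul_le (p := (X ^ j : L[X])) (q := F ^ k)
      rw [natDegree_X_pow, natDegree_pow, hF] at this
      omega
    rw [map_sub, D.leibniz_pow, DX, DC, top_congr (m2 a)
      (h' := C (-(d (nu a) * (t a)⁻¹)) * (X ^ j * F ^ k)) ?_, top_C_mul, top_ins pp.pos _ 3 _ d4]
    · simp only [cm, hk']
      ring
    · have := d3.mul_left (-(X ^ j * C (d (nu a))))
      convert this using 1
      simp only [smul_zero, map_neg, map_mul]
      ring

end Vale.Agent.P027M.B
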