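import Vale.Agent.P027M.B.Defs

/-! # P027, route M, block B1 : Abel's theorem for a split norm -/

set_option linter.all false

open Polynomial

noncomputable section

namespace Vale.Agent.P027M.B

theorem abel2 (h : ABEL) : ABEL2 := by
  intro L _ d F ι _ mu s a b V A B c h2 hF hd hc hmu hs hV h3 h4 h5 h6 j hj
  classical
  obtain ⟨e, n, ε, H⟩ : ∃ (e n : ι → ℕ) (ε : ι → L), ∀ i, e i ≤ a i ∧ e i ≤ b i ∧
      a i + b i = n i + 2 * e i ∧ ε i ^ 2 = 1 ∧ (a i : L) - b i = ε i * n i ∧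
      (X - C (mu i)) ^ (e i + n i) ∣ A + B * (C (ε i) * V i) := by
    refine ⟨fun i => min (a i) (b i), fun i => a i + b i - 2 * min (a i) (b i),
      fun i => if b i ≤ a i then 1 else -1, fun i => ⟨min_le_left _ _, min_le_right _ _,
        by beta_reduce; omega, by beta_reduce; split_ifs <;> simp, ?_⟩⟩
    by_cases k : b i ≤ a i
    · simp only [if_pos k, min_eq_right k, show a i + b i - 2 * b i = a i - b i by omega]
      rw [Nat.cast_sub k, Nat.add_sub_cancel' k, C_1, one_mul, one_mul]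
      exact ⟨rfl, h4 i⟩
    · have l := (not_le.1 k).le
      simp only [if_neg k, min_eq_left l, show a i + b i - 2 * a i = b i - a i by omega]
      rw [Nat.cast_sub l, Nat.add_sub_cancel' l, C_neg, C_1, neg_one_mul, neg_one_mul, neg_sub,
        mul_neg, ← sub_eq_add_neg]
      exact ⟨rfl, h5 i⟩
  have co : ∀ (m : ι → ℕ) {i k : ι}, i ≠ k → ∀ r, IsCoprime ((X - C (mu i)) ^ r)
      ((X - C (mu k)) ^ m k) := fun m _ _ l r => (pairwise_coprime_X_sub_C hmu l).pow
  have pd : ∀ (m : ι → ℕ) (z : L[X]), (∀ i, (X - C (mu i)) ^ m i ∣ z) →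
      ∏ i, (X - C (mu i)) ^ m i ∣ z := fun m z =>
    Fintype.prod_dvd_of_coprime fun _ _ l => co m l _
  have dA : ∀ i, (X - C (mu i)) ^ e i ∣ A := fun i => by
    have := dvd_add ((pow_dvd_pow _ (H i).1).trans (h4 i)) ((pow_dvd_pow _ (H i).2.1).trans (h5 i))
    rwa [show A + B * V i + (A - B * V i) = C 2 * A by rw [map_ofNat]; ring,
      (isUnit_C.2 h2.isUnit).dvd_mul_left] at this
  obtain ⟨A₁, rfl⟩ := pd e A dA
  obtain ⟨B₁, rfl⟩ := pd e B fun i =>
    (((irreducible_X_sub_C _).coprime_iff_not_dvd.2 fun k => hs i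
      ((hV i).symm.trans (dvd_iff_isRoot.1 k))).pow_left).dvd_of_dvd_mul_right
        ((dvd_add_right (dA i)).1 ((pow_dvd_pow _ (H i).1).trans (h4 i)))
  obtain ⟨W, hW⟩ := Ideal.exists_forall_sub_mem_ideal
    (I := fun i => Ideal.span {(X - C (mu i)) ^ (n i + 1)}) (fun _ _ l =>
      (Ideal.isCoprime_span_singleton_iff _ _).2 (co (fun i => n i + 1) l _)) fun i => C (ε i) * V i
  simp only [Ideal.mem_span_singleton] at hW
  have e0 : ∀ i, ε i ≠ 0 := fun i k => by simpa [k] using (H i).2.2.2.1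
  have hU : ∏ i, (X - C (mu i)) ^ n i = (∏ i, (X - C (mu i)) ^ n i) *
      (∏ e ∈ (∅ : Finset L), (X - C e)) * ∏ a : Empty, (X ^ 0 - C a.elim) ^ (a.elim : ℕ) := by simp
  have := h L d F 0 ι Empty mu (fun i => ε i * s i) n ∅ Empty.elim Empty.elim Empty.elim A₁ B₁ W c
    h2 hF hd hc hmu (fun i => mul_ne_zero (e0 i) (hs i)) (fun i => ?_) (by simp) (·.elim) (·.elim)
    (·.elim) (·.elim) (·.elim) (·.elim) _ hU (pd n _ fun i => ?_) (pd n _ fun i => ?_) ?_ j hj
  · rw [Finset.univ_eq_empty (α := Empty), Finset.sum_empty, add_zero] at this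
    refine (Finset.sum_congr rfl fun i _ => ?_).trans this
    have := e0 i
    have := hs i
    rw [(H i).2.2.2.2.1]
    field_simp
    linear_combination (n i : L) * d (mu i) * mu i ^ j * (H i).2.2.2.1
  · simpa [sub_eq_zero, hV] using dvd_iff_isRoot.1 ((dvd_pow_self _ (n i).succ_ne_zero).trans (hW i))
  · rw [show W ^ 2 - F = (W - C (ε i) * V i) * (W + C (ε i) * V i) + (C (ε i ^ 2) * V i ^ 2 - F) by
      rw [C_pow]; ring, (H i).2.2.2.1, C_1, one_mul]
    exact dvd_add (((pow_dvd_pow _ (n i).le_succ).trans (hW i)).mul_right _)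
      ((pow_dvd_pow _ (by have := (H i).2.2.1; omega)).trans (h3 i))
  · have k := (H i).2.2.2.2.2
    rw [mul_assoc, ← mul_add, ← Finset.mul_prod_erase _ _ (Finset.mem_univ i), pow_add, mul_assoc,
      mul_dvd_mul_iff_left (pow_ne_zero _ (X_sub_C_ne_zero _))] at k
    rw [show A₁ + B₁ * W = A₁ + B₁ * (C (ε i) * V i) + B₁ * (W - C (ε i) * V i) by ring]
    exact dvd_add ((IsCoprime.prod_right fun l hl =>
      co e (Finset.ne_of_mem_erase hl).symm _).dvd_of_dvd_mul_left k)
      (((pow_dvd_pow _ (n i).le_succ).trans (hW i)).mul_left _)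
  · refine mul_left_cancel₀ (pow_ne_zero 2 (Finset.prod_ne_zero_iff.2 fun i (_ : i ∈ Finset.univ) =>
      pow_ne_zero (e i) (X_sub_C_ne_zero (mu i)))) ?_
    simp only [fun i => (H i).2.2.1, pow_add, pow_mul', Finset.prod_mul_distrib, Finset.prod_pow] at h6
    linear_combination h6

end Vale.Agent.P027M.B
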