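import Vale.Agent.P027M.B.AJ

/-! # P027, route M, row B1.abeld : Abel's theorem for principal divisors -/

open Polynomial Vale.Agent.P019P P025H492

noncomputable section

namespace Vale.Agent.P027M.B.Abeld

variable {k L : Type} [Field k] [Field L] [Algebra k L] [CFF k L] {F : k[X]} {m w : L}

theorem ajP_zero (d : k → k) (j : ℕ) {P : Plk k L} (h : ¬ (0 ≤ ord P m ∧ vl P w ≠ 0)) :
    ajP d m w j P = 0 := by
  unfold ajP
  split_ifs with h1
  · have : vl P w = 0 := by by_contra h2; exact h ⟨h1, h2⟩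
    rw [this, div_zero]
  · rfl

theorem AJ_eq (d : k → k) (j : ℕ) {ι : Type} [Fintype ι] (Pl : ι → Plk k L)
    (hi : Function.Injective Pl) (D : Plk k L →₀ ℤ)
    (h : ∀ P, 0 ≤ ord P m → vl P w ≠ 0 → (∀ i, P ≠ Pl i) → D P = 0) :
    AJ d m w j D = ∑ i, (D (Pl i) : k) * ajP d m w j (Pl i) := by
  classical
  rw [AJ, Finsupp.liftAddHom_apply, Finsupp.sum]
  refine Eq.trans ?_ (Finset.sum_map Finset.univ ⟨Pl, hi⟩ fun P => (D P : k) * ajP d m w j P)
  refine Finset.sum_congr_of_eq_on_inter (fun P h1 h2 => ?_) (fun P _ h2 => ?_) fun P _ _ => ?_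
  · rw [ajP_zero d j fun h3 => Finsupp.mem_support_iff.1 h1
      (h P h3.1 h3.2 fun i e => h2 (Finset.mem_map.2 ⟨i, Finset.mem_univ _, e.symm⟩))]
    simp
  · rw [Finsupp.notMem_support_iff.1 h2]; simp
  · simp

theorem aeval_ne (hH : Hyp F m w) {c : k[X]} (hc : c ≠ 0) : aeval m c ≠ 0 :=
  fun h => hc (transcendental_iff.1 hH.tr c h)

theorem ord_of_eval_ne {P : Plk k L} (hP : 0 ≤ ord P m) {c : k[X]} (hc : c.eval (vl P m) ≠ 0) :
    ord P (aeval m c) = 0 := by
  obtain ⟨q, hq⟩ := X_sub_C_dvd_sub_C_eval (a := vl P m) (p := c)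
  have e : aeval m c = algebraMap k L (c.eval (vl P m)) +
      (m - algebraMap k L (vl P m)) * aeval m q := by
    have := congrArg (aeval m) hq
    simp only [map_sub, map_mul, aeval_X, aeval_C] at this
    rw [← this]; ring
  have h1 := mul_mem_Mge (sub_vl_mem hP) (aeval_mem_zero hP q)
  rw [e, (ord_add_of_lt ((_root_.map_ne_zero _).2 hc) (by rw [ord_const]; simpa using h1)).2,
    ord_const]

theorem ord_aeval (hH : Hyp F m w) (hP : Pts F m w) {P : Plk k L} (h1 : 0 ≤ ord P m)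
    (h2 : vl P w ≠ 0) {c : k[X]} (hc : c ≠ 0) :
    ord P (aeval m c) = c.rootMultiplicity (vl P m) := by
  obtain ⟨q, hq, hq'⟩ := c.exists_eq_pow_rootMultiplicity_mul_and_not_dvd hc (vl P m)
  have hq0 : q ≠ 0 := fun h => hq' (h ▸ dvd_zero _)
  conv_lhs => rw [hq]
  rw [map_mul, ord_mul P (aeval_ne hH (pow_ne_zero _ (X_sub_C_ne_zero _))) (aeval_ne hH hq0),
    ord_of_eval_ne h1 (fun h => hq' (dvd_iff_isRoot.2 h)), map_pow, ord_pow, map_sub, aeval_X,
    aeval_C, hP.unif P h1 h2]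
  simp

theorem AJ_lin (hH : Hyp F m w) (hP : Pts F m w) (d : k → k) (j : ℕ) (μ : k) :
    AJ d m w j (dv k (aeval m (X - C μ))) = 0 := by
  classical
  have := CFF.ac (k := k) (F := L)
  obtain ⟨s, hs⟩ := IsAlgClosed.exists_pow_nat_eq (F.eval μ) two_pos
  have hord : ∀ P : Plk k L, 0 ≤ ord P m → vl P w ≠ 0 →
      dv k (aeval m (X - C μ)) P = if vl P m = μ then 1 else 0 := by
    intro P h1 h2
    rw [dv_apply, ord_aeval hH hP h1 h2 (X_sub_C_ne_zero _), rootMultiplicity_X_sub_C]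
    split_ifs <;> rfl
  by_cases h0 : s = 0
  · rw [AJ_eq d j (ι := Empty) Empty.elim (fun a => a.elim) _ fun P h1 h2 _ => ?_]
    · simp
    · rw [hord P h1 h2, if_neg]
      intro e
      have := (hP.pt P h1).2
      rw [e, ← hs, h0] at this
      exact h2 (by simpa using this)
  · obtain ⟨P, h1, h2, h3⟩ := hP.surj μ s hs
    obtain ⟨Q, h4, h5, h6⟩ := hP.surj μ (-s) (by rw [neg_sq, hs])
    have hne : P ≠ Q := by
      intro e
      rw [e, h6] at h3
      exact mul_ne_zero hH.two h0 (by linear_combination -h3)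
    rw [AJ_eq d j ![P, Q] (by
      intro a b; fin_cases a <;> fin_cases b <;> simp [hne, hne.symm]) _ fun R h7 h8 h9 => ?_]
    · rw [Fin.sum_univ_two]
      simp only [Matrix.cons_val_zero, Matrix.cons_val_one]
      rw [hord P h1 (by rwa [h3]), hord Q h4 (by rw [h6]; exact neg_ne_zero.2 h0), if_pos h2,
        if_pos h5, ajP, ajP, if_pos h1, if_pos h4, h2, h3, h5, h6, div_neg]
      simp
    · rw [hord R h7 h8, if_neg]
      intro e
      have := (hP.pt R h7).2
      rw [e, ← hs] at this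
      rcases sq_eq_sq_iff_eq_or_eq_neg.1 this with h | h
      · exact h9 0 (hP.inj R P h7 h1 (e.trans h2.symm) (h.trans h3.symm))
      · exact h9 1 (hP.inj R Q h7 h4 (e.trans h5.symm) (h.trans h6.symm))

theorem AJ_poly (hH : Hyp F m w) (hP : Pts F m w) (d : k → k) (j : ℕ) {c : k[X]} (hc : c ≠ 0) :
    AJ d m w j (dv k (aeval m c)) = 0 := by
  have := CFF.ac (k := k) (F := L)
  have key : ∀ s : Multiset k, AJ d m w j (dv k (aeval m (s.map fun a => X - C a).prod)) = 0 := by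
    intro s
    induction s using Multiset.induction_on with
    | empty =>
      have := dv_const (k := k) (F := L) 1
      rw [map_one] at this
      simp [this]
    | cons a s ih =>
      rw [Multiset.map_cons, Multiset.prod_cons, map_mul, dv_mul (aeval_ne hH (X_sub_C_ne_zero _))
        (aeval_ne hH (monic_multisetProd_X_sub_C s).ne_zero), map_add, ih, AJ_lin hH hP, add_zero]
  rw [← C_leadingCoeff_mul_prod_multiset_X_sub_C (IsAlgClosed.card_roots_eq_natDegree (p := c)),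
    map_mul, dv_mul (aeval_ne hH (C_ne_zero.2 (leadingCoeff_ne_zero.2 hc)))
      (aeval_ne hH (monic_multisetProd_X_sub_C _).ne_zero), map_add, key, aeval_C, dv_const,
    map_zero, add_zero]

theorem der_eval (d : Derivation ℤ k k) (hd : ∀ i, d (F.coeff i) = 0) (e : k) :
    d (F.eval e) = F.derivative.eval e * d e := by
  rw [derivative_eval, eval_eq_sum, Polynomial.sum, Polynomial.sum, map_sum, Finset.sum_mul]
  refine Finset.sum_congr rfl fun i _ => ?_
  rw [Derivation.leibniz, hd, Derivation.leibniz_pow]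
  simp only [smul_eq_mul, nsmul_eq_mul]
  ring

theorem mem0 (hP : Pts F m w) {P : Plk k L} (h1 : 0 ≤ ord P m) (a b : k[X]) :
    aeval m a + aeval m b * w ∈ Mge P 0 :=
  add_mem (aeval_mem_zero h1 a) (by
    simpa using mul_mem_Mge (aeval_mem_zero h1 b) (mem_Mge.2 (Or.inr (hP.pt P h1).1)))

theorem ex_V {a b : k[X]} (hab : IsCoprime a b) :
    ∃ V : k[X], a ^ 2 - b ^ 2 * F ∣ a + b * V ∧ a ^ 2 - b ^ 2 * F ∣ V ^ 2 - F := by
  set N := a ^ 2 - b ^ 2 * F with hN
  have hbN : IsCoprime N b := by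
    have h1 : N = a ^ 2 + b * (-b * F) := by rw [hN]; ring
    rw [h1]
    exact (hab.pow_left (m := 2)).add_mul_left_left _
  obtain ⟨u, v, huv⟩ := hbN
  have h1 : N ∣ a + b * (-a * v) := ⟨a * u, by linear_combination -a * huv⟩
  refine ⟨-a * v, h1, (IsCoprime.pow_right (n := 2) ⟨u, v, huv⟩).dvd_of_dvd_mul_left ?_⟩
  have h2 : b ^ 2 * ((-a * v) ^ 2 - F) = (a + b * (-a * v)) * (b * (-a * v) - a) + N := by
    rw [hN]; ring
  rw [h2]
  exact dvd_add (h1.mul_right _) dvd_rfl

theorem root_sq {N V : k[X]} (hV2 : N ∣ V ^ 2 - F) {μ : k} (h : N.IsRoot μ) :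
    V.eval μ ^ 2 = F.eval μ := by
  have := (h.dvd hV2).eq_zero
  rwa [eval_sub, eval_pow, sub_eq_zero] at this

theorem poly_part [IsAlgClosed k] [DecidableEq k] (hA : ABEL) (h2 : (2 : k) ≠ 0)
    (hdeg : F.natDegree = 7) (hsep : F.Separable) (d : Derivation ℤ k k)
    (hd : ∀ i, d (F.coeff i) = 0) {a b V N : k[X]} (hN : a ^ 2 - b ^ 2 * F = N) (hN0 : N ≠ 0)
    (hV1 : N ∣ a + b * V) (hV2 : N ∣ V ^ 2 - F) {j : ℕ} (hj : j < 3) :
    ∑ i : {μ // μ ∈ N.roots.toFinset.filter fun e => ¬ F.eval e = 0},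
      (N.rootMultiplicity i.1 : k) * (i.1 ^ j * d i.1 / V.eval i.1) = 0 := by
  set T := N.roots.toFinset with hT
  have hTm : ∀ μ, μ ∈ T ↔ N.IsRoot μ := fun μ => by rw [hT, Multiset.mem_toFinset, mem_roots hN0]
  have hE : ∀ e ∈ T.filter fun e => F.eval e = 0, N.rootMultiplicity e = 1 := by
    intro e he
    obtain ⟨h1, h2⟩ := Finset.mem_filter.1 he
    have h3 := (rootMultiplicity_pos hN0).2 ((hTm e).1 h1)
    by_contra h4
    have h5 : (X - C e) ^ 2 ∣ V ^ 2 - F :=
      ((pow_dvd_pow _ (by omega)).trans (pow_rootMultiplicity_dvd N e)).trans hV2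
    have h6 : X - C e ∣ V := dvd_iff_isRoot.2 (by
      have := root_sq hV2 ((hTm e).1 h1)
      rw [h2] at this
      exact pow_eq_zero_iff two_ne_zero |>.1 this)
    have h7 : (X - C e) * (X - C e) ∣ F := by
      have := dvd_sub (pow_dvd_pow_of_dvd h6 2) h5
      rwa [sub_sub_cancel, sq] at this
    exact not_isUnit_X_sub_C e (hsep.squarefree _ h7)
  have hι : ∀ i : {μ // μ ∈ T.filter fun e => ¬ F.eval e = 0}, V.eval i.1 ≠ 0 := fun i h => by
    obtain ⟨h1, h2⟩ := Finset.mem_filter.1 i.2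
    exact h2 (by rw [← root_sq hV2 ((hTm _).1 h1), h, zero_pow two_ne_zero])
  set U : k[X] := (N.roots.map fun a => X - C a).prod with hU
  have hNU : N = C N.leadingCoeff * U :=
    (C_leadingCoeff_mul_prod_multiset_X_sub_C IsAlgClosed.card_roots_eq_natDegree).symm
  have hUN : U ∣ N := ⟨C N.leadingCoeff, by rw [mul_comm]; exact hNU⟩
  have hab := hA k d F 0 {μ // μ ∈ T.filter fun e => ¬ F.eval e = 0} Empty (fun i => i.1)
    (fun i => V.eval i.1)
    (fun i => N.rootMultiplicity i.1) (T.filter fun e => F.eval e = 0) Empty.elim Empty.elim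
    Empty.elim a b V N.leadingCoeff h2 hdeg hd (leadingCoeff_ne_zero.2 hN0)
    Subtype.val_injective hι (fun _ => rfl)
    (fun e he => by
      have h2 := (Finset.mem_filter.1 he).2
      refine ⟨h2, ?_⟩
      have h3 := der_eval d hd e
      rw [h2, map_zero] at h3
      refine (mul_eq_zero.1 h3.symm).resolve_left ?_
      simpa using hsep.aeval_derivative_ne_zero (x := e) (by simpa using h2))
    (fun a => a.elim) (fun a => a.elim) (fun a => a.elim) (fun a => a.elim) (fun a => a.elim)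
    (fun a => a.elim) U (by
      rw [hU, prod_multiset_root_eq_finset_root, ← hT, Finset.univ_eq_empty (α := Empty),
        Finset.prod_empty,
        mul_one, Finset.prod_coe_sort _ fun μ => (X - C μ) ^ N.rootMultiplicity μ, mul_comm,
        ← Finset.prod_filter_mul_prod_filter_not T fun e => F.eval e = 0]
      congr 1
      exact Finset.prod_congr rfl fun e he => by rw [hE e he, pow_one])
    (hUN.trans hV2) (hUN.trans hV1) (hN.trans hNU) j hj
  rwa [Finset.univ_eq_empty (α := Empty), Finset.sum_empty, add_zero] at hab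

theorem ord_ab (hH : Hyp F m w) (hP : Pts F m w) {a b V N : k[X]} (hN : a ^ 2 - b ^ 2 * F = N)
    (hN0 : N ≠ 0) (hV1 : N ∣ a + b * V) (hV2 : N ∣ V ^ 2 - F) {P : Plk k L} (h4 : 0 ≤ ord P m)
    (h5 : vl P w ≠ 0) :
    (V.eval (vl P m) = vl P w →
      ord P (aeval m a + aeval m b * w) = N.rootMultiplicity (vl P m)) ∧
    (-V.eval (vl P m) = vl P w → ord P (aeval m a + aeval m b * w) = 0) ∧
    (¬ N.IsRoot (vl P m) → ord P (aeval m a + aeval m b * w) = 0) := by
  have hmul : (aeval m a + aeval m b * w) * (aeval m a + aeval m (-b) * w) = aeval m N := by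
    rw [← hN, map_sub, map_mul, map_pow, map_pow, map_neg, ← hH.sq]; ring
  have h0 := aeval_ne hH hN0
  rw [← hmul] at h0
  have hψ := left_ne_zero_of_mul h0
  have hψ' := right_ne_zero_of_mul h0
  have h9 : ord P (aeval m a + aeval m b * w) + ord P (aeval m a + aeval m (-b) * w) =
      N.rootMultiplicity (vl P m) := by
    rw [← ord_mul P hψ hψ', hmul, ord_aeval hH hP h4 h5 hN0]
  have h10 := (mem_Mge.1 (mem0 hP h4 a b)).resolve_left hψ
  have h11 := (mem_Mge.1 (mem0 hP h4 a (-b))).resolve_left hψ'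
  refine ⟨fun h => ?_, fun h => ?_, fun h => ?_⟩
  · have h7 := (hP.dvd P (N.rootMultiplicity (vl P m)) V a b h4 h5
      ((pow_rootMultiplicity_dvd N _).trans hV2) h).2 ((pow_rootMultiplicity_dvd N _).trans hV1)
    have h8 := (mem_Mge.1 h7).resolve_left hψ
    omega
  · have h7 := (hP.dvd P (N.rootMultiplicity (vl P m)) (-V) a (-b) h4 h5
      (by rw [neg_sq]; exact (pow_rootMultiplicity_dvd N _).trans hV2) (by rw [eval_neg, h])).2
      (by rw [neg_mul_neg]; exact (pow_rootMultiplicity_dvd N _).trans hV1)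
    have h8 := (mem_Mge.1 h7).resolve_left hψ'
    omega
  · rw [rootMultiplicity_eq_zero h] at h9
    omega

theorem AJ_cop (hA : ABEL) (hH : Hyp F m w) (hP : Pts F m w) (d : Derivation ℤ k k)
    (hd : ∀ i, d (F.coeff i) = 0) {a b : k[X]} (hab : IsCoprime a b) {j : ℕ} (hj : j < 3) :
    AJ d m w j (dv k (aeval m a + aeval m b * w)) = 0 := by
  classical
  have := CFF.ac (k := k) (F := L)
  obtain ⟨V, hV1, hV2⟩ := ex_V (F := F) hab
  obtain ⟨N, hN⟩ : ∃ N, a ^ 2 - b ^ 2 * F = N := ⟨_, rfl⟩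
  rw [hN] at hV1 hV2
  have hN0 : N ≠ 0 := fun h => by
    have hmul : (aeval m a + aeval m b * w) * (aeval m a + aeval m (-b) * w) = 0 := by
      rw [← map_zero (aeval m : k[X] →ₐ[k] L), ← h, ← hN, map_sub, map_mul, map_pow, map_pow,
        map_neg, ← hH.sq]
      ring
    rcases mul_eq_zero.1 hmul with h | h
    · obtain ⟨rfl, rfl⟩ := hP.indep a b h
      exact not_isCoprime_zero_zero hab
    · obtain ⟨rfl, h2⟩ := hP.indep a (-b) h
      rw [neg_eq_zero.1 h2] at hab
      exact not_isCoprime_zero_zero hab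
  have hab := poly_part hA hH.two hH.deg hH.sep d hd hN hN0 hV1 hV2 hj
  have hTm : ∀ μ, μ ∈ N.roots.toFinset.filter (fun e => ¬ F.eval e = 0) ↔
      N.IsRoot μ ∧ ¬ F.eval μ = 0 := fun μ => by
    rw [Finset.mem_filter, Multiset.mem_toFinset, mem_roots hN0]
  choose Pl h1 h2 h3 using
    fun i : {μ // μ ∈ N.roots.toFinset.filter fun e => ¬ F.eval e = 0} =>
      hP.surj i.1 (V.eval i.1) (root_sq hV2 ((hTm _).1 i.2).1)
  rw [AJ_eq d j Pl (fun i i' e => Subtype.ext (by rw [← h2 i, ← h2 i', e])) _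
    fun P h4 h5 h6 => ?_]
  · refine Eq.trans (Finset.sum_congr rfl fun i _ => ?_) hab
    have h5 : vl (Pl i) w ≠ 0 := fun h => ((hTm _).1 i.2).2 (by
      rw [← root_sq hV2 ((hTm _).1 i.2).1, ← h3, h, zero_pow two_ne_zero])
    rw [dv_apply, (ord_ab hH hP hN hN0 hV1 hV2 (h1 i) h5).1 (by rw [h2, h3]), ajP, if_pos (h1 i),
      h2, h3, Int.cast_natCast]
  · rw [dv_apply]
    obtain ⟨-, h10, h11⟩ := ord_ab hH hP hN hN0 hV1 hV2 h4 h5
    by_cases hr : N.IsRoot (vl P m)
    · have hF := (hP.pt P h4).2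
      have hi := (hTm _).2 ⟨hr, by rw [← hF]; exact pow_ne_zero _ h5⟩
      rcases sq_eq_sq_iff_eq_or_eq_neg.1 (hF.trans (root_sq hV2 hr).symm) with h | h
      · exact absurd (hP.inj P (Pl ⟨_, hi⟩) h4 (h1 _) (h2 ⟨_, hi⟩).symm
          (h.trans (h3 ⟨_, hi⟩).symm)) (h6 _)
      · exact h10 h.symm
    · exact h11 hr

theorem abeld (hP : PTS) (hA : ABEL) : ABELD := by
  intro k L _ _ _ _ F m w d hH hd φ hφ j hj
  classical
  have hp := hP k L F m w hH
  obtain ⟨a, b, c, hc, h⟩ := hH.top φ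
  obtain ⟨a', b', h1, h2, h3⟩ := extract_gcd a b
  have hcop := (gcd_isUnit_iff a' b').1 h3
  have e : aeval m c * φ = aeval m (gcd a b) * (aeval m a' + aeval m b' * w) := by
    rw [h, mul_add, ← mul_assoc, ← map_mul, ← map_mul, ← h1, ← h2]
  have h0 := mul_ne_zero (aeval_ne hH hc) hφ
  have h4 := congrArg (fun z => AJ d m w j (dv k z)) e
  rw [e] at h0
  have hg : gcd a b ≠ 0 := fun h => left_ne_zero_of_mul h0 (by rw [h, map_zero])
  simp only [dv_mul (aeval_ne hH hc) hφ, dv_mul (left_ne_zero_of_mul h0) (right_ne_zero_of_mul h0),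
    map_add, AJ_poly hH hp d j hc, AJ_poly hH hp d j hg, AJ_cop hA hH hp d hd hcop hj] at h4
  simpa using h4

end Vale.Agent.P027M.B.Abeld
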