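import Vale.Agent.P027M.B.Defs

/-! # P027, route M, block B1 : the algebraicity criterion -/

set_option linter.all false

open Polynomial NumberField Filter Topology
open scoped PowerSeries

noncomputable section

namespace Vale.Agent.P027M.B

namespace Alg

/-! ### Siegel's lemma -/

theorem le_exp (x : ℝ) : x ≤ Real.exp x := by
  have := Real.add_one_le_exp x
  linarith

theorem siegel (K : Type) [Field K] [NumberField K] : ∃ L0 : ℝ, ∀ L : ℝ, L0 ≤ L → 1 ≤ L →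
    ∀ (t D T : ℕ) (a : Matrix (Fin T) (Fin D × Fin D) (𝓞 K)), 0 < t → D = (t + 1) * t →
    T = t * D → (∀ k l, house (a k l : K) ≤ Real.exp (L + 2 * L * T + 2 * D * L)) →
    ∃ ξ : Fin D × Fin D → 𝓞 K, ξ ≠ 0 ∧ a.mulVec ξ = 0 ∧
      ∀ l, house (ξ l : K) ≤ Real.exp (9 * L * D) := by
  classical
  obtain ⟨c, hc⟩ : ∃ c : ℝ, ∀ (T q D : ℕ) (a : Matrix (Fin T) (Fin D × Fin D) (𝓞 K)) (A : ℝ),
      a ≠ 0 → 0 < T → T < q → Fintype.card (Fin D × Fin D) = q →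
      (∀ k l, house (algebraMap (𝓞 K) K (a k l)) ≤ A) →
      ∃ ξ : Fin D × Fin D → 𝓞 K, ξ ≠ 0 ∧ a.mulVec ξ = 0 ∧
        ∀ l, house (ξ l).1 ≤ c * ((c * q * A) ^ ((T : ℝ) / (q - T))) :=
    ⟨_, fun T q D a A h1 h2 h3 h4 h5 =>
      house.exists_ne_zero_int_vec_house_le K a h1 h2 h3 h4 h5 (Fintype.card_fin T)⟩
  refine ⟨|c|, fun L hL0 hL t D T a ht hD hT ha => ?_⟩
  have hD0 : 0 < D := by
    rw [hD]
    positivity
  have hT0 : 0 < T := by
    rw [hT]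
    positivity
  have hD1 : (1 : ℝ) ≤ D := by exact_mod_cast hD0
  have ht1 : (1 : ℝ) ≤ t := by exact_mod_cast ht
  by_cases h0 : a = 0
  · refine ⟨fun _ => 1, fun h => one_ne_zero (congrFun h (⟨0, hD0⟩, ⟨0, hD0⟩)), ?_, fun l => ?_⟩
    · rw [h0, Matrix.zero_mulVec]
    · have h1 : house ((1 : 𝓞 K) : K) = 1 := by
        have h2 := house_intCast (K := K) 1
        simpa using h2
      rw [h1]
      exact Real.one_le_exp (by positivity)
  have hq : D * D = (t + 1) * T := by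
    rw [hT]
    nth_rewrite 1 [hD]
    ring
  obtain ⟨ξ, h1, h2, h3⟩ := hc T (D * D) D a _ h0 hT0 (by rw [hq]; nlinarith)
    (by rw [Fintype.card_prod, Fintype.card_fin]) ha
  refine ⟨ξ, h1, h2, fun l => (h3 l).trans ?_⟩
  have hT1 : (0 : ℝ) < T := by exact_mod_cast hT0
  have h4 : (T : ℝ) / ((D * D : ℕ) - T) = (t : ℝ)⁻¹ := by
    rw [hq]
    push_cast
    rw [show ((t : ℝ) + 1) * T - T = T * t by ring, ← div_div, div_self hT1.ne', one_div]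
  have h5 : |c| ≤ Real.exp L := hL0.trans (le_exp L)
  have h6 : |c * (D * D : ℕ) * Real.exp (L + 2 * L * T + 2 * D * L)| ≤
      Real.exp (L + (D + D) + (L + 2 * L * T + 2 * D * L)) := by
    rw [abs_mul, abs_mul, Real.exp_add (L + (D + D)), Real.exp_add L (D + D), Real.exp_add D D,
      abs_of_pos (Real.exp_pos _), Nat.abs_cast, Nat.cast_mul]
    have h7 := le_exp D
    gcongr
  have h7 : |(c * (D * D : ℕ) * Real.exp (L + 2 * L * T + 2 * D * L)) ^ (t : ℝ)⁻¹| ≤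
      Real.exp (8 * L * D) := by
    refine (Real.abs_rpow_le_abs_rpow _ _).trans
      ((Real.rpow_le_rpow (abs_nonneg _) h6 (by positivity)).trans ?_)
    rw [← Real.exp_mul, Real.exp_le_exp, ← div_eq_mul_inv, div_le_iff₀ (by positivity), hT]
    push_cast
    have h8 : 1 * 1 ≤ L * D := by gcongr
    have h9 : L * 1 ≤ L * D := by gcongr
    have h10 : 1 * D ≤ L * D := by gcongr
    have h11 : L * D * 1 ≤ L * D * t := by gcongr
    nlinarith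
  rw [h4]
  refine (le_abs_self _).trans ?_
  rw [abs_mul]
  refine (mul_le_mul h5 h7 (abs_nonneg _) (Real.exp_pos _).le).trans ?_
  rw [← Real.exp_add, Real.exp_le_exp]
  have h9 : L * 1 ≤ L * D := by gcongr
  linarith

/-! ### bounds for the coefficients -/

/-- the norm of `f` at the radius `ρ` is at most `W` -/
def Bd (ρ : ℝ) (f : ℂ⟦X⟧) (W : ℝ) : Prop :=
  (Summable fun n => ‖PowerSeries.coeff n f‖ * ρ ^ n) ∧
    ∑' n, ‖PowerSeries.coeff n f‖ * ρ ^ n ≤ W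

theorem Bd.one (ρ : ℝ) : Bd ρ 1 1 := by
  have h : HasSum (fun n => ‖PowerSeries.coeff n (1 : ℂ⟦X⟧)‖ * ρ ^ n) 1 := by
    have h1 := hasSum_single (f := fun n => ‖PowerSeries.coeff n (1 : ℂ⟦X⟧)‖ * ρ ^ n) 0
      fun n hn => by rw [PowerSeries.coeff_one, if_neg hn, norm_zero, zero_mul]
    simpa using h1
  exact ⟨h.summable, h.tsum_eq.le⟩

theorem Bd.mul {ρ : ℝ} (hρ : 0 ≤ ρ) {f g : ℂ⟦X⟧} {W W' : ℝ} (hf : Bd ρ f W) (hg : Bd ρ g W') :
    Bd ρ (f * g) (W * W') := by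
  have n1 : ∀ (f : ℂ⟦X⟧) (n : ℕ), 0 ≤ ‖PowerSeries.coeff n f‖ * ρ ^ n := fun f n => by positivity
  have h1 : Summable fun n => ‖‖PowerSeries.coeff n f‖ * ρ ^ n‖ := hf.1.norm
  have h2 : Summable fun n => ‖‖PowerSeries.coeff n g‖ * ρ ^ n‖ := hg.1.norm
  have h3 := (summable_norm_sum_mul_antidiagonal_of_summable_norm h1 h2).of_norm
  have h4 := tsum_mul_tsum_eq_tsum_sum_antidiagonal_of_summable_norm h1 h2
  have h5 : ∀ n, ‖PowerSeries.coeff n (f * g)‖ * ρ ^ n ≤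
      ∑ kl ∈ Finset.HasAntidiagonal.antidiagonal n,
      (‖PowerSeries.coeff kl.1 f‖ * ρ ^ kl.1) * (‖PowerSeries.coeff kl.2 g‖ * ρ ^ kl.2) := by
    intro n
    rw [PowerSeries.coeff_mul]
    refine (mul_le_mul_of_nonneg_right (norm_sum_le _ _) (by positivity)).trans ?_
    rw [Finset.sum_mul]
    refine le_of_eq (Finset.sum_congr rfl fun kl hkl => ?_)
    rw [← Finset.HasAntidiagonal.mem_antidiagonal.mp hkl, norm_mul, pow_add]
    ring
  have h6 := Summable.of_nonneg_of_le (n1 _) h5 h3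
  refine ⟨h6, (h6.tsum_le_tsum h5 h3).trans ?_⟩
  rw [← h4]
  exact mul_le_mul hf.2 hg.2 (tsum_nonneg (n1 g)) ((tsum_nonneg (n1 f)).trans hf.2)

theorem Bd.pow {ρ : ℝ} (hρ : 0 ≤ ρ) {f : ℂ⟦X⟧} {W : ℝ} (hf : Bd ρ f W) (k : ℕ) :
    Bd ρ (f ^ k) (W ^ k) := by
  induction k with
  | zero =>
    rw [pow_zero, pow_zero]
    exact Bd.one ρ
  | succ k ih =>
    rw [pow_succ, pow_succ]
    exact ih.mul hρ hf

theorem Bd.coeff_le {ρ : ℝ} (hρ : 0 ≤ ρ) {f : ℂ⟦X⟧} {W : ℝ} (hf : Bd ρ f W) (n : ℕ) :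
    ‖PowerSeries.coeff n f‖ * ρ ^ n ≤ W :=
  (hf.1.le_tsum n fun k _ => by positivity).trans hf.2

theorem Bd.ev_le {ρ : ℝ} {f : ℂ⟦X⟧} {W : ℝ} (hf : Bd ρ f W) {q : ℂ} (hq : ‖q‖ = ρ) :
    ‖ev f q‖ ≤ W := by
  refine (tsum_of_norm_bounded hf.1.hasSum fun n => ?_).trans hf.2
  rw [norm_mul, norm_pow, hq]

theorem ev_bd {ρ : ℝ} {f : ℂ⟦X⟧} (hf : Summable fun n => ‖PowerSeries.coeff n f‖ * ρ ^ n) :
    ∀ᶠ L : ℝ in atTop, Bd ρ f (Real.exp L) :=
  (Real.tendsto_exp_atTop.eventually_ge_atTop _).mono fun _ h => ⟨hf, h⟩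

/-! ### invariant series, bounded on a circle -/

/-- invariant and bounded by `W` on the circle of radius `ρ` -/
def Hb (γ : Gam) (r ρ : ℝ) (f : ℂ⟦X⟧) (W : ℝ) : Prop :=
  IsHol γ r f ∧ 0 ≤ W ∧ ∀ q : ℂ, ‖q‖ = ρ → ‖ev f q‖ ≤ W

section

variable {γ : Gam} {r ρ : ℝ}

theorem Hb.mono {f : ℂ⟦X⟧} {W W' : ℝ} (hf : Hb γ r ρ f W) (h : W ≤ W') : Hb γ r ρ f W' :=
  ⟨hf.1, hf.2.1.trans h, fun q hq => (hf.2.2 q hq).trans h⟩

theorem Hb.const (H : HOL) (c : ℂ) : Hb γ r ρ (PowerSeries.C c) ‖c‖ := by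
  refine ⟨⟨(H.const r c).1, fun τ _ _ _ => ?_⟩, norm_nonneg c, fun q _ => ?_⟩
  · rw [(H.const r c).2, (H.const r c).2]
  · rw [(H.const r c).2]

theorem Hb.add (H : HOL) (hρ : ρ < r) {f g : ℂ⟦X⟧} {W W' : ℝ} (hf : Hb γ r ρ f W)
    (hg : Hb γ r ρ g W') : Hb γ r ρ (f + g) (W + W') := by
  obtain ⟨h1, h2⟩ := H.add r f g hf.1.conv hg.1.conv
  refine ⟨⟨h1, fun τ h3 h4 h5 => ?_⟩, add_nonneg hf.2.1 hg.2.1, fun q hq => ?_⟩
  · rw [h2 _ h4, h2 _ h5, hf.1.inv τ h3 h4 h5, hg.1.inv τ h3 h4 h5]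
  · rw [h2 q (hq ▸ hρ)]
    exact norm_add_le_of_le (hf.2.2 q hq) (hg.2.2 q hq)

theorem Hb.mul (H : HOL) (hρ : ρ < r) {f g : ℂ⟦X⟧} {W W' : ℝ} (hf : Hb γ r ρ f W)
    (hg : Hb γ r ρ g W') : Hb γ r ρ (f * g) (W * W') := by
  obtain ⟨h1, h2⟩ := H.mul r f g hf.1.conv hg.1.conv
  refine ⟨⟨h1, fun τ h3 h4 h5 => ?_⟩, mul_nonneg hf.2.1 hg.2.1, fun q hq => ?_⟩
  · rw [h2 _ h4, h2 _ h5, hf.1.inv τ h3 h4 h5, hg.1.inv τ h3 h4 h5]
  · rw [h2 q (hq ▸ hρ), norm_mul]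
    exact mul_le_mul (hf.2.2 q hq) (hg.2.2 q hq) (norm_nonneg _) hf.2.1

theorem Hb.pow (H : HOL) (hρ : ρ < r) {f : ℂ⟦X⟧} {W : ℝ} (hf : Hb γ r ρ f W) (k : ℕ) :
    Hb γ r ρ (f ^ k) (W ^ k) := by
  induction k with
  | zero =>
    have h := Hb.const (γ := γ) (r := r) (ρ := ρ) H 1
    rw [map_one, norm_one] at h
    rw [pow_zero, pow_zero]
    exact h
  | succ k ih =>
    rw [pow_succ, pow_succ]
    exact ih.mul H hρ hf

theorem Hb.sum (H : HOL) (hρ : ρ < r) {ι : Type} (s : Finset ι) {f : ι → ℂ⟦X⟧} {W : ℝ}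
    (hf : ∀ i, Hb γ r ρ (f i) W) : Hb γ r ρ (∑ i ∈ s, f i) (s.card * W) := by
  classical
  induction s using Finset.induction_on with
  | empty =>
    have h := Hb.const (γ := γ) (r := r) (ρ := ρ) H 0
    rw [map_zero, norm_zero] at h
    rw [Finset.sum_empty, Finset.card_empty, Nat.cast_zero, zero_mul]
    exact h
  | insert a s ha ih =>
    rw [Finset.sum_insert ha, Finset.card_insert_of_notMem ha, Nat.cast_add, Nat.cast_one, add_mul,
      one_mul, add_comm ((s.card : ℝ) * W)]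
    exact (hf a).add H hρ ih

theorem ev_hb (h0 : 0 ≤ ρ) (hρ : ρ < r) {f : ℂ⟦X⟧} (hf : IsHol γ r f) :
    ∀ᶠ L : ℝ in atTop, Hb γ r ρ f (Real.exp L) :=
  (ev_bd (hf.conv ρ h0 hρ)).mono fun L h => ⟨hf, (Real.exp_pos L).le, fun _ hq => h.ev_le hq⟩

end

theorem small (H : HOL) {γ : Gam} {r : ℝ} (hr : 0 < r) {y : ℂ⟦X⟧} (hy : IsOO γ r y) :
    ∀ᶠ ρ in 𝓝[>] (0 : ℝ), Summable fun n => ‖PowerSeries.coeff n y‖ * ρ ^ n := by
  obtain ⟨α, β, h1, h2, h3, h4⟩ := hy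
  obtain ⟨r', h5, h6⟩ := H.inv r β hr h2.conv h3
  have h7 : Conv (min r r') (β⁻¹ * α) :=
    (H.mul _ _ _ (fun ρ a b => h6 ρ a (b.trans_le (min_le_right _ _)))
      (fun ρ a b => h1.conv ρ a (b.trans_le (min_le_left _ _)))).1
  rw [← h4, ← mul_assoc, PowerSeries.inv_mul_cancel β h3, one_mul] at h7
  filter_upwards [Ioo_mem_nhdsGT (lt_min hr h5)] with ρ hρ
  exact h7 ρ hρ.1.le hρ.2

/-! ### the two estimates -/

theorem entry {ρ L : ℝ} (hρ : 0 < ρ) (hL : 1 ≤ L) (h1 : ρ⁻¹ ≤ Real.exp L) {x y : ℂ⟦X⟧}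
    (hx : Bd ρ x (Real.exp L)) (hy : Bd ρ y (Real.exp L)) {i j n D T : ℕ} (hi : i ≤ D)
    (hj : j ≤ D) (hn : n ≤ T) :
    ‖PowerSeries.coeff n (x ^ i * y ^ j)‖ ≤ Real.exp (L * T + 2 * D * L) := by
  have h2 := ((hx.pow hρ.le i).mul hρ.le (hy.pow hρ.le j)).coeff_le hρ.le n
  rw [← le_div_iff₀ (pow_pos hρ n), div_eq_mul_inv, ← inv_pow] at h2
  have h3 : ρ⁻¹ ^ n ≤ Real.exp L ^ n := pow_le_pow_left₀ (by positivity) h1 n
  refine (h2.trans (mul_le_mul_of_nonneg_left h3 (by positivity))).trans ?_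
  rw [← Real.exp_nat_mul, ← Real.exp_nat_mul, ← Real.exp_nat_mul, ← Real.exp_add, ← Real.exp_add,
    Real.exp_le_exp]
  have h4 : (i : ℝ) * L ≤ D * L := by gcongr
  have h5 : (j : ℝ) * L ≤ D * L := by gcongr
  have h6 : (n : ℝ) * L ≤ T * L := by gcongr
  linarith

theorem upper (H : HOL) (G : GAIN) {γ : Gam} {r L E : ℝ}
    (hr : Real.exp (- Real.pi / (2 * (γ.c : ℝ) ^ 2)) < r) (hL : 1 ≤ L) {x y α β : ℂ⟦X⟧}
    (hx : Hb γ r (Real.exp (- Real.pi / (2 * (γ.c : ℝ) ^ 2))) x (Real.exp L))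
    (hα : Hb γ r (Real.exp (- Real.pi / (2 * (γ.c : ℝ) ^ 2))) α (Real.exp L))
    (hβ : Hb γ r (Real.exp (- Real.pi / (2 * (γ.c : ℝ) ^ 2))) β (Real.exp L))
    (h0 : PowerSeries.constantCoeff β ≠ 0) (h1 : ‖PowerSeries.constantCoeff β‖⁻¹ ≤ Real.exp L)
    (h2 : β * y = α) {D T : ℕ} {p : Fin D × Fin D → ℂ} (hp : ∀ l, ‖p l‖ ≤ Real.exp E) {g : ℂ⟦X⟧}
    (hg : g = ∑ l, PowerSeries.C (p l) * (x ^ l.1.val * y ^ l.2.val))
    (hT : ∀ n < T, PowerSeries.coeff n g = 0) :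
    ‖PowerSeries.coeff T g‖ ≤ Real.exp (L * D + (2 * D + E + 2 * D * L) - T / (γ.c : ℝ) ^ 2) := by
  have h3 : β ^ D * g = ∑ l : Fin D × Fin D,
      PowerSeries.C (p l) * (x ^ l.1.val * (α ^ l.2.val * β ^ (D - l.2.val))) := by
    rw [hg, Finset.mul_sum]
    refine Finset.sum_congr rfl fun l _ => ?_
    have h4 : β ^ D = β ^ l.2.val * β ^ (D - l.2.val) := by
      rw [← pow_add, Nat.add_sub_cancel' l.2.isLt.le]
    rw [h4, ← h2, mul_pow]
    ring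
  have h4 : Hb γ r (Real.exp (- Real.pi / (2 * (γ.c : ℝ) ^ 2))) (β ^ D * g)
      (Real.exp (2 * D + E + 2 * D * L)) := by
    rw [h3]
    refine (Hb.sum H hr Finset.univ (W := Real.exp (E + 2 * D * L)) fun l => ?_).mono ?_
    · refine (((Hb.const H (p l)).mono (hp l)).mul H hr
        ((hx.pow H hr _).mul H hr ((hα.pow H hr _).mul H hr (hβ.pow H hr _)))).mono ?_
      rw [← pow_add, Nat.add_sub_cancel' l.2.isLt.le, ← Real.exp_nat_mul, ← Real.exp_nat_mul,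
        ← Real.exp_add, ← Real.exp_add, Real.exp_le_exp]
      have h5 : (l.1.val : ℝ) * L ≤ D * L := by
        have h6 := l.1.isLt.le
        gcongr
      linarith
    · rw [Finset.card_univ, Fintype.card_prod, Fintype.card_fin, Nat.cast_mul, add_assoc,
        Real.exp_add (2 * D), two_mul (D : ℝ), Real.exp_add D D]
      have h5 := le_exp D
      gcongr
  obtain ⟨g', hg'⟩ := PowerSeries.X_pow_dvd_iff.mpr hT
  have h5 : β ^ D * g = PowerSeries.X ^ T * (β ^ D * g') := by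
    rw [hg']
    ring
  have h6 : PowerSeries.coeff T (β ^ D * g) =
      PowerSeries.constantCoeff β ^ D * PowerSeries.coeff T g := by
    have h7 := PowerSeries.coeff_X_pow_mul (β ^ D * g') T 0
    have h8 := PowerSeries.coeff_X_pow_mul g' T 0
    rw [zero_add] at h7 h8
    rw [h5, h7, hg', h8, PowerSeries.coeff_zero_eq_constantCoeff, map_mul, map_pow]
  have h7 := G γ r hr (β ^ D * g) T _ h4.1
    (PowerSeries.X_pow_dvd_iff.mp ⟨_, h5⟩) h4.2.2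
  have h8 : 0 < ‖PowerSeries.constantCoeff β‖ := norm_pos_iff.mpr h0
  rw [h6, norm_mul, norm_pow, ← le_div_iff₀' (pow_pos h8 D), div_eq_inv_mul, ← inv_pow] at h7
  have h9 : ‖PowerSeries.constantCoeff β‖⁻¹ ^ D ≤ Real.exp L ^ D :=
    pow_le_pow_left₀ (by positivity) h1 D
  refine (h7.trans (mul_le_mul_of_nonneg_right h9 (by positivity))).trans (le_of_eq ?_)
  rw [← Real.exp_nat_mul, ← Real.exp_add, ← Real.exp_add]
  congr 1
  ring

theorem poly {K : Type} [Field K] {D : ℕ} (p : Fin D × Fin D → K) (x y : K⟦X⟧) (l0 : Fin D × Fin D)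
    (h0 : p l0 ≠ 0) (h : ∑ l, PowerSeries.C (p l) * (x ^ l.1.val * y ^ l.2.val) = 0) :
    ∃ P : K[X][X], P ≠ 0 ∧ P.eval₂ (aeval x : K[X] →ₐ[K] K⟦X⟧) y = 0 := by
  refine ⟨∑ l, monomial l.2.val (monomial l.1.val (p l)), fun h1 => h0 ?_, ?_⟩
  · have h2 := congrArg (fun P : K[X][X] => (P.coeff l0.2.val).coeff l0.1.val) h1
    simp only [finset_sum_coeff, coeff_zero] at h2
    rw [Finset.sum_eq_single l0] at h2
    · rwa [coeff_monomial_same, coeff_monomial_same] at h2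
    · intro l _ hl
      rw [coeff_monomial]
      split_ifs with h3
      · rw [coeff_monomial, if_neg]
        intro h4
        exact hl (Prod.ext (Fin.ext h4) (Fin.ext h3))
      · exact coeff_zero _
    · intro h3
      exact absurd (Finset.mem_univ l0) h3
  · rw [eval₂_finset_sum, ← h]
    refine Finset.sum_congr rfl fun l _ => ?_
    rw [eval₂_monomial, RingHom.coe_coe, aeval_monomial, mul_assoc]
    rfl

end Alg

open Alg in
theorem alg (H : HOL) (G : GAIN) : ALG := by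
  classical
  intro K _ _ γ r C d x y hr hxy hd hint
  have hρ0 := Real.exp_pos (- Real.pi / (2 * (γ.c : ℝ) ^ 2))
  have hr0 : 0 < r := hρ0.trans hr
  have hc : (1 : ℝ) ≤ (γ.c : ℝ) ^ 2 := by
    have h : (1 : ℤ) ≤ γ.c ^ 2 := sq_pos_of_ne_zero γ.c_ne
    exact_mod_cast h
  obtain ⟨L0, hS⟩ := siegel K
  obtain ⟨ρ, hρ, hρ1⟩ : ∃ ρ : ℝ, 0 < ρ ∧ ∀ σ : K →+* ℂ,
      (Summable fun n => ‖PowerSeries.coeff n (x.map σ)‖ * ρ ^ n) ∧
        Summable fun n => ‖PowerSeries.coeff n (y.map σ)‖ * ρ ^ n := by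
    have h0 : ∀ᶠ ρ in 𝓝[>] (0 : ℝ), 0 < ρ := self_mem_nhdsWithin
    refine (h0.and (eventually_all.mpr fun σ : K →+* ℂ =>
      Eventually.and ?_ (small H hr0 (hxy σ).2))).exists
    filter_upwards [Ioo_mem_nhdsGT hr0] with ρ hρ
    exact (hxy σ).1.conv ρ hρ.1.le hρ.2
  choose α β hα hβ hβ0 hβy using fun σ => (hxy σ).2
  have e1 := fun W => Real.tendsto_exp_atTop.eventually_ge_atTop W
  obtain ⟨L, hL0, hL, hC, hρL, hσ⟩ := ((eventually_ge_atTop L0).and ((eventually_ge_atTop 1).and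
    ((e1 C).and ((e1 ρ⁻¹).and (eventually_all.mpr fun σ : K →+* ℂ => (ev_bd (hρ1 σ).1).and
      ((ev_bd (hρ1 σ).2).and ((ev_hb hρ0.le hr (hxy σ).1).and ((ev_hb hρ0.le hr (hα σ)).and
        ((ev_hb hρ0.le hr (hβ σ)).and (e1 ‖PowerSeries.constantCoeff (β σ)‖⁻¹)))))))))).exists
  obtain ⟨t, ht⟩ := exists_nat_gt (30 * L * (γ.c : ℝ) ^ 2)
  have ht0 : 0 < t := by
    have h : (0 : ℝ) < t := lt_trans (by positivity) ht
    exact_mod_cast h
  obtain ⟨D, hD⟩ : ∃ D, D = (t + 1) * t := ⟨_, rfl⟩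
  obtain ⟨T, hT⟩ : ∃ T, T = t * D := ⟨_, rfl⟩
  have hdn : ∀ n, (d n : ℝ) ≤ Real.exp (L + n / (γ.c : ℝ) ^ 2 / 2) := by
    intro n
    refine (hd n).2.trans ?_
    rw [Real.exp_add, show 1 / (2 * (γ.c : ℝ) ^ 2) * n = n / (γ.c : ℝ) ^ 2 / 2 by field_simp]
    gcongr
  let a : ℕ → Fin D × Fin D → 𝓞 K := fun n l =>
    ⟨(d n : K) * PowerSeries.coeff n (x ^ l.1.val * y ^ l.2.val), hint _ _ _⟩
  have ha : ∀ n l, (a n l : K) = (d n : K) * PowerSeries.coeff n (x ^ l.1.val * y ^ l.2.val) :=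
    fun _ _ => rfl
  obtain ⟨ξ, h1, h2, h3⟩ := hS L hL0 hL t D T (Matrix.of fun k l => a k.val l) ht0 hD hT (by
    intro k l
    rw [Matrix.of_apply, ha, house, pi_norm_le_iff_of_nonneg (Real.exp_pos _).le]
    intro σ
    rw [canonicalEmbedding.apply_at, map_mul, map_natCast, norm_mul, Complex.norm_natCast,
      ← PowerSeries.coeff_map, map_mul, map_pow, map_pow]
    refine (mul_le_mul (hdn k) (entry hρ hL hρL (hσ σ).1 (hσ σ).2.1 l.1.isLt.le l.2.isLt.le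
      k.isLt.le) (norm_nonneg _) (Real.exp_pos _).le).trans ?_
    rw [← Real.exp_add, Real.exp_le_exp]
    have h1 : (k.val : ℝ) / (γ.c : ℝ) ^ 2 ≤ k.val := div_le_self (Nat.cast_nonneg _) hc
    have h2 : (k.val : ℝ) ≤ T := by exact_mod_cast k.isLt.le
    have h3 : 1 * (T : ℝ) ≤ L * T := by gcongr
    have h4 : (0 : ℝ) ≤ T := Nat.cast_nonneg _
    linarith)
  obtain ⟨g, hg⟩ : ∃ g : K⟦X⟧,
    g = ∑ l, PowerSeries.C (ξ l : K) * (x ^ l.1.val * y ^ l.2.val) := ⟨_, rfl⟩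
  have h4 : ∀ n, ((∑ l, a n l * ξ l : 𝓞 K) : K) = d n * PowerSeries.coeff n g := by
    intro n
    rw [hg, map_sum (PowerSeries.coeff n), Finset.mul_sum]
    refine (map_sum (algebraMap (𝓞 K) K) _ _).trans (Finset.sum_congr rfl fun l _ => ?_)
    rw [map_mul, PowerSeries.coeff_C_mul]
    change (a n l : K) * (ξ l : K) = _
    rw [ha]
    ring
  have hd0 : ∀ n, (d n : K) ≠ 0 := fun n => Nat.cast_ne_zero.mpr (hd n).1.ne'
  by_cases hg0 : g = 0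
  · obtain ⟨l0, hl0⟩ := Function.ne_iff.mp h1
    exact poly (fun l => (ξ l : K)) x y l0 (RingOfIntegers.coe_ne_zero_iff.mpr hl0)
      (hg.symm.trans hg0)
  exfalso
  have h5 : ∃ n, PowerSeries.coeff n g ≠ 0 := by
    by_contra h
    exact hg0 (PowerSeries.ext fun n => not_not.mp fun h6 => h ⟨n, h6⟩)
  have h6 := Nat.find_spec h5
  have h7 : ∀ n < Nat.find h5, PowerSeries.coeff n g = 0 :=
    fun n hn => not_not.mp (Nat.find_min h5 hn)
  generalize Nat.find h5 = T' at h6 h7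
  have h8 : T ≤ T' := by
    by_contra h
    have h9 : ∑ l, a T' l * ξ l = 0 := congrFun h2 ⟨T', not_le.mp h⟩
    have h10 := h4 T'
    rw [h9] at h10
    exact mul_ne_zero (hd0 T') h6 h10.symm
  obtain ⟨σ, h9⟩ := exists_conjugate_one_le_norm (α := ∑ l, a T' l * ξ l) (by
    intro h
    have h10 := h4 T'
    rw [h] at h10
    exact mul_ne_zero (hd0 T') h6 h10.symm)
  rw [h4, map_mul, map_natCast, norm_mul, Complex.norm_natCast, ← PowerSeries.coeff_map] at h9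
  have h10 := upper H G hr hL (hσ σ).2.2.1 (hσ σ).2.2.2.1 (hσ σ).2.2.2.2.1 (hβ0 σ)
    (hσ σ).2.2.2.2.2 (hβy σ) (T := T') (p := fun l => σ (ξ l : K)) (g := g.map σ)
    (fun l => (norm_embedding_le_house _ σ).trans (h3 l))
    (by
      rw [hg, map_sum]
      refine Finset.sum_congr rfl fun l _ => ?_
      rw [map_mul, map_mul, map_pow, map_pow, PowerSeries.map_C])
    (fun n hn => by rw [PowerSeries.coeff_map, h7 n hn, map_zero])
  have h11 := h9.trans (mul_le_mul (hdn T') h10 (norm_nonneg _) (Real.exp_pos _).le)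
  rw [← Real.exp_add, Real.one_le_exp_iff] at h11
  have hD1 : (1 : ℝ) ≤ D := by
    have h : 0 < D := by
      rw [hD]
      positivity
    exact_mod_cast h
  have h12 : 30 * L * D < T' / (γ.c : ℝ) ^ 2 := by
    rw [lt_div_iff₀ (by positivity)]
    have h13 : (t : ℝ) * D ≤ T' := by
      rw [hT] at h8
      exact_mod_cast h8
    have h14 : 30 * L * (γ.c : ℝ) ^ 2 * D < t * D := by gcongr
    linarith
  have h13 : L * 1 ≤ L * D := by gcongr
  have h14 : 1 * D ≤ L * D := by gcongr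
  linarith

end Vale.Agent.P027M.B
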