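import Vale.Agent.P027M.B.Defs

/-! # P027, route M, block B1 : the small divisor (row B1.an) -/

open Polynomial Metric Filter Topology
open scoped PowerSeries

noncomputable section

namespace Vale.Agent.P027M.B

namespace An

/-- a local branch of the square root of `F` -/
theorem root (F : ℂ[X]) {m s : ℂ} (hs : s ≠ 0) (h : s ^ 2 = F.eval m) :
    ∃ δ > 0, ∃ w : ℂ → ℂ, w m = s ∧
      ∀ z ∈ ball m δ, DifferentiableAt ℂ w z ∧ w z ≠ 0 ∧ w z ^ 2 = F.eval z := by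
  have s2 : s ^ 2 ≠ 0 := pow_ne_zero 2 hs
  have dG : Differentiable ℂ fun z => F.eval z / s ^ 2 := F.differentiable.div_const _
  have e1 : F.eval m / s ^ 2 = 1 := by rw [← h, div_self s2]
  have ev : ∀ᶠ z in 𝓝 m, F.eval z / s ^ 2 ∈ Complex.slitPlane :=
    dG.continuous.continuousAt.eventually (Complex.isOpen_slitPlane.mem_nhds (by
      simp only [e1]; exact Complex.one_mem_slitPlane))
  obtain ⟨δ, δ0, hδ⟩ := Metric.eventually_nhds_iff_ball.1 ev
  refine ⟨δ, δ0, fun z => s * Complex.exp (Complex.log (F.eval z / s ^ 2) / 2), ?_,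
    fun z hz => ⟨?_, mul_ne_zero hs (Complex.exp_ne_zero _), ?_⟩⟩
  · simp only [e1, Complex.log_one, zero_div, Complex.exp_zero, mul_one]
  · exact ((((dG z).clog (hδ z hz)).div_const 2).cexp).const_mul s
  · rw [mul_pow, ← Complex.exp_nat_mul]
    have : ((2 : ℕ) : ℂ) * (Complex.log (F.eval z / s ^ 2) / 2) = Complex.log (F.eval z / s ^ 2) := by
      push_cast; ring
    rw [this, Complex.exp_log (Complex.slitPlane_ne_zero (hδ z hz))]
    field_simp

/-- the branch and the primitives of the differentials -/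
theorem prim (F : ℂ[X]) {m s : ℂ} (hs : s ≠ 0) (h : s ^ 2 = F.eval m) :
    ∃ δ > 0, ∃ (w : ℂ → ℂ) (L : ℕ → ℂ → ℂ), w m = s ∧ (∀ j, L j m = 0) ∧
      ∀ z ∈ ball m δ, DifferentiableAt ℂ w z ∧ w z ≠ 0 ∧ w z ^ 2 = F.eval z ∧
        ∀ j, HasDerivAt (L j) (z ^ j / w z) z := by
  obtain ⟨δ, δ0, w, w0, hw⟩ := root F hs h
  have e : ∀ j : ℕ, ∃ g : ℂ → ℂ, g m = 0 ∧ ∀ z ∈ ball m δ, HasDerivAt g (z ^ j / w z) z :=
    fun j => (DifferentiableOn.isExactOn_ball (f := fun z => z ^ j / w z) fun z hz =>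
      (((differentiableAt_id.pow j).div (hw z hz).1 (hw z hz).2.1)).differentiableWithinAt
        ).with_val_at m 0
  choose L L0 hL using e
  exact ⟨δ, δ0, w, L, w0, L0, fun z hz => ⟨(hw z hz).1, (hw z hz).2.1, (hw z hz).2.2,
    fun j => hL j z hz⟩⟩

/-- the local inverse of the Abel map -/
theorem linv {m0 s : Fin 3 → ℂ} (hm : Function.Injective m0) (hs : ∀ k, s k ≠ 0)
    {δ : Fin 3 → ℝ} (δ0 : ∀ k, 0 < δ k) {L : Fin 3 → ℕ → ℂ → ℂ} (L0 : ∀ k j, L k j (m0 k) = 0)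
    (hd : ∀ k j, DifferentiableOn ℂ (L k j) (ball (m0 k) (δ k)))
    (hL : ∀ k j, HasDerivAt (L k j) (m0 k ^ j / s k) (m0 k)) :
    ∃ ε > 0, ∃ T : (Fin 3 → ℂ) → Fin 3 → ℂ, T 0 = m0 ∧ ∀ z ∈ ball (0 : Fin 3 → ℂ) ε,
      DifferentiableAt ℂ T z ∧ (∀ k, T z k ∈ ball (m0 k) (δ k)) ∧
        ∀ j : Fin 3, ∑ k, L k j (T z k) = z j := by
  let Φ : (Fin 3 → ℂ) → Fin 3 → ℂ := fun y j => ∑ k, L k j (y k)
  let A : (Fin 3 → ℂ) →L[ℂ] (Fin 3 → ℂ) := ContinuousLinearMap.pi fun j : Fin 3 =>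
    ∑ k, (m0 k ^ (j : ℕ) / s k) • ContinuousLinearMap.proj (R := ℂ) (φ := fun _ : Fin 3 => ℂ) k
  have Ai : Function.Injective A := by
    refine (injective_iff_map_eq_zero A).2 fun y hy => ?_
    have := Matrix.eq_zero_of_forall_pow_sum_mul_pow_eq_zero (v := fun k => y k / s k) hm
      fun j => by
        have e := congrFun hy j
        simp only [A, ContinuousLinearMap.pi_apply, sum_apply, smul_apply,
          ContinuousLinearMap.proj_apply, smul_eq_mul,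
          Pi.zero_apply] at e
        rw [← e]
        exact Finset.sum_congr rfl fun k _ => by ring
    funext k
    have e := congrFun this k
    simpa [hs k] using e
  let A' : (Fin 3 → ℂ) ≃L[ℂ] (Fin 3 → ℂ) :=
    (LinearEquiv.ofInjectiveEndo A.toLinearMap Ai).toContinuousLinearEquiv
  have hA : HasFDerivAt Φ (A' : (Fin 3 → ℂ) →L[ℂ] (Fin 3 → ℂ)) m0 := by
    have e : (A' : (Fin 3 → ℂ) →L[ℂ] (Fin 3 → ℂ)) = A := by ext1 y; rfl
    rw [e]
    exact hasFDerivAt_pi.2 fun j => HasFDerivAt.fun_sum fun k _ =>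
      (hL k j).comp_hasFDerivAt m0 (hasFDerivAt_apply k m0)
  have hC : ContDiffAt ℂ 1 Φ m0 := contDiffAt_pi.2 fun j => ContDiffAt.sum fun k _ =>
    (((hd k j).analyticAt (ball_mem_nhds _ (δ0 k))).contDiffAt (n := 1)).comp m0
      (contDiffAt_apply ℂ ℂ k m0)
  have Φ0 : Φ m0 = 0 := funext fun j => Finset.sum_eq_zero fun k _ => L0 k j
  have t0 := hC.localInverse_apply_image hA one_ne_zero
  have t1 := hC.to_localInverse hA one_ne_zero
  have t2 : ∀ᶠ y in 𝓝 (Φ m0), Φ (hC.localInverse hA one_ne_zero y) = y :=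
    (hC.hasStrictFDerivAt' hA one_ne_zero).eventually_right_inverse
  generalize hC.localInverse hA one_ne_zero = T at t0 t1 t2
  rw [Φ0] at t0 t1 t2
  have t3 : ∀ᶠ y in 𝓝 (0 : Fin 3 → ℂ), ∀ k, T y k ∈ ball (m0 k) (δ k) :=
    eventually_all.2 fun k => ((continuous_apply k).continuousAt.comp t1.continuousAt).eventually
      (isOpen_ball.mem_nhds (by simp only [Function.comp, t0]; exact mem_ball_self (δ0 k)))
  obtain ⟨ε, ε0, hε⟩ := Metric.eventually_nhds_iff_ball.1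
    ((t1.eventually (by simp)).and (t3.and t2))
  exact ⟨ε, ε0, T, t0, fun z hz => ⟨(hε z hz).1.differentiableAt one_ne_zero, (hε z hz).2.1,
    fun j => congrFun (hε z hz).2.2 j⟩⟩

/-- the series `f` converges to `φ` on the disc of radius `r` -/
def Rep (r : ℝ) (f : ℂ⟦X⟧) (φ : ℂ → ℂ) : Prop := Conv r f ∧ ∀ q : ℂ, ‖q‖ < r → ev f q = φ q

theorem conv_mono {r r' : ℝ} {f : ℂ⟦X⟧} (h : Conv r' f) (e : r ≤ r') : Conv r f :=
  fun ρ a b => h ρ a (b.trans_le e)

theorem ev_le {r : ℝ} {f : ℂ⟦X⟧} (h : Conv 1 f) (r0 : 0 < r) (r1 : r < 1) :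
    ∃ C : ℝ, ∀ q : ℂ, ‖q‖ < r → ‖ev f q‖ ≤ C := by
  refine ⟨∑' n, ‖PowerSeries.coeff n f‖ * r ^ n, fun q hq => ?_⟩
  refine tsum_of_norm_bounded (h r r0.le r1).hasSum fun n => ?_
  rw [norm_mul, norm_pow]
  exact mul_le_mul_of_nonneg_left (pow_le_pow_left₀ (norm_nonneg _) hq.le n) (norm_nonneg _)

section rep

variable (H : HOL) {r : ℝ} {f g : ℂ⟦X⟧} {φ ψ : ℂ → ℂ}

include H

theorem rC (r : ℝ) (c : ℂ) : Rep r (PowerSeries.C c) fun _ => c :=
  ⟨(H.const r c).1, fun q _ => (H.const r c).2 q⟩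

theorem radd (a : Rep r f φ) (b : Rep r g ψ) : Rep r (f + g) fun q => φ q + ψ q :=
  ⟨(H.add r f g a.1 b.1).1, fun q hq => by
    rw [(H.add r f g a.1 b.1).2 q hq, a.2 q hq, b.2 q hq]⟩

theorem rmul (a : Rep r f φ) (b : Rep r g ψ) : Rep r (f * g) fun q => φ q * ψ q :=
  ⟨(H.mul r f g a.1 b.1).1, fun q hq => by
    rw [(H.mul r f g a.1 b.1).2 q hq, a.2 q hq, b.2 q hq]⟩

theorem rpow (a : Rep r f φ) (n : ℕ) : Rep r (f ^ n) fun q => φ q ^ n := by
  induction n with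
  | zero => simpa using rC H r 1
  | succ n ih => simpa only [pow_succ] using rmul H ih a

theorem raeval (a : Rep r f φ) (F : ℂ[X]) : Rep r (aeval f F) fun q => F.eval (φ q) := by
  induction F using Polynomial.induction_on' with
  | add P Q hP hQ => simpa only [map_add, eval_add] using radd H hP hQ
  | monomial n c =>
    have e : algebraMap ℂ ℂ⟦X⟧ c = PowerSeries.C c := rfl
    simpa only [aeval_monomial, eval_monomial, e] using rmul H (rC H r c) (rpow H a n)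

theorem rext (r0 : 0 < r) (a : Rep r f φ) (b : Rep r g ψ) (e : ∀ q : ℂ, ‖q‖ < r → φ q = ψ q) :
    f = g := by
  have c := radd H a (rmul H (rC H r (-1)) b)
  have d := H.inj r _ r0 c.1 fun q hq => by rw [c.2 q hq]; simp only [e q hq]; ring
  rw [map_neg, map_one] at d
  linear_combination d

theorem rzero (r0 : 0 < r) (a : Rep r f φ) : PowerSeries.constantCoeff f = φ 0 := by
  rw [← H.zero, a.2 0 (by simpa using r0)]

theorem rder (a : Rep r f φ) {q : ℂ} (hq : ‖q‖ < r) :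
    HasDerivAt φ (ev (PowerSeries.derivative ℂ f) q) q := by
  refine ((H.diff r f a.1).2 q hq).congr_of_eventuallyEq ?_
  filter_upwards [isOpen_ball.mem_nhds (mem_ball_zero_iff.2 hq)] with z hz
  exact (a.2 z (mem_ball_zero_iff.1 hz)).symm

theorem rth (a : Conv r f) : Rep r (th f) fun q => q * ev (PowerSeries.derivative ℂ f) q :=
  rmul H (φ := fun q => q) ⟨(H.X r).1, fun q _ => (H.X r).2 q⟩ ⟨(H.diff r f a).1, fun _ _ => rfl⟩

end rep

end An

open An in
theorem ana (H : HOL) : ANA := by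
  intro γ r F m0 s u r0 r1 hm hs hF hu u0
  choose δ δ0 w L w0 L0 hw using fun k => prim F (hs k) (hF k)
  obtain ⟨ε, ε0, T, T0, hT⟩ := linv hm hs δ0 L0
    (fun k j z hz => ((hw k z hz).2.2.2 j).differentiableAt.differentiableWithinAt)
    fun k j => by simpa only [w0] using (hw k _ (mem_ball_self (δ0 k))).2.2.2 j
  choose C hC using fun j => ev_le (hu j).conv r0 r1
  obtain ⟨n, hn⟩ := exists_nat_gt ((∑ j, |C j|) / ε)
  have S0 : 0 ≤ ∑ j, |C j| := Finset.sum_nonneg fun j _ => abs_nonneg _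
  have n0 : (0 : ℝ) < n := (div_nonneg S0 ε0.le).trans_lt hn
  have n1 : 0 < n := by exact_mod_cast n0
  have ru : ∀ j, Rep r (u j) (ev (u j)) := fun j => ⟨conv_mono (hu j).conv r1.le, fun _ _ => rfl⟩
  let z : ℂ → Fin 3 → ℂ := fun q j => (n : ℂ)⁻¹ * ev (u j) q
  have zb : ∀ q : ℂ, ‖q‖ < r → z q ∈ ball (0 : Fin 3 → ℂ) ε := fun q hq => by
    rw [mem_ball_zero_iff, pi_norm_lt_iff ε0]
    intro j
    have a1 : C j ≤ ∑ j, |C j| := (le_abs_self _).trans
      (Finset.single_le_sum (f := fun j => |C j|) (fun j _ => abs_nonneg _) (Finset.mem_univ j))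
    rw [div_lt_iff₀ ε0] at hn
    simp only [z, norm_mul, norm_inv, Complex.norm_natCast]
    rw [inv_mul_lt_iff₀ n0]
    linarith [hC j q hq]
  have zd : ∀ q : ℂ, ‖q‖ < r → DifferentiableAt ℂ z q := fun q hq =>
    differentiableAt_pi.2 fun j => (rder H (ru j) hq).differentiableAt.const_mul _
  have z0 : z 0 = 0 := funext fun j => by
    simp only [z, H.zero, u0, mul_zero, Pi.zero_apply]
  let φ : Fin 3 → ℂ → ℂ := fun k q => T (z q) k
  have φd : ∀ k, ∀ q : ℂ, ‖q‖ < r → DifferentiableAt ℂ (φ k) q := fun k q hq =>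
    differentiableAt_pi.1 ((hT _ (zb q hq)).1.comp q (zd q hq)) k
  have φb : ∀ k, ∀ q : ℂ, ‖q‖ < r → φ k q ∈ ball (m0 k) (δ k) := fun k q hq =>
    (hT _ (zb q hq)).2.1 k
  have φ0 : ∀ k, φ k 0 = m0 k := fun k => by simp only [φ, z0, T0]
  have ψd : ∀ k, ∀ q : ℂ, ‖q‖ < r → DifferentiableAt ℂ (fun q => w k (φ k q)) q := fun k q hq =>
    (hw k _ (φb k q hq)).1.comp q (φd k q hq)
  choose ν hν using fun k => H.ofFun r (φ k) fun q hq =>
    (φd k q (mem_ball_zero_iff.1 hq)).differentiableWithinAt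
  choose ω hω using fun k => H.ofFun r (fun q => w k (φ k q)) fun q hq =>
    (ψd k q (mem_ball_zero_iff.1 hq)).differentiableWithinAt
  choose ι hι using fun k => H.ofFun r (fun q => (w k (φ k q))⁻¹) fun q hq =>
    ((ψd k q (mem_ball_zero_iff.1 hq)).inv
      (hw k _ (φb k q (mem_ball_zero_iff.1 hq))).2.1).differentiableWithinAt
  have ω0 : ∀ k, PowerSeries.constantCoeff (ω k) = s k := fun k => by
    rw [rzero H r0 (hω k)]
    simp only [φ0, w0]
  have ωi : ∀ k, (ω k)⁻¹ = ι k := fun k => by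
    rw [PowerSeries.inv_eq_iff_mul_eq_one (by rw [ω0]; exact hs k), ← map_one PowerSeries.C]
    exact rext H r0 (rmul H (hι k) (hω k)) (rC H r 1) fun q hq =>
      inv_mul_cancel₀ (hw k _ (φb k q hq)).2.1
  have zi : ∀ τ : ℂ, 0 < τ.im → ‖qq τ‖ < r → ‖qq (γ.act τ)‖ < r →
      z (qq (γ.act τ)) = z (qq τ) := fun τ a b c => funext fun j => by
    simp only [z, (hu j).inv τ a (b.trans r1) (c.trans r1)]
  refine ⟨n, ν, ω, n1, ⟨fun k => ?_, ω0, fun k => ?_, fun j => ?_⟩, fun k =>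
    ⟨⟨(hν k).1, fun τ a b c => ?_⟩, ⟨(hω k).1, fun τ a b c => ?_⟩⟩⟩
  · rw [rzero H r0 (hν k), φ0]
  · exact rext H r0 (rpow H (hω k) 2) (raeval H (hν k) F) fun q hq => (hw k _ (φb k q hq)).2.2.1
  · have t : ∀ k, Rep r (ν k ^ (j : ℕ) * th (ν k) * ι k) fun q =>
        φ k q ^ (j : ℕ) * (q * ev (PowerSeries.derivative ℂ (ν k)) q) * (w k (φ k q))⁻¹ :=
      fun k => rmul H (rmul H (rpow H (hν k) j) (rth H (hν k).1)) (hι k)
    simp only [ωi, Fin.sum_univ_three]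
    refine rext H r0 (radd H (radd H (t 0) (t 1)) (t 2)) (rmul H (rC H r _) (rth H (ru j).1))
      fun q hq => ?_
    have d1 : HasDerivAt (fun q => ∑ k, L k j (φ k q)) (∑ k, φ k q ^ (j : ℕ) / w k (φ k q) *
        ev (PowerSeries.derivative ℂ (ν k)) q) q := HasDerivAt.fun_sum fun k _ =>
      ((hw k _ (φb k q hq)).2.2.2 j).comp q (rder H (hν k) hq)
    have d2 : HasDerivAt (fun q => ∑ k, L k j (φ k q))
        ((n : ℂ)⁻¹ * ev (PowerSeries.derivative ℂ (u j)) q) q := by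
      refine ((rder H (ru j) hq).const_mul (n : ℂ)⁻¹).congr_of_eventuallyEq ?_
      filter_upwards [isOpen_ball.mem_nhds (mem_ball_zero_iff.2 hq)] with y hy
      exact (hT _ (zb y (mem_ball_zero_iff.1 hy))).2.2 j
    have e := d1.unique d2
    simp only [Fin.sum_univ_three, div_eq_mul_inv] at e
    linear_combination q * e
  · rw [(hν k).2 _ c, (hν k).2 _ b]
    simp only [φ, zi τ a b c]
  · rw [(hω k).2 _ c, (hω k).2 _ b]
    simp only [φ, zi τ a b c]

end Vale.Agent.P027M.B
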