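import Vale.Agent.P027M.B.Defs

/-! # P027, block B1 : the arithmetic side (row B1.arith) -/

open Polynomial NumberField
open scoped PowerSeries

noncomputable section

namespace Vale.Agent.P027M.B

theorem arith (hL : LEAF) (hP : PC) (hB : BAD) (hT : TAY) (hD : DEN) : ARITH := by
  intro K _ _ F m0 s b x ε hF hm hs hsq hb ⟨B, B0, hC⟩ hε
  obtain ⟨Λ⟩ := hL K F m0 s b hm hs hsq
  have e1 := Λ.De_pos
  have e2 := Λ.De'_pos
  obtain ⟨M1, C, d, M10, hd, hδ⟩ := hD ε (2 * Λ.De * Λ.De' * B) hε (by positivity)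
  obtain ⟨⟨E, hE, hq⟩, hS⟩ := hT (𝓞 K) K F _ s b Λ M1 hb fun k h =>
    hs k (RingOfIntegers.coe_injective (by simpa using h))
  have key := hδ (RR (𝓞 K)) (dl Λ.v M1).toLinearMap.toAddMonoidHom
    (fun p hp h => hP _ F _ s b Λ M1 p hF hp (fun h' => h (h'.mul_right _))
      (hC p hp fun h' => h (h'.mul_left _))) fun p a hp h => hB _ Λ.v M1 p a hp h
  refine ⟨Λ.M0 * M1, _, _, C, d, Nat.mul_pos Λ.M0_pos M10, by simpa using hS, hd, fun y hy n => ?_⟩
  have hy' : y ∈ E.range := by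
    refine (Subring.closure_le.2 ?_) hy
    rintro _ (rfl | ⟨k, rfl⟩)
    · refine ⟨inq fun n => (PowerSeries.coeff n x : ℤ), (hq _).trans ?_⟩
      ext n
      simp
    · exact ⟨_, hE _⟩
  obtain ⟨f, rfl⟩ := hy'
  obtain ⟨g, hg⟩ := key n f
  have h1 := congrArg (fun z => algebraMap (𝓞 K) K (MvPowerSeries.constantCoeff z)) hg
  simp only [map_mul, map_natCast] at h1
  have h2 : (n.factorial : K) ≠ 0 := Nat.cast_ne_zero.2 n.factorial_ne_zero
  have h3 : (d n : K) * PowerSeries.coeff n (E f) =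
      algebraMap (𝓞 K) K (MvPowerSeries.constantCoeff g) := by
    rw [hE, tay, PowerSeries.coeff_mk, ← mul_div_assoc, div_eq_iff h2, mul_comm _ (n.factorial : K)]
    exact h1
  rw [h3]
  exact RingOfIntegers.isIntegral_coe _

end Vale.Agent.P027M.B
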