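import Vale.Agent.P027M.B.Defs

/-! # P027, route M, block B1 : small and bad primes -/

set_option linter.all false

noncomputable section

namespace Vale.Agent.P027M.B

namespace Bad

variable {O : Type} [CommRing O]

lemma coeff_iter (N : ℕ) (f : RR O) (e : Option (Fin 3) →₀ ℕ) :
    MvPowerSeries.coeff e ((MvPowerSeries.pderiv O none)^[N] f) =
      MvPowerSeries.coeff (e + Finsupp.single none N) f * ((e none + 1).ascFactorial N : ℕ) := by
  induction N generalizing f with
  | zero => simp
  | succ N ih =>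
    rw [Function.iterate_succ_apply, ih, MvPowerSeries.coeff_pderiv, add_assoc,
      ← Finsupp.single_add, Nat.ascFactorial_succ]
    simp only [Finsupp.add_apply, Finsupp.single_eq_same]
    push_cast
    ring

lemma fac_dvd (N : ℕ) (f : RR O) :
    ((N.factorial : ℕ) : RR O) ∣ (MvPowerSeries.pderiv O none)^[N] f := by
  obtain ⟨g, hg⟩ : ∃ g : RR O, ∀ e, MvPowerSeries.coeff e g =
      MvPowerSeries.coeff (e + Finsupp.single none N) f *
        (((e none + 1).ascFactorial N / N.factorial : ℕ) : O) := ⟨fun e => _, fun e => rfl⟩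
  refine ⟨g, ?_⟩
  ext e
  rw [coeff_iter, ← nsmul_eq_mul, map_nsmul, nsmul_eq_mul, hg]
  conv_lhs => rw [← Nat.mul_div_cancel' (Nat.factorial_dvd_ascFactorial (e none + 1) N)]
  rw [Nat.cast_mul, mul_left_comm]

lemma sub_dvd (v : Fin 3 → RR O) (M1 N : ℕ) (f : RR O) :
    (M1 : RR O) ∣ (dl v M1)^[N] f - (MvPowerSeries.pderiv O none)^[N] f := by
  induction N with
  | zero => simp
  | succ N ih =>
    obtain ⟨g, hg⟩ := ih
    rw [Function.iterate_succ_apply', Function.iterate_succ_apply']
    have e1 : dl v M1 ((dl v M1)^[N] f) - MvPowerSeries.pderiv O none ((dl v M1)^[N] f) =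
        M1 * ∑ k, v k * MvPowerSeries.pderiv O (some k) ((dl v M1)^[N] f) := by
      generalize (dl v M1)^[N] f = x
      simp only [dl, Derivation.add_apply, Fin.sum_univ_three, Derivation.smul_apply, smul_eq_mul]
      ring
    have e2 : MvPowerSeries.pderiv O none ((dl v M1)^[N] f) -
        MvPowerSeries.pderiv O none ((MvPowerSeries.pderiv O none)^[N] f) =
        M1 * MvPowerSeries.pderiv O none g := by
      rw [← map_sub, hg, ← nsmul_eq_mul, map_nsmul, nsmul_eq_mul]
    rw [← sub_add_sub_cancel _ (MvPowerSeries.pderiv O none ((dl v M1)^[N] f)), e1, e2]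
    exact dvd_add (dvd_mul_right _ _) (dvd_mul_right _ _)

end Bad

theorem bad : BAD := by
  intro O _ v M1 p a _ h f
  have h1 := (Nat.cast_dvd_cast (α := RR O) h).trans (Bad.sub_dvd v M1 (p ^ a) f)
  have h2 := (Nat.cast_dvd_cast (α := RR O) (pow_padicValNat_dvd (p := p))).trans
    (Bad.fac_dvd (p ^ a) f)
  simpa using dvd_add h1 h2

end Vale.Agent.P027M.B
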