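import Vale.Agent.P027M.B.ContB

/-! # P027, route M, block B1 : the row `B1.cont` -/

open Polynomial
open scoped PowerSeries

noncomputable section

namespace Vale.Agent.P027M.B.Cont

theorem cc_eval (g : ℂ⟦X⟧[X]) (z : ℂ⟦X⟧) : PowerSeries.constantCoeff (g.eval z) =
    (g.map (PowerSeries.constantCoeff (R := ℂ))).eval (PowerSeries.constantCoeff z) := by
  rw [eval_map, ← eval₂_id, hom_eval₂]
  simp

theorem ne_of_cc {z : ℂ⟦X⟧} (h : PowerSeries.constantCoeff z ≠ 0) : z ≠ 0 := by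
  rintro rfl
  simp at h

/-- the order of `A + B w` along the branch through the base point -/
theorem ord_plus {L : Type} [Field L] (φ : ℂ⟦X⟧ →+* L) (hφ : Function.Injective φ)
    (F A B V c : ℂ⟦X⟧[X]) (m0 s : Fin 3 → ℂ) (ν ω : Fin 3 → ℂ⟦X⟧) (n : ℕ)
    (hm : Function.Injective m0) (hs : ∀ k, s k ≠ 0)
    (hν : ∀ k, PowerSeries.constantCoeff (ν k) = m0 k)
    (hω : ∀ k, PowerSeries.constantCoeff (ω k) = s k)
    (hV : (∏ k, (X - C (ν k))) ^ (n + 1) ∣ V ^ 2 - F) (hV' : ∀ k, V.eval (ν k) = ω k)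
    (hA : A + B * V = (∏ k, (X - C (ν k))) ^ n * c)
    (hB : B.map (PowerSeries.constantCoeff (R := ℂ)) = 0)
    (hc : c.map (PowerSeries.constantCoeff (R := ℂ)) = 1)
    (k : Fin 3) (μ w : ℂ⟦X⟧) (hμ : PowerSeries.constantCoeff μ = m0 k)
    (hw : PowerSeries.constantCoeff w = s k) (hsq : w ^ 2 = F.eval μ) (a : ℕ)
    (ha : (μ = ν k ∧ a = n) ∨ (μ ≠ ν k ∧ a = 0)) (V' : L[X]) (h1 : V'.eval (φ μ) = φ w)
    (h2 : (X - C (φ μ)) ^ (a + 1) ∣ V' ^ 2 - F.map φ) :
    (X - C (φ μ)) ^ a ∣ A.map φ + B.map φ * V' ∧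
      ¬ (X - C (φ μ)) ^ (a + 1) ∣ A.map φ + B.map φ * V' := by
  have hev : ∀ g : ℂ⟦X⟧[X], (g.map φ).eval (φ μ) = φ (g.eval μ) := fun g => by
    rw [eval_map, eval₂_hom]
  have hVμ : PowerSeries.constantCoeff (V.eval μ) = s k := by
    rw [cc_eval, hμ, ← hν, ← cc_eval, hV', hω]
  have hsum : PowerSeries.constantCoeff (w + V.eval μ) ≠ 0 := by
    rw [map_add, hw, hVμ, ← two_mul]
    exact mul_ne_zero two_ne_zero (hs k)
  have hcμ : PowerSeries.constantCoeff (c.eval μ) = 1 := by rw [cc_eval, hc, eval_one]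
  have hne : ∀ l, l ≠ k → PowerSeries.constantCoeff (μ - ν l) ≠ 0 := fun l hl => by
    rw [map_sub, hμ, hν]
    exact sub_ne_zero.2 fun h => hl (hm h).symm
  rcases ha with ⟨rfl, rfl⟩ | ⟨hμν, rfl⟩
  · set P := ∏ l ∈ Finset.univ.erase k, (X - C (ν l)) with hP
    have hU : ∏ l, (X - C (ν l)) = (X - C (ν k)) * P :=
      (Finset.mul_prod_erase _ _ (Finset.mem_univ k)).symm
    have h3 : (X - C (φ (ν k))) ^ (a + 1) ∣ V.map φ ^ 2 - F.map φ := by
      have := Polynomial.map_dvd φ hV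
      rw [hU] at this
      simp only [Polynomial.map_pow, Polynomial.map_mul, Polynomial.map_sub, map_X, map_C,
        mul_pow] at this
      exact (dvd_mul_right _ _).trans this
    have h4 : (X - C (φ (ν k))) ^ (a + 1) ∣ (V' + V.map φ) * (V' - V.map φ) := by
      have := h2.sub h3
      convert this using 1
      ring
    have h5 : ¬ X - C (φ (ν k)) ∣ V' + V.map φ := by
      rw [dvd_iff_isRoot, IsRoot.def, eval_add, h1, hev, ← map_add, map_eq_zero_iff φ hφ]
      exact ne_of_cc hsum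
    have h6 := (((irreducible_X_sub_C _).coprime_iff_not_dvd.2 h5).pow_left).dvd_of_dvd_mul_left h4
    have h7 : A.map φ + B.map φ * V' =
        (X - C (φ (ν k))) ^ a * (P ^ a * c).map φ + B.map φ * (V' - V.map φ) := by
      have := congrArg (Polynomial.map φ) hA
      rw [hU] at this
      simp only [Polynomial.map_pow, Polynomial.map_mul, Polynomial.map_sub, Polynomial.map_add,
        map_X, map_C, mul_pow] at this ⊢
      linear_combination this
    rw [h7]
    refine ⟨(dvd_mul_right _ _).add (((pow_dvd_pow _ a.le_succ).trans h6).mul_left _), fun h => ?_⟩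
    rw [dvd_add_left (h6.mul_left _), pow_succ,
      mul_dvd_mul_iff_left (pow_ne_zero _ (X_sub_C_ne_zero _)), dvd_iff_isRoot, IsRoot.def, hev,
      map_eq_zero_iff φ hφ] at h
    refine ne_of_cc ?_ h
    rw [eval_mul, map_mul, hcμ, mul_one, eval_pow, map_pow, hP, eval_prod, map_prod]
    exact pow_ne_zero _ (Finset.prod_ne_zero_iff.2 fun l hl => by
      simpa using hne l (Finset.ne_of_mem_erase hl))
  · refine ⟨by simp, fun h => ?_⟩
    rw [zero_add, pow_one, dvd_iff_isRoot, IsRoot.def, eval_add, eval_mul, h1, hev, hev, ← map_mul,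
      ← map_add, map_eq_zero_iff φ hφ] at h
    obtain ⟨e, he⟩ := hV
    have h3 := congrArg (eval μ) he
    have h4 := congrArg (eval μ) hA
    simp only [eval_add, eval_mul, eval_sub, eval_pow] at h3 h4
    set u := eval μ (∏ k, (X - C (ν k))) with hu
    have hu0 : u ≠ 0 := by
      rw [hu, eval_prod]
      refine Finset.prod_ne_zero_iff.2 fun l _ => ?_
      by_cases hl : l = k
      · simpa [hl, sub_eq_zero] using hμν
      · simpa using ne_of_cc (hne l hl)
    have h5 : u ^ n * (c.eval μ * (w + V.eval μ) - B.eval μ * u * e.eval μ) = 0 := by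
      linear_combination (w + V.eval μ) * h - (w + V.eval μ) * h4 - B.eval μ * hsq + B.eval μ * h3
    refine ne_of_cc ?_ ((mul_eq_zero.1 h5).resolve_left (pow_ne_zero _ hu0))
    rw [map_sub, map_mul, map_mul, map_mul, hcμ, cc_eval B, hB]
    simpa using hsum

theorem th_add (f g : ℂ⟦X⟧) : th (f + g) = th f + th g := by simp [th, mul_add]

theorem th_mul (f g : ℂ⟦X⟧) : th (f * g) = f * th g + g * th f := by
  simp only [th, Derivation.leibniz, smul_eq_mul]; ring

theorem th_C (a : ℂ) : th (PowerSeries.C a) = 0 := by simp [th]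

/-- the analysis over the ring of all power series -/
theorem core (h2 : ABEL2) (F : ℂ[X]) (A B V c U' : ℂ⟦X⟧[X]) (m0 s : Fin 3 → ℂ)
    (h ν ω : Fin 3 → ℂ⟦X⟧) (n : ℕ) (hF : F.natDegree = 7)
    (hm : Function.Injective m0) (hs : ∀ k, s k ≠ 0)
    (hS : Sol F m0 s (fun j => PowerSeries.C ((n + 1 : ℕ) : ℂ)⁻¹ * h j) ν ω)
    (hV : (∏ k, (X - C (ν k))) ^ (n + 1 + 1) ∣ V ^ 2 - F.map PowerSeries.C)
    (hV' : ∀ k, V.eval (ν k) = ω k)
    (hA : A + B * V = (∏ k, (X - C (ν k))) ^ (n + 1) * c)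
    (hB : B.map (PowerSeries.constantCoeff (R := ℂ)) = 0)
    (hc : c.map (PowerSeries.constantCoeff (R := ℂ)) = 1)
    (hN : A ^ 2 - B ^ 2 * F.map PowerSeries.C = (∏ k, (X - C (ν k))) ^ (n + 1) *
      (∏ k, (X - C (PowerSeries.C (m0 k)))) ^ n * U') (hU : U'.Monic) (hU3 : U'.natDegree = 3)
    (hU0 : U'.map (PowerSeries.constantCoeff (R := ℂ)) = ∏ k, (X - C (m0 k))) :
    ∃ m' w', U' = ∏ k, (X - C (m' k)) ∧ Sol F m0 s h m' w' := by
  classical
  have hFe : ∀ z : ℂ⟦X⟧, aeval z F = (F.map PowerSeries.C).eval z := fun z => by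
    rw [eval_map, aeval_def]; rfl
  have hFc : (F.map PowerSeries.C).map (PowerSeries.constantCoeff (R := ℂ)) = F := by
    rw [Polynomial.map_map]; simp
  have hsq : ∀ k, s k ^ 2 = F.eval (m0 k) := fun k => by
    rw [← hS.w_zero, ← map_pow, hS.sq, hFe, cc_eval, hFc, hS.m_zero]
  have hroot : ∀ k, ∃ z, U'.eval z = 0 ∧ PowerSeries.constantCoeff z = m0 k := fun k => by
    refine hensel U' hU _ ?_ ?_
    · rw [hU0, eval_prod]
      exact Finset.prod_eq_zero (Finset.mem_univ k) (by simp)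
    · rw [hU0, ← Finset.mul_prod_erase _ _ (Finset.mem_univ k), derivative_mul]
      simp only [eval_add, eval_mul, eval_sub, eval_X, eval_C, sub_self, zero_mul, add_zero,
        derivative_X_sub_C, one_mul, eval_prod]
      exact Finset.prod_ne_zero_iff.2 fun l hl =>
        sub_ne_zero.2 fun h => Finset.ne_of_mem_erase hl (hm h).symm
  choose m' hm1 hm2 using hroot
  have hw : ∀ k, ∃ z : ℂ⟦X⟧, z ^ 2 = aeval (m' k) F ∧ PowerSeries.constantCoeff z = s k := fun k => by
    obtain ⟨z, h3, h4⟩ := hensel (X ^ 2 - C (aeval (m' k) F)) (monic_X_pow_sub_C _ two_ne_zero)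
      (s k) (by simp [hFe, cc_eval, hFc, hm2, hsq]) (by simpa using hs k)
    exact ⟨z, by simpa [sub_eq_zero] using h3, h4⟩
  choose w' hw1 hw2 using hw
  have hUe : U' = ∏ k, (X - C (m' k)) := by
    refine eq_of_monic_of_dvd_of_natDegree_le (monic_prod_X_sub_C _ _) hU
      (prod_dvd_of_eval m' (fun k l hkl => ?_) hm1) (by simp [hU3])
    rw [PowerSeries.isUnit_iff_constantCoeff, map_sub, hm2, hm2]
    exact (sub_ne_zero.2 fun h => hkl (hm h)).isUnit
  refine ⟨m', w', hUe, hm2, hw2, hw1, fun j => ?_⟩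
  obtain ⟨d, hd⟩ := exists_frac (L := FractionRing ℂ⟦X⟧) (AddMonoidHom.mk' th th_add) th_mul
  obtain ⟨φ, hφ0⟩ : ∃ φ : ℂ⟦X⟧ →+* FractionRing ℂ⟦X⟧, φ = algebraMap _ _ := ⟨_, rfl⟩
  have hφ : Function.Injective φ := hφ0 ▸ IsFractionRing.injective _ _
  have hd' : ∀ a, d (φ a) = φ (th a) := fun a => by rw [hφ0]; exact hd a
  let p : Fin 3 ⊕ Fin 3 ⊕ Fin 3 → ℂ⟦X⟧ := Sum.elim ν (Sum.elim (fun k => PowerSeries.C (m0 k)) m')
  let y : Fin 3 ⊕ Fin 3 ⊕ Fin 3 → ℂ⟦X⟧ := Sum.elim ω (Sum.elim (fun k => PowerSeries.C (s k)) w')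
  let κ : Fin 3 ⊕ Fin 3 ⊕ Fin 3 → Fin 3 := Sum.elim id (Sum.elim id id)
  have hp : ∀ i, PowerSeries.constantCoeff (p i) = m0 (κ i) := by
    rintro (k | k | k) <;> simp [p, κ, hS.m_zero, hm2]
  have hy : ∀ i, PowerSeries.constantCoeff (y i) = s (κ i) := by
    rintro (k | k | k) <;> simp [y, κ, hS.w_zero, hw2]
  have hpy : ∀ i, y i ^ 2 = (F.map PowerSeries.C).eval (p i) := by
    rintro (k | k | k)
    · exact (hS.sq k).trans (hFe _)
    · show PowerSeries.C (s k) ^ 2 = (F.map PowerSeries.C).eval (PowerSeries.C (m0 k))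
      rw [eval_map, eval₂_hom, ← map_pow, hsq]
    · exact (hw1 k).trans (hFe _)
  have hy0 : ∀ i, y i ≠ 0 := fun i => ne_of_cc (by rw [hy]; exact hs _)
  have key := abel3 h2 d ((F.map PowerSeries.C).map φ) (fun i => φ (p i)) (fun i => φ (y i))
    (Sum.elim (fun _ => n + 1) fun _ => 0) (Sum.elim (fun _ => 0) (Sum.elim (fun _ => n) fun _ => 1))
    (A.map φ) (B.map φ) (by
      rw [← map_ofNat φ 2, Ne, map_eq_zero_iff φ hφ]; exact ne_of_cc (by simp [map_ofNat]))
    (by rw [natDegree_map_eq_of_injective hφ,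
      natDegree_map_eq_of_injective PowerSeries.C_injective, hF])
    (fun i => by rw [coeff_map, coeff_map, hd', th_C, map_zero])
    (fun i => (map_ne_zero_iff φ hφ).2 (hy0 i))
    (fun i => by rw [← map_pow, hpy, eval_map φ, eval₂_hom])
    (fun i i' hi => by
      have h3 := hφ hi
      have h4 : κ i = κ i' := hm (by rw [← hp, ← hp, h3])
      have h5 : (y i - y i') * (y i + y i') = 0 := by
        linear_combination hpy i - hpy i' + congrArg (fun z => (F.map PowerSeries.C).eval z) h3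
      have h6 : y i + y i' ≠ 0 := ne_of_cc (by
        rw [map_add, hy, hy, h4, ← two_mul]; exact mul_ne_zero two_ne_zero (hs _))
      rw [sub_eq_zero.1 ((mul_eq_zero.1 h5).resolve_right h6)])
    (by
      have := congrArg (Polynomial.map φ) hN
      rw [hUe] at this
      simp only [Polynomial.map_pow, Polynomial.map_mul, Polynomial.map_sub, Polynomial.map_prod,
        map_X, map_C] at this
      rw [this]
      simp [Fintype.prod_sum_type, p, Finset.prod_pow, mul_assoc])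
    (fun i V' h3 h4 => ord_plus φ hφ _ A B V c m0 s ν ω (n + 1) hm hs hS.m_zero hS.w_zero hV hV' hA
      hB hc (κ i) (p i) (y i) (hp i) (hy i) (hpy i) _ (by
        rw [Finset.sum_filter, Fintype.sum_sum_type]
        simp only [Sum.elim_inl, Sum.elim_inr, ite_self, Finset.sum_const_zero, add_zero,
          hφ.eq_iff]
        have h5 : ∀ l, p (Sum.inl l) = p i → l = κ i := fun l hl =>
          hm (by rw [← hp i, ← hl, hp]; rfl)
        by_cases h6 : p i = ν (κ i)
        · refine Or.inl ⟨h6, ?_⟩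
          rw [Finset.sum_eq_single (κ i) (fun l _ hl => if_neg fun h7 => hl (h5 l h7)) (by simp)]
          exact if_pos h6.symm
        · refine Or.inr ⟨h6, Finset.sum_eq_zero fun l _ => if_neg fun h7 => h6 ?_⟩
          rw [← h5 l h7]; exact h7.symm) V' h3 h4) j j.2
  have hinv : ∀ i, (φ (y i))⁻¹ = φ (y i)⁻¹ := fun i => by
    refine inv_eq_of_mul_eq_one_right ?_
    rw [← map_mul, PowerSeries.mul_inv_cancel _ (by rw [hy]; exact hs _), map_one]
  simp only [div_eq_mul_inv, hinv, hd', Fintype.sum_sum_type, Sum.elim_inl, Sum.elim_inr, p, y,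
    th_C, map_zero, mul_zero, zero_mul, Finset.sum_const_zero, zero_add, Nat.cast_zero, sub_zero,
    zero_sub, Nat.cast_one, ← map_pow, ← map_mul, ← Finset.mul_sum, ← map_sum, hS.ode j] at key
  apply hφ
  have h7 : ((n + 1 : ℕ) : FractionRing ℂ⟦X⟧) * φ (PowerSeries.C ((n + 1 : ℕ) : ℂ)⁻¹) = 1 := by
    rw [← map_natCast φ, ← map_mul, ← map_natCast (PowerSeries.C (R := ℂ)), ← map_mul,
      mul_inv_cancel₀ (by exact_mod_cast n.succ_ne_zero), map_one, map_one]
  rw [map_mul] at key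
  linear_combination -key + φ (h j) * h7

end Vale.Agent.P027M.B.Cont

namespace Vale.Agent.P027M.B

open Cont

theorem cont (h2 : ABEL2) (hq : UNIQ) : CONT := by
  intro S F m0 s n h ν ω m w hC hI hF hn hm hs hS hne hν hM i
  obtain ⟨n, rfl⟩ : ∃ n', n = n' + 1 := ⟨n - 1, by omega⟩
  let ρ : S →+* ℂ := (PowerSeries.constantCoeff (R := ℂ)).comp S.subtype
  let cS : ℂ →+* S := (PowerSeries.C (R := ℂ)).codRestrict S hC
  have hρc : ρ.comp cS = RingHom.id ℂ := RingHom.ext fun a => by simp [ρ, cS]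
  have hιc : S.subtype.comp cS = PowerSeries.C := RingHom.ext fun a => rfl
  have hρ : ∀ y : S, ρ y ≠ 0 → IsUnit y := fun y hy =>
    IsUnit.of_mul_eq_one ⟨_, hI y y.2 hy⟩ (Subtype.ext (PowerSeries.mul_inv_cancel _ hy))
  let νS : Fin 3 → S := fun k => ⟨ν k, (hS k).1⟩
  let ωS : Fin 3 → S := fun k => ⟨ω k, (hS k).2⟩
  have hρν : ∀ k, ρ (νS k) = m0 k := hν.m_zero
  have hι : Function.Injective S.subtype := Subtype.val_injective
  obtain ⟨V, W, hV1, hV2, hV3⟩ := exists_branch (F.map cS) νS ωS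
    (fun k l hkl => hρ _ (by rw [map_sub, hρν, hρν]; exact sub_ne_zero.2 fun h => hkl (hm h)))
    (fun k => hρ _ (by
      rw [map_mul, map_ofNat, show ρ (ωS k) = s k from hν.w_zero k]
      exact mul_ne_zero two_ne_zero (hs k)))
    (fun k => hι (by
      rw [map_pow, ← eval₂_hom, ← eval_map, Polynomial.map_map, hιc, eval_map]
      exact hν.sq k)) (n + 1)
  set U : S[X] := ∏ k, (X - C (νS k)) with hU
  have hUm : U.Monic := monic_prod_X_sub_C _ _
  have hU3 : U.natDegree = 3 := by simp [hU]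
  have hUρ : U.map ρ = ∏ k, (X - C (m0 k)) := by simp [hU, Polynomial.map_prod, hρν]
  have hUι : U.map S.subtype = ∏ k, (X - C (ν k)) := by simp [hU, Polynomial.map_prod, νS]
  have hback : ∀ f : ℂ[X], (f.map cS).map ρ = f := fun f => by
    rw [Polynomial.map_map, hρc, Polynomial.map_id]
  set U0 : S[X] := (U.map ρ).map cS with hU0
  have hU0m : U0.Monic := (hUm.map _).map _
  have hU03 : U0.natDegree = 3 := by rw [hU0, (hUm.map _).natDegree_map, hUm.natDegree_map, hU3]
  have hU0ι : U0.map S.subtype = ∏ k, (X - C (PowerSeries.C (m0 k))) := by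
    rw [hU0, Polynomial.map_map, hιc, hUρ]; simp [Polynomial.map_prod]
  obtain ⟨A, B, c, hA1, hA2, hB1, hA3, hA4, hB2, hA5, hc⟩ := solve ρ hρ U U0 V ((V.map ρ).map cS)
    ((W.map ρ).map cS) n hUm hU0m (hback _).symm (hback _).symm (by
      simpa using Polynomial.map_dvd cS (Polynomial.map_dvd ρ hV3))
  have hV0 : U0 ^ (n + 1 + 1) ∣ ((V.map ρ).map cS) ^ 2 - F.map cS := by
    simpa [hback] using Polynomial.map_dvd cS (Polynomial.map_dvd ρ hV1)
  have hlt : (B ^ 2 * F.map cS).degree < (A ^ 2).degree := by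
    by_cases hB0 : B = 0
    · rw [hB0, zero_pow two_ne_zero, zero_mul, degree_zero]
      exact bot_lt_iff_ne_bot.2 (degree_ne_bot.2 (hA1.pow 2).ne_zero)
    · have h3 : B.natDegree < n * U0.natDegree := (natDegree_lt_iff_degree_lt hB0).2 hB1
      apply degree_lt_degree
      have h4 : (B ^ 2 * F.map cS).natDegree ≤ 2 * B.natDegree + 7 :=
        natDegree_mul_le.trans (add_le_add natDegree_pow_le (hF ▸ natDegree_map_le))
      rw [hA1.natDegree_pow, hA2, hU3]
      rw [hU03] at h3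
      omega
  have hNm : (A ^ 2 - B ^ 2 * F.map cS).Monic := (hA1.pow 2).sub_of_left hlt
  have hNd : (A ^ 2 - B ^ 2 * F.map cS).natDegree = 6 * (n + 1) := by
    rw [natDegree_eq_of_degree_eq (degree_sub_eq_left_of_degree_lt hlt), hA1.natDegree_pow, hA2,
      hU3]
    ring
  have hd1 : U ^ (n + 1) ∣ A ^ 2 - B ^ 2 * F.map cS := by
    have : A ^ 2 - B ^ 2 * F.map cS = (A + B * V) * (A - B * V) + B ^ 2 * (V ^ 2 - F.map cS) := by
      ring
    rw [this, hA3]
    exact ((dvd_mul_right _ _).mul_right _).add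
      (((pow_dvd_pow _ (Nat.le_succ _)).trans hV1).mul_left _)
  have hd2 : U0 ^ n ∣ A ^ 2 - B ^ 2 * F.map cS := by
    have : A ^ 2 - B ^ 2 * F.map cS = (A - B * (V.map ρ).map cS) * (A + B * (V.map ρ).map cS) +
        B ^ 2 * (((V.map ρ).map cS) ^ 2 - F.map cS) := by ring
    rw [this]
    exact (hA4.mul_right _).add (((pow_dvd_pow _ (by omega)).trans hV0).mul_left _)
  have hm12 := (hUm.pow (n := n + 1)).mul (hU0m.pow (n := n))
  obtain ⟨U', hU'⟩ : U ^ (n + 1) * U0 ^ n ∣ A ^ 2 - B ^ 2 * F.map cS := by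
    let φ := algebraMap ℂ⟦X⟧ (FractionRing ℂ⟦X⟧)
    have hφ : Function.Injective φ := IsFractionRing.injective _ _
    rw [← map_dvd_map (φ.comp S.subtype) (hφ.comp hι) hm12, Polynomial.map_mul]
    refine IsCoprime.mul_dvd ?_ (Polynomial.map_dvd _ hd1) (Polynomial.map_dvd _ hd2)
    rw [Polynomial.map_pow, Polynomial.map_pow, ← Polynomial.map_map, ← Polynomial.map_map, hUι,
      hU0ι]
    simp only [Polynomial.map_prod, Polynomial.map_sub, map_X, map_C]
    refine IsCoprime.pow (IsCoprime.prod_left fun k _ => IsCoprime.prod_right fun l _ =>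
      isCoprime_X_sub_C_of_isUnit_sub (sub_ne_zero.2 fun h3 => ?_).isUnit)
    have h4 := hφ h3
    have h5 : k = l := hm (by rw [← hν.m_zero, h4]; simp)
    exact hne k (h5 ▸ h4)
  have hU'm : U'.Monic := hm12.of_mul_monic_left (hU' ▸ hNm)
  have hU'3 : U'.natDegree = 3 := by
    rw [hU', hm12.natDegree_mul hU'm, (hUm.pow (n := n + 1)).natDegree_mul (hU0m.pow (n := n)),
      hUm.natDegree_pow, hU0m.natDegree_pow, hU3, hU03] at hNd
    omega
  have hU'ρ : U'.map ρ = ∏ k, (X - C (m0 k)) := by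
    have h3 := congrArg (Polynomial.map ρ) hU'
    simp only [Polynomial.map_sub, Polynomial.map_mul, Polynomial.map_pow, hA5, hB2, hU0,
      hback] at h3
    rw [← hUρ]
    refine mul_left_cancel₀ (pow_ne_zero (2 * n + 1) (hUm.map ρ).ne_zero) ?_
    linear_combination -h3
  have hmap : ∀ f : S[X], (f.map S.subtype).map (PowerSeries.constantCoeff (R := ℂ)) = f.map ρ :=
    fun f => Polynomial.map_map _ _ _
  have hFι : (F.map cS).map S.subtype = F.map PowerSeries.C := by rw [Polynomial.map_map, hιc]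
  obtain ⟨m', w', h3, h4⟩ := core h2 F (A.map S.subtype) (B.map S.subtype) (V.map S.subtype)
    (c.map S.subtype) (U'.map S.subtype) m0 s h ν ω n hF hm hs hν
    (by simpa [hUι, hFι] using Polynomial.map_dvd S.subtype hV1)
    (fun k => by
      have := congrArg S.subtype (hV2 k)
      rwa [← eval₂_hom, ← eval_map] at this)
    (by simpa [hUι] using congrArg (Polynomial.map S.subtype) hA3)
    (by rw [hmap, hB2]) (by rw [hmap, hc])
    (by simpa [hUι, hU0ι, hFι] using congrArg (Polynomial.map S.subtype) hU')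
    (hU'm.map _) (by rw [hU'm.natDegree_map, hU'3]) (by rw [hmap, hU'ρ])
  rw [(hq ℂ F m0 s h m w m' w' hm hs hM h4).1, ← h3, coeff_map]
  exact (U'.coeff i).2

end Vale.Agent.P027M.B
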