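import Mathlib

/-! # P027, route M, block B1 : two derivations which agree on a subring agree on the algebraic
elements -/

open Polynomial

noncomputable section

namespace Vale.Agent.P027M.B.Corr

theorem d_eval {K A : Type*} [CommRing K] [CommRing A] [Algebra K A] (d : Derivation K A A)
    (P : A[X]) (a : A) {N : ℕ} (hN : P.natDegree < N) : d (P.eval a) =
      ∑ n ∈ Finset.range N, d (P.coeff n) * a ^ n + P.derivative.eval a * d a := by
  rw [derivative_eval, sum_over_range' _ (by simp) N hN, eval_eq_sum_range' hN, map_sum,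
    Finset.sum_mul, ← Finset.sum_add_distrib]
  refine Finset.sum_congr rfl fun n _ => ?_
  rw [d.leibniz, d.leibniz_pow]
  simp only [smul_eq_mul, nsmul_eq_mul]
  ring

variable {K₁ K₂ R Om L : Type*} [CommRing K₁] [CommRing K₂] [CommRing R] [Field Om] [Field L]
  [Algebra K₁ R] [Algebra K₂ Om] (j : R →+* L) (ψ : Om →+* L) (t : Derivation K₁ R R)
  (D : Derivation K₂ Om Om) (u : L)

/-- the elements on which `t` and `u * D` agree -/
def gd : Subring R where
  carrier := {f | ∃ μ, ψ μ = j f ∧ ψ (D μ) * u = j (t f)}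
  mul_mem' := by
    rintro a b ⟨μ, h1, h2⟩ ⟨ν, h3, h4⟩
    refine ⟨μ * ν, by rw [map_mul, map_mul, h1, h3], ?_⟩
    simp only [Derivation.leibniz, smul_eq_mul, map_add, map_mul, ← h2, ← h4, h1, h3]
    ring
  one_mem' := ⟨1, by simp, by simp⟩
  add_mem' := by
    rintro a b ⟨μ, h1, h2⟩ ⟨ν, h3, h4⟩
    exact ⟨μ + ν, by rw [map_add, map_add, h1, h3], by simp only [map_add, ← h2, ← h4, add_mul]⟩
  zero_mem' := ⟨0, by simp, by simp⟩
  neg_mem' := by
    rintro a ⟨μ, h1, h2⟩
    exact ⟨-μ, by rw [map_neg, map_neg, h1], by simp only [map_neg, ← h2, neg_mul]⟩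

variable {j ψ t D u}

theorem gd_root [IsAlgClosed Om] [IsDomain R] [CharZero R] (hj : Function.Injective j) {f : R}
    (P : R[X]) (h0 : P ≠ 0) (hc : ∀ n, P.coeff n ∈ gd j ψ t D u) (hf : P.eval f = 0) :
    f ∈ gd j ψ t D u := by
  induction hn : P.natDegree using Nat.strong_induction_on generalizing P with
  | _ N ih =>
  by_cases e : P.derivative.eval f = 0
  · have e0 : P.natDegree ≠ 0 := fun h => h0 (by
      rw [eq_C_of_natDegree_eq_zero h] at hf ⊢
      rw [eval_C] at hf
      rw [hf, C_0])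
    refine ih _ (hn ▸ natDegree_derivative_lt e0) P.derivative
      (fun h => e0 (derivative_eq_zero.1 h)) (fun n => ?_) e rfl
    rw [coeff_derivative]
    exact mul_mem (hc _) (add_mem (natCast_mem _ n) (one_mem _))
  obtain ⟨Q, hQ⟩ : ∃ Q : Om[X], Q.map ψ = P.map j :=
    (mem_lifts _).1 ((lifts_iff_coeff_lifts _).2 fun n => by
      obtain ⟨μ, h, -⟩ := hc n
      exact ⟨μ, by rw [h, coeff_map]⟩)
  have ev : ∀ (Q : Om[X]) (P : R[X]) (μ : Om), Q.map ψ = P.map j → ψ μ = j f →
      ψ (Q.eval μ) = j (P.eval f) := fun Q P μ h1 h2 => by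
    rw [← eval_map_apply ψ, h1, h2, eval_map_apply]
  obtain ⟨μ, hμ⟩ : ∃ μ, ψ μ = j f := by
    let := ψ.toAlgebra
    have h : IsAlgebraic Om (j f) := ⟨Q, fun h => h0 (map_injective j hj (by simp [← hQ, h])), by
      rw [aeval_def, eval₂_eq_eval_map, RingHom.algebraMap_toAlgebra, hQ, eval_map_apply, hf,
        map_zero]⟩
    exact minpoly.mem_range_of_degree_eq_one Om _
      (IsAlgClosed.degree_eq_one_of_irreducible Om (minpoly.irreducible h.isIntegral))
  refine ⟨μ, hμ, ?_⟩
  have q0 : Q.eval μ = 0 := ψ.injective (by rw [ev Q P μ hQ hμ, hf, map_zero, map_zero])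
  have dq : Q.natDegree < P.natDegree + 1 := by
    rw [← natDegree_map ψ, hQ]; exact Nat.lt_succ_of_le natDegree_map_le
  have h1 := congrArg (fun z => ψ z * u) (d_eval D Q μ dq)
  have h2 := congrArg j (d_eval t P f (Nat.lt_succ_self _))
  have h3 : ∀ n, ψ (D (Q.coeff n)) * ψ μ ^ n * u = j (t (P.coeff n)) * j f ^ n := fun n => by
    obtain ⟨ν, a1, a2⟩ := hc n
    rw [show Q.coeff n = ν from ψ.injective (by rw [← coeff_map, hQ, coeff_map, a1]), ← a2, hμ]
    ring
  simp only [q0, hf, map_zero, zero_mul, map_add, map_sum, map_mul, map_pow, add_mul,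
    Finset.sum_mul, h3, ev Q.derivative P.derivative μ (by rw [← derivative_map, hQ, derivative_map])
      hμ] at h1 h2
  exact mul_left_cancel₀ (fun h => e (hj (h.trans (map_zero j).symm))) (by linear_combination h2 - h1)

theorem gd_alg [IsAlgClosed Om] [IsDomain R] [CharZero R] (hj : Function.Injective j)
    {S : Type*} [CommRing S] [Algebra S R] (hS : Function.Injective (algebraMap S R))
    (h : ∀ c, algebraMap S R c ∈ gd j ψ t D u) {f : R} (hf : IsAlgebraic S f) :
    f ∈ gd j ψ t D u := by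
  obtain ⟨P, h0, hP⟩ := hf
  exact gd_root hj (P.map (algebraMap S R)) (fun e => h0 (map_injective _ hS (by simp [e])))
    (fun n => by rw [coeff_map]; exact h _) (by rw [eval_map_algebraMap, hP])

/-- the derivation commutes with the Galois group -/
theorem comm {K Y Om : Type*} [Field K] [CharZero K] [Field Y] [Field Om] [Algebra K Y]
    [Algebra Y Om] [Algebra K Om] [IsScalarTower K Y Om] [IsAlgClosure Y Om] {x0 : Y}
    (D : Derivation K Om Om) (ha : Algebra.IsAlgebraic (IntermediateField.adjoin K {x0}) Y)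
    (h1 : D (algebraMap Y Om x0) = 1) (σ : Om ≃ₐ[Y] Om) (a : Om) : D (σ a) = σ (D a) := by
  have := IsAlgClosure.isAlgClosed Y (K := Om)
  have : CharZero Om := charZero_of_injective_algebraMap (algebraMap K Om).injective
  have hj : Function.Injective (σ : Om →+* Om) := σ.injective
  have h : ∀ y ∈ IntermediateField.adjoin K {x0},
      algebraMap Y Om y ∈ gd (σ : Om →+* Om) (RingHom.id Om) D D 1 := fun y hy => by
    induction hy using IntermediateField.adjoin_induction with
    | mem y hy => exact ⟨algebraMap Y Om y, (σ.commutes y).symm, by simp [Set.mem_singleton_iff.1 hy, h1]⟩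
    | algebraMap c => exact ⟨_, (σ.commutes _).symm, by simp [← IsScalarTower.algebraMap_apply]⟩
    | add y z _ _ hy hz => rw [map_add]; exact add_mem hy hz
    | mul y z _ _ hy hz => rw [map_mul]; exact mul_mem hy hz
    | inv y _ hy =>
      rw [map_inv₀]
      by_cases e : algebraMap Y Om y = 0
      · rw [e, inv_zero]; exact zero_mem _
      refine gd_root hj (C (algebraMap Y Om y) * X - 1) (fun h => ?_) (fun n => ?_) (by simp [e])
      · simpa using congrArg (eval 0) h
      · rw [coeff_sub, coeff_C_mul, coeff_X, coeff_one]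
        refine sub_mem (mul_mem hy ?_) ?_ <;> split_ifs <;> simp
  have := Algebra.IsAlgebraic.trans (IntermediateField.adjoin K {x0}) Y Om
  obtain ⟨μ, h2, h3⟩ := gd_alg hj (algebraMap (IntermediateField.adjoin K {x0}) Om).injective
    (fun c => h c c.2) (Algebra.IsAlgebraic.isAlgebraic a)
  rw [RingHom.id_apply] at h2 h3
  rw [h2, mul_one] at h3
  exact h3

/-- the sum over a Galois orbit -/
theorem orbit {Y Om : Type*} [Field Y] [Field Om] [Algebra Y Om] [Algebra.IsAlgebraic Y Om]
    (t : Fin 3 → Om × Om) : ∃ (N : ℕ) (Z : Multiset (Om × Om)), 0 < N ∧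
      (∀ P ∈ Z, ∃ (σ : Om ≃ₐ[Y] Om) (k : Fin 3), P = (σ (t k).1, σ (t k).2)) ∧
      (∀ σ : Om ≃ₐ[Y] Om, Z.map (fun P => (σ P.1, σ P.2)) = Z) ∧
      ∀ (φ : Om × Om → Om) (c : Om),
        (∀ σ : Om ≃ₐ[Y] Om, ∑ k, φ (σ (t k).1, σ (t k).2) = c) → (Z.map φ).sum = N * c := by
  classical
  have f1 : ∀ a : Om, (Set.range fun σ : Om ≃ₐ[Y] Om => σ a).Finite := fun a =>
    ((minpoly Y a).rootSet_finite Om).subset (by
      rintro _ ⟨σ, rfl⟩
      exact mem_rootSet.2 ⟨minpoly.ne_zero (Algebra.IsIntegral.isIntegral a), by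
        rw [aeval_algHom_apply, minpoly.aeval, map_zero]⟩)
  have f2 : (Set.range fun (σ : Om ≃ₐ[Y] Om) (k : Fin 3) => (σ (t k).1, σ (t k).2)).Finite :=
    (Set.Finite.pi' fun k => (f1 (t k).1).prod (f1 (t k).2)).subset (by
      rintro _ ⟨σ, rfl⟩ k
      exact ⟨⟨σ, rfl⟩, ⟨σ, rfl⟩⟩)
  refine ⟨f2.toFinset.card, f2.toFinset.val.bind fun s => Finset.univ.val.map s,
    Finset.card_pos.2 ⟨_, f2.mem_toFinset.2 ⟨1, rfl⟩⟩, fun P hP => ?_, fun σ => ?_, fun φ c h => ?_⟩
  · obtain ⟨s, hs, hP⟩ := Multiset.mem_bind.1 hP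
    obtain ⟨σ, rfl⟩ := f2.mem_toFinset.1 hs
    obtain ⟨k, -, rfl⟩ := Multiset.mem_map.1 hP
    exact ⟨σ, k, rfl⟩
  · have inj : Function.Injective fun (s : Fin 3 → Om × Om) k => (σ (s k).1, σ (s k).2) :=
      fun s s' h => funext fun k => Prod.ext (σ.injective (congrArg Prod.fst (congrFun h k)))
        (σ.injective (congrArg Prod.snd (congrFun h k)))
    have e : f2.toFinset.map ⟨_, inj⟩ = f2.toFinset := Finset.eq_of_subset_of_card_le (fun s hs => by
      obtain ⟨s', hs', rfl⟩ := Finset.mem_map.1 hs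
      obtain ⟨τ, rfl⟩ := f2.mem_toFinset.1 hs'
      exact f2.mem_toFinset.2 ⟨σ * τ, rfl⟩) (Finset.card_map _).ge
    conv_rhs => rw [← e]
    rw [Finset.map_val, Multiset.bind_map, Multiset.map_bind]
    simp only [Multiset.map_map]
    rfl
  · rw [Multiset.map_bind, Multiset.sum_bind, ← nsmul_eq_mul, ← Finset.sum_const]
    refine Finset.sum_congr rfl fun s hs => ?_
    obtain ⟨σ, rfl⟩ := f2.mem_toFinset.1 hs
    rw [Multiset.map_map]
    exact h σ

open scoped PowerSeries in
/-- a common overfield -/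
theorem emb {K K' Y Om : Type} [Field K] [Field K'] [Algebra K K'] [Field Y] [Field Om]
    [Algebra Y Om] [Algebra.IsAlgebraic Y Om] (e : Y →+* LaurentSeries K) :
    ∃ (L : Type) (_ : Field L) (j : K'⟦X⟧ →+* L) (ψ : Om →+* L) (ι : LaurentSeries K →+* L),
      Function.Injective j ∧ (∀ f : K⟦X⟧, ι f = j (f.map (algebraMap K K'))) ∧
      ∀ y, ψ (algebraMap Y Om y) = ι (e y) := by
  let L := AlgebraicClosure (FractionRing K'⟦X⟧)
  let j : K'⟦X⟧ →+* L := (algebraMap (FractionRing K'⟦X⟧) L).comp (algebraMap _ _)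
  have hj : Function.Injective j :=
    (algebraMap (FractionRing K'⟦X⟧) L).injective.comp (IsFractionRing.injective _ _)
  have hg : Function.Injective (j.comp (PowerSeries.map (algebraMap K K'))) :=
    hj.comp (PowerSeries.map_injective _ (algebraMap K K').injective)
  let ι : LaurentSeries K →+* L := IsFractionRing.lift hg
  let : Algebra Y L := (ι.comp e).toAlgebra
  let ψ : Om →ₐ[Y] L := IsAlgClosed.lift
  exact ⟨L, inferInstance, j, ψ, ι, hj, fun f => IsFractionRing.lift_algebraMap hg f, ψ.commutes⟩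

end Vale.Agent.P027M.B.Corr
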