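import Vale.Agent.P027M.B.Defs
import Vale.Agent.P027M.B.CorrA

/-! # P027, route M, block B1 : the correspondence -/

open Polynomial NumberField
open scoped PowerSeries

noncomputable section

namespace Vale.Agent.P027M.B

namespace Corr

/-- `q d/dq` as a derivation -/
def thD (K : Type*) [CommRing K] : Derivation K K⟦X⟧ K⟦X⟧ :=
  (PowerSeries.X : K⟦X⟧) • PowerSeries.derivative K

theorem thD_apply {K : Type*} [CommRing K] (f : K⟦X⟧) : thD K f = th f := rfl

theorem coeff_th {K : Type*} [CommRing K] (f : K⟦X⟧) (n : ℕ) :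
    PowerSeries.coeff n (th f) = PowerSeries.coeff n f * n := by
  cases n with
  | zero => simp [th]
  | succ n => simp [th, PowerSeries.coeff_succ_X_mul, PowerSeries.coeff_derivative]

theorem map_th {K K' : Type*} [CommRing K] [CommRing K'] (φ : K →+* K') (f : K⟦X⟧) :
    (th f).map φ = th (f.map φ) := by
  ext n
  simp [coeff_th]

theorem core {K K' Y Om : Type} [Field K] [CharZero K] [Field K'] [Algebra K K']
    [Algebra.IsAlgebraic K K'] [Field Y] [Field Om] [Algebra K Y] [Algebra Y Om] [Algebra K Om]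
    [IsScalarTower K Y Om] [IsAlgClosure Y Om] (e : Y →ₐ[K] LaurentSeries K) {x0 : Y}
    {η : Fin 3 → Y} (D : Derivation K Om Om) {x : K⟦X⟧} {h : Fin 3 → K⟦X⟧} (hx : e x0 = x)
    (hη : ∀ i, e (η i) * (th x : K⟦X⟧) = h i) (h1 : D (algebraMap Y Om x0) = 1) (x1 : th x ≠ 0)
    {F : K[X]} {M : ℕ} {m0 s : Fin 3 → K'} {m w : Fin 3 → K'⟦X⟧} (hs : ∀ k, s k ≠ 0)
    (sol : Sol (F.map (algebraMap K K')) m0 s (fun i => M * (h i).map (algebraMap K K')) m w)
    (alg : ∀ k, IsAlgebraic (Algebra.adjoin K' {x.map (algebraMap K K')}) (m k)) :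
    ∃ t : Fin 3 → Om × Om, (∀ k, (t k).2 ≠ 0 ∧ (t k).2 ^ 2 = aeval (t k).1 F) ∧
      ∀ i : Fin 3, ∑ k, (t k).1 ^ (i : ℕ) * D (t k).1 / (t k).2 = M * algebraMap Y Om (η i) := by
  have := IsAlgClosure.isAlgClosed Y (K := Om)
  have : CharZero K' := charZero_of_injective_algebraMap (algebraMap K K').injective
  have : CharZero K'⟦X⟧ := charZero_of_injective_algebraMap (PowerSeries.C_injective (R := K'))
  obtain ⟨L, _, j, ψ, ι, hj, hι, hψ⟩ := emb (K' := K') (Om := Om) (e : Y →+* LaurentSeries K)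
  replace hψ : ∀ y, ψ (algebraMap Y Om y) = ι (e y) := hψ
  have cK : ∀ c : K, ψ (algebraMap K Om c) = j (algebraMap K K'⟦X⟧ c) := fun c => by
    rw [IsScalarTower.algebraMap_apply K Y Om, hψ, e.commutes, LaurentSeries.algebraMap_apply,
      ← PowerSeries.coe_C, hι, PowerSeries.map_C, PowerSeries.algebraMap_apply]
  obtain ⟨u, hu⟩ : ∃ u, u = j (th (x.map (algebraMap K K'))) := ⟨_, rfl⟩
  have u0 : u ≠ 0 := by
    rw [hu, ← map_th]
    exact fun h => x1 (PowerSeries.map_injective _ (algebraMap K K').injective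
      ((hj (h.trans (map_zero j).symm)).trans (map_zero _).symm))
  have g1 : ∀ c : K, algebraMap K K'⟦X⟧ c ∈ gd j ψ (thD K') D u := fun c =>
    ⟨_, cK c, by rw [PowerSeries.algebraMap_apply]; simp [thD]⟩
  have g2 : ∀ c : K', algebraMap K' K'⟦X⟧ c ∈ gd j ψ (thD K') D u := fun c =>
    gd_alg hj (algebraMap K K'⟦X⟧).injective g1 (Algebra.IsAlgebraic.isAlgebraic c).algebraMap
  have g3 : x.map (algebraMap K K') ∈ gd j ψ (thD K') D u :=
    ⟨algebraMap Y Om x0, by rw [hψ, hx, hι], by rw [h1, map_one, one_mul, hu, thD_apply]⟩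
  have g4 : ∀ a ∈ gd j ψ (thD K') D u, ∀ P : K'[X], aeval a P ∈ gd j ψ (thD K') D u :=
    fun a ha P => by
      rw [aeval_eq_sum_range]
      exact sum_mem fun n _ => by rw [Algebra.smul_def]; exact mul_mem (g2 _) (pow_mem ha n)
  have g5 : ∀ k, m k ∈ gd j ψ (thD K') D u := fun k =>
    gd_alg hj Subtype.val_injective (fun c => by
      obtain ⟨c, hc⟩ := c
      rw [Algebra.adjoin_singleton_eq_range_aeval] at hc
      obtain ⟨P, rfl⟩ := hc
      exact g4 _ g3 P) (alg k)
  have g6 : ∀ k, w k ∈ gd j ψ (thD K') D u := fun k =>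
    gd_root hj (X ^ 2 - C (aeval (m k) (F.map (algebraMap K K'))))
      (X_pow_sub_C_ne_zero two_pos _) (fun n => by
        rw [coeff_sub, coeff_X_pow, coeff_C]
        refine sub_mem ?_ ?_ <;> split_ifs
        exacts [one_mem _, zero_mem _, g4 _ (g5 k) _, zero_mem _]) (by simp [sol.sq k])
  choose μ a1 a2 using g5
  choose ω b1 _ using g6
  have w0 : ∀ k, j (w k) * j (w k)⁻¹ = 1 := fun k => by
    rw [← map_mul, PowerSeries.mul_inv_cancel _ (by rw [sol.w_zero]; exact hs k), map_one]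
  refine ⟨fun k => (μ k, ω k), fun k => ⟨fun h => ?_, ψ.injective ?_⟩, fun i => ψ.injective ?_⟩
  · have := w0 k
    rw [← b1, show ω k = 0 from h, map_zero, zero_mul] at this
    exact zero_ne_one this
  · rw [map_pow, b1, ← map_pow, sol.sq, aeval_map_algebraMap, aeval_def, aeval_def, hom_eval₂,
      hom_eval₂, a1]
    congr 1
    exact RingHom.ext fun c => (cK c).symm
  · refine mul_right_cancel₀ u0 ?_
    have h2 := congrArg ι (hη i)
    rw [map_mul, hι, hι, map_th, ← hu] at h2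
    have h3 := congrArg j (sol.ode i)
    simp only [map_sum, map_mul, map_pow, map_natCast, ← h2] at h3
    simp only [map_sum, map_mul, map_div₀, map_pow, map_natCast, hψ, Finset.sum_mul, mul_assoc, ← h3]
    refine Finset.sum_congr rfl fun k _ => ?_
    rw [a1, b1, ← thD_apply, ← a2, eq_inv_of_mul_eq_one_right (w0 k)]
    ring

end Corr

open Corr in
theorem b1 (hL : LEAFALG) : B1 := by
  intro K _ _ F b x γ hF hb0 hb hx hAN hCC Y Om _ _ _ _ _ _ _ e x0 η D he hη ha h1
  obtain ⟨K', M, m0, s, m, w, fd, M0, hs, sol, alg⟩ := hL K F b x γ hF hb0 hb hx hAN hCC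
  have x1 : th (x.map (Int.castRingHom K)) ≠ 0 := fun h => by
    obtain ⟨n, n0, hn⟩ := hx
    have := congrArg (PowerSeries.coeff n) h
    simp [coeff_th, n0, hn] at this
  have e1 : (fun i : Fin 3 => PowerSeries.mk fun n => (M : K') * algebraMap K K' (b i n)) =
      fun i => (M : K'⟦X⟧) * (PowerSeries.mk fun n => (b i n : K)).map (algebraMap K K') := by
    funext i
    ext n
    rw [← map_natCast (PowerSeries.C (R := K')), PowerSeries.coeff_C_mul]
    simp
  have e2 : x.map (Int.castRingHom K') = (x.map (Int.castRingHom K)).map (algebraMap K K') := by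
    ext n
    simp
  rw [e1] at sol
  rw [e2] at alg
  obtain ⟨t, t1, t2⟩ := core e D he hη h1 x1 hs sol alg
  obtain ⟨N, Z, N0, z1, z2, z3⟩ := orbit (Y := Y) t
  refine ⟨N * M, Z, Nat.mul_pos N0 M0, fun P hP => ?_, z2, fun i => ?_⟩
  · obtain ⟨σ, k, rfl⟩ := z1 P hP
    refine ⟨fun h => (t1 k).1 (σ.injective (h.trans (map_zero σ).symm)), ?_⟩
    change σ (t k).2 ^ 2 = aeval (σ.restrictScalars K (t k).1) _
    rw [aeval_algHom_apply, ← (t1 k).2, ← map_pow]
    rfl
  · rw [z3 _ (M * algebraMap Y Om (η i)) fun σ => ?_, Nat.cast_mul, mul_assoc]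
    have := congrArg σ (t2 i)
    simpa only [map_sum, map_div₀, map_mul, map_pow, map_natCast, σ.commutes, ← comm D ha h1 σ]
      using this

end Vale.Agent.P027M.B
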