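import Vale.Agent.P027M.B.Defs

/-! # P027, route M, block B1 : the denominators -/

open Finset

noncomputable section

namespace Vale.Agent.P027M.B

namespace Den

theorem iter_mul {R : Type} [CommRing R] (δ : R →+ R) (c m : ℕ) (g : R) :
    δ^[m] (c * g) = c * δ^[m] g := by
  induction m with
  | zero => rfl
  | succ m ih =>
    rw [Function.iterate_succ_apply', ih, Function.iterate_succ_apply', ← nsmul_eq_mul,
      map_nsmul, nsmul_eq_mul]

theorem iter_dvd {R : Type} [CommRing R] (δ : R →+ R) (c k : ℕ) (h : ∀ f, (c : R) ∣ δ^[k] f)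
    (j r : ℕ) (f : R) : (c : R) ^ j ∣ δ^[k * j + r] f := by
  induction j generalizing f with
  | zero => simp
  | succ j ih =>
    obtain ⟨g, hg⟩ := h f
    rw [show k * (j + 1) + r = (k * j + r) + k by ring, Function.iterate_add_apply, hg, iter_mul,
      pow_succ']
    exact mul_dvd_mul_left _ (ih g)

theorem val_le {p : ℕ} (hp : p.Prime) (n : ℕ) :
    ((p : ℝ) - 1) * padicValNat p n.factorial ≤ n := by
  have := Fact.mk hp
  have h := sub_one_mul_padicValNat_factorial (p := p) n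
  have h2 : (p - 1) * padicValNat p n.factorial ≤ n := h ▸ Nat.sub_le _ _
  have h3 : (((p - 1 : ℕ) : ℝ)) * padicValNat p n.factorial ≤ n := by exact_mod_cast h2
  rwa [Nat.cast_sub hp.one_le, Nat.cast_one] at h3

theorem val_pow {p : ℕ} (hp : p.Prime) (a : ℕ) :
    ((p : ℝ) - 1) * padicValNat p (p ^ a).factorial = p ^ a - 1 := by
  have := Fact.mk hp
  induction a with
  | zero => simp
  | succ a ih =>
    rw [pow_succ', padicValNat_factorial_mul]
    push_cast
    rw [mul_add, ih]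
    ring

theorem val_div {p : ℕ} (hp : p.Prime) (n : ℕ) :
    padicValNat p n.factorial = padicValNat p (n / p).factorial + n / p := by
  have := Fact.mk hp
  conv_lhs => rw [← Nat.div_add_mod n p]
  rw [padicValNat_factorial_mul_add _ (Nat.mod_lt _ hp.pos), padicValNat_factorial_mul]

theorem good {p : ℕ} (hp : p.Prime) (n : ℕ) :
    ((padicValNat p n.factorial - n / p : ℕ) : ℝ) * Real.log p ≤ n * (4 * ((p : ℝ) ^ (3 / 2 : ℝ))⁻¹) := by
  have p2 : (2 : ℝ) ≤ p := by exact_mod_cast hp.two_le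
  rw [val_div hp, Nat.add_sub_cancel]
  have h1 := val_le hp (n / p)
  have h2 : ((n / p : ℕ) : ℝ) ≤ n / p := Nat.cast_div_le
  have h3 := Real.log_le_rpow_div (show (0 : ℝ) ≤ p by positivity) (show (0 : ℝ) < 1 / 2 by norm_num)
  obtain ⟨v, hv⟩ : ∃ v : ℝ, v = padicValNat p (n / p).factorial := ⟨_, rfl⟩
  have v0 : 0 ≤ v := hv ▸ Nat.cast_nonneg _
  rw [← hv] at h1 ⊢
  have h4 : v ≤ 2 * n / p ^ 2 := by
    rw [le_div_iff₀ (by positivity)]
    have := (le_div_iff₀ (show (0 : ℝ) < p by positivity)).1 (h1.trans h2)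
    nlinarith [mul_nonneg (mul_nonneg v0 (show (0 : ℝ) ≤ p by positivity))
      (show (0 : ℝ) ≤ p - 2 by linarith)]
  have h5 : (p : ℝ) ^ 2 = (p : ℝ) ^ (1 / 2 : ℝ) * (p : ℝ) ^ (3 / 2 : ℝ) := by
    rw [← Real.rpow_add (by positivity)]
    norm_num
  have h6 : 0 < (p : ℝ) ^ (1 / 2 : ℝ) := by positivity
  have h7 : 0 < (p : ℝ) ^ (3 / 2 : ℝ) := by positivity
  calc v * Real.log p ≤ (2 * n / p ^ 2) * ((p : ℝ) ^ (1 / 2 : ℝ) / (1 / 2)) :=
        mul_le_mul h4 h3 (Real.log_nonneg (by linarith)) (by positivity)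
    _ = _ := by rw [h5]; field_simp; ring

theorem bad {p : ℕ} (hp : p.Prime) (a n : ℕ) :
    ((padicValNat p n.factorial - padicValNat p (p ^ a).factorial * (n / p ^ a) : ℕ) : ℝ) ≤
      n / 2 ^ a + p ^ a := by
  have p2 : (2 : ℝ) ≤ p := by exact_mod_cast hp.two_le
  rcases le_total (padicValNat p n.factorial) (padicValNat p (p ^ a).factorial * (n / p ^ a)) with
    h | h
  · rw [Nat.sub_eq_zero_of_le h, Nat.cast_zero]
    positivity
  rw [Nat.cast_sub h, Nat.cast_mul]
  have h1 := val_le hp n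
  have h2 := val_pow hp a
  have q0 : (0 : ℝ) < p ^ a := by positivity
  have h3 : (n : ℝ) ≤ p ^ a * ((n / p ^ a : ℕ) : ℝ) + p ^ a := by
    have := Nat.lt_mul_div_succ n (pow_pos hp.pos a)
    have : (n : ℝ) ≤ ((p ^ a * (n / p ^ a + 1) : ℕ) : ℝ) := by exact_mod_cast this.le
    push_cast at this ⊢
    linarith
  have h4 : ((n / p ^ a : ℕ) : ℝ) ≤ n / 2 ^ a :=
    Nat.cast_div_le.trans (div_le_div_of_nonneg_left (by positivity) (by positivity)
      (by push_cast; exact pow_le_pow_left₀ (by norm_num) p2 a))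
  obtain ⟨k, hk⟩ : ∃ k : ℝ, k = ((n / p ^ a : ℕ) : ℝ) := ⟨_, rfl⟩
  have k0 : 0 ≤ k := hk ▸ Nat.cast_nonneg _
  rw [← hk] at h3 h4 ⊢
  have h5 : ((p : ℝ) - 1) * (padicValNat p n.factorial - padicValNat p (p ^ a).factorial * k) ≤
      k + p ^ a := by
    rw [mul_sub, ← mul_assoc, h2]
    linarith
  by_contra hc
  push Not at hc
  nlinarith

end Den

open Den

theorem den : DEN := by
  intro ε B hε hB
  have sm : Summable fun k : ℕ => 4 * ((k : ℝ) ^ (3 / 2 : ℝ))⁻¹ :=
    (Real.summable_nat_rpow_inv.2 (by norm_num)).mul_left 4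
  obtain ⟨s, hs⟩ := sm.vanishing (gt_mem_nhds (half_pos hε))
  obtain ⟨T, hT⟩ : ∃ T : Finset ℕ, T = (s ∪ B.primeFactors).filter Nat.Prime := ⟨_, rfl⟩
  have Tp : ∀ p ∈ T, p.Prime := fun p hp => (mem_filter.1 (hT ▸ hp)).2
  obtain ⟨L, hL⟩ : ∃ L : ℝ, L = ∑ p ∈ T, Real.log p := ⟨_, rfl⟩
  obtain ⟨a, ha⟩ : ∃ a : ℕ, L / 2 ^ a ≤ ε / 2 := by
    obtain ⟨a, ha⟩ := pow_unbounded_of_one_lt (L / (ε / 2)) (show (1 : ℝ) < 2 by norm_num)
    refine ⟨a, ?_⟩
    rw [div_lt_iff₀ (half_pos hε)] at ha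
    rw [div_le_iff₀ (by positivity)]
    linarith
  let e : ℕ → ℕ → ℕ := fun n p =>
    if p ∈ T then padicValNat p (p ^ a).factorial * (n / p ^ a) else n / p
  refine ⟨∏ p ∈ T, p ^ padicValNat p (p ^ a).factorial,
    Real.exp (∑ p ∈ T, (p : ℝ) ^ a * Real.log p),
    fun n => ∏ p ∈ n.factorial.primeFactors, p ^ (padicValNat p n.factorial - e n p),
    prod_pos fun p hp => pow_pos (Tp p hp).pos _, fun n => ⟨prod_pos fun p hp =>
      pow_pos (Nat.prime_of_mem_primeFactors hp).pos _, ?_⟩, fun R _ δ h1 h2 n f => ?_⟩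
  · have e1 : ((∏ p ∈ n.factorial.primeFactors, p ^ (padicValNat p n.factorial - e n p) : ℕ) : ℝ) =
        Real.exp (∑ p ∈ n.factorial.primeFactors,
          ((padicValNat p n.factorial - e n p : ℕ) : ℝ) * Real.log p) := by
      rw [Real.exp_sum]
      push_cast
      refine prod_congr rfl fun p hp => ?_
      rw [Real.exp_nat_mul, Real.exp_log
        (by exact_mod_cast (Nat.prime_of_mem_primeFactors hp).pos)]
    rw [e1, ← Real.exp_add, Real.exp_le_exp,
      ← sum_filter_add_sum_filter_not n.factorial.primeFactors (· ∈ T)]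
    have b1 : ∑ p ∈ n.factorial.primeFactors with p ∈ T,
        ((padicValNat p n.factorial - e n p : ℕ) : ℝ) * Real.log p ≤
          ∑ p ∈ T, ((n : ℝ) / 2 ^ a + p ^ a) * Real.log p := by
      refine (sum_le_sum fun p hp => ?_).trans (sum_le_sum_of_subset_of_nonneg
        (fun p hp => (mem_filter.1 hp).2) fun p _ _ =>
          mul_nonneg (by positivity) (Real.log_natCast_nonneg p))
      have hp := (mem_filter.1 hp).2
      simp only [e, if_pos hp]
      exact mul_le_mul_of_nonneg_right (bad (Tp p hp) a n) (Real.log_natCast_nonneg p)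
    have b2 : ∑ p ∈ n.factorial.primeFactors with p ∉ T,
        ((padicValNat p n.factorial - e n p : ℕ) : ℝ) * Real.log p ≤ n * (ε / 2) := by
      refine (sum_le_sum (g := fun p : ℕ => n * (4 * ((p : ℝ) ^ (3 / 2 : ℝ))⁻¹))
        fun p hp => ?_).trans ?_
      · simp only [e, if_neg (mem_filter.1 hp).2]
        exact good (Nat.prime_of_mem_primeFactors (mem_filter.1 hp).1) n
      · rw [← mul_sum]
        refine mul_le_mul_of_nonneg_left (le_of_lt (hs _ (disjoint_left.2 fun p hp hp' => ?_)))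
          (Nat.cast_nonneg n)
        exact (mem_filter.1 hp).2 (hT ▸ mem_filter.2 ⟨mem_union_left _ hp',
          Nat.prime_of_mem_primeFactors (mem_filter.1 hp).1⟩)
    have b3 : ∑ p ∈ T, ((n : ℝ) / 2 ^ a + p ^ a) * Real.log p =
        n * (L / 2 ^ a) + ∑ p ∈ T, (p : ℝ) ^ a * Real.log p := by
      simp only [add_mul, sum_add_distrib, ← mul_sum, hL]
      ring
    have b4 := mul_le_mul_of_nonneg_left ha (Nat.cast_nonneg n)
    linarith
  · have e1 : (n.factorial : R) =
        ∏ p ∈ n.factorial.primeFactors, (p : R) ^ padicValNat p n.factorial := by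
      conv_lhs => rw [← Nat.prod_factorization_pow_eq_self n.factorial_ne_zero]
      rw [Finsupp.prod, Nat.support_factorization]
      push_cast
      exact prod_congr rfl fun p hp => by
        rw [Nat.factorization_def _ (Nat.prime_of_mem_primeFactors hp)]
    rw [e1]
    refine prod_dvd_of_coprime (fun p hp q hq hpq => ?_) fun p hp => ?_
    · exact (Nat.Coprime.cast ((Nat.coprime_primes (Nat.prime_of_mem_primeFactors hp)
        (Nat.prime_of_mem_primeFactors hq)).2 hpq)).pow
    · have pp := Nat.prime_of_mem_primeFactors hp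
      have d1 : (p : R) ^ e n p ∣ δ^[n] f := by
        by_cases h : p ∈ T
        · have := iter_dvd δ _ _ (h2 p a pp (dvd_prod_of_mem
            (fun p => p ^ padicValNat p (p ^ a).factorial) h)) (n / p ^ a) (n % p ^ a) f
          rw [Nat.div_add_mod, Nat.cast_pow, ← pow_mul] at this
          simpa only [e, if_pos h] using this
        · have := iter_dvd δ _ _ (h1 p pp fun hd => h (hT ▸ mem_filter.2 ⟨mem_union_right _
            (Nat.mem_primeFactors.2 ⟨pp, hd, hB⟩), pp⟩)) (n / p) (n % p) f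
          rw [Nat.div_add_mod] at this
          simpa only [e, if_neg h] using this
      have d2 : (p : R) ^ (padicValNat p n.factorial - e n p) ∣
          ((∏ p ∈ n.factorial.primeFactors, p ^ (padicValNat p n.factorial - e n p) : ℕ) : R) := by
        rw [← Nat.cast_pow]
        exact Nat.cast_dvd_cast (dvd_prod_of_mem
          (fun p => p ^ (padicValNat p n.factorial - e n p)) hp)
      exact (pow_dvd_pow _ le_tsub_add).trans (pow_add (p : R) _ _ ▸ mul_dvd_mul d2 d1)

end Vale.Agent.P027M.B
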