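import Vale.Agent.P027M.B.Defs

/-! # P027, route M, block B1 : the archimedean gain -/

set_option linter.all false

open Polynomial NumberField
open scoped PowerSeries

noncomputable section

namespace Vale.Agent.P027M.B

namespace Gain

theorem norm_qq (τ : ℂ) : ‖qq τ‖ = Real.exp (- (2 * Real.pi * τ.im)) := by
  rw [qq, Complex.norm_exp]
  congr 1
  simp

theorem act_im (γ : Gam) (τ : ℂ) :
    (γ.act τ).im = τ.im / ((γ.c * τ.re + γ.d) ^ 2 + (γ.c * τ.im) ^ 2) := by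
  have h : (γ.a : ℝ) * γ.d - γ.b * γ.c = 1 := by exact_mod_cast γ.det
  rw [Gam.act, Complex.div_im, Complex.normSq_apply, ← sub_div]
  simp only [Complex.add_re, Complex.add_im, Complex.mul_re, Complex.mul_im, Complex.intCast_re,
    Complex.intCast_im]
  congr 1
  · linear_combination τ.im * h
  · ring

theorem two_le_im (γ : Gam) (τ : ℂ) (h1 : τ.im = 1 / (4 * (γ.c : ℝ) ^ 2))
    (h2 : |τ.re + γ.d / γ.c| ≤ 1 / (4 * (γ.c : ℝ) ^ 2)) : 2 ≤ (γ.act τ).im := by
  have hc : (γ.c : ℝ) ≠ 0 := by exact_mod_cast γ.c_ne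
  have hy : 0 < τ.im := by rw [h1]; positivity
  rw [act_im, le_div_iff₀ (by positivity)]
  rw [← h1] at h2
  have e1 : (τ.re + γ.d / γ.c) ^ 2 ≤ τ.im ^ 2 := by
    rw [← sq_abs]; exact pow_le_pow_left₀ (abs_nonneg _) h2 2
  have e2 : (γ.c * τ.re + γ.d : ℝ) ^ 2 = (γ.c : ℝ) ^ 2 * (τ.re + γ.d / γ.c) ^ 2 := by field_simp
  have e3 : 4 * (γ.c : ℝ) ^ 2 * τ.im = 1 := by rw [h1]; field_simp
  have e4 : (γ.c : ℝ) ^ 2 * (τ.re + γ.d / γ.c) ^ 2 ≤ (γ.c : ℝ) ^ 2 * τ.im ^ 2 :=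
    mul_le_mul_of_nonneg_left e1 (by positivity)
  rw [e2]
  nlinarith

theorem shift (H : HOL) (r : ℝ) (T : ℕ) (g : ℂ⟦X⟧) (h : Conv r (PowerSeries.X ^ T * g)) :
    Conv r g ∧ ∀ q : ℂ, ‖q‖ < r → ev (PowerSeries.X ^ T * g) q = q ^ T * ev g q := by
  induction T with
  | zero => simpa using h
  | succ T ih =>
    rw [pow_succ', mul_assoc] at h
    have h1 := H.shift r _ h
    refine ⟨(ih h1).1, fun q hq => ?_⟩
    rw [pow_succ', mul_assoc, (H.mul r _ _ (H.X r).1 h1).2 q hq, (H.X r).2, (ih h1).2 q hq]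
    ring

/-- a point of the circle is moved to the good arc by a rotation -/
theorem rot (K : ℕ) (hK : 0 < K) (y t : ℝ) (q : ℂ) (hq : ‖q‖ = Real.exp (- (2 * Real.pi * y))) :
    ∃ k < K, ∃ τ : ℂ, τ.im = y ∧ |τ.re + t| ≤ 1 / (2 * K) ∧
      qq τ = Complex.exp (2 * Real.pi * Complex.I * (k / K)) * q := by
  have hK' : (0 : ℝ) < K := by exact_mod_cast hK
  set x : ℝ := q.arg / (2 * Real.pi) with hx
  set z : ℤ := round (-((x + t) * K)) with hz
  have hz1 : |(x + t) * K + z| ≤ 1 / 2 := by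
    have := abs_sub_round (-((x + t) * K))
    rw [← hz, ← abs_neg] at this
    have e : (x + t) * K + z = -(-((x + t) * K) - z) := by ring
    rw [e]; exact this
  have hK0 : (K : ℤ) ≠ 0 := by exact_mod_cast hK.ne'
  have m0 := Int.emod_nonneg z hK0
  have m1 := Int.emod_lt_of_pos z (by exact_mod_cast hK : (0 : ℤ) < K)
  refine ⟨(z % K).toNat, by omega, ⟨x + z / K, y⟩, rfl, ?_, ?_⟩
  · have : x + z / K + t = ((x + t) * K + z) / K := by field_simp; ring
    show |x + z / K + t| ≤ _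
    rw [this, abs_div, abs_of_pos hK', div_le_iff₀ hK']
    refine hz1.trans (le_of_eq ?_)
    field_simp
  · have e0 : ((((z % K).toNat : ℕ) : ℤ)) = z % K := Int.toNat_of_nonneg m0
    have e1 : (z : ℂ) = K * ((z / K : ℤ) : ℂ) + ((z % K).toNat : ℕ) := by
      have := Int.mul_ediv_add_emod z K
      rw [← e0] at this
      exact_mod_cast this.symm
    have hKc : (K : ℂ) ≠ 0 := by exact_mod_cast hK.ne'
    have hp : (Real.pi : ℂ) ≠ 0 := by exact_mod_cast Real.pi_ne_zero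
    have e2 : (⟨x + z / K, y⟩ : ℂ) = (x : ℂ) + z / K + y * Complex.I := by
      apply Complex.ext <;> simp
    have e3 : 2 * Real.pi * Complex.I * ((x : ℂ) + z / K + y * Complex.I) =
        ((z / K : ℤ) : ℂ) * (2 * Real.pi * Complex.I) +
          (2 * Real.pi * Complex.I * (((z % K).toNat : ℕ) / K) +
            (((- (2 * Real.pi * y) : ℝ) : ℂ) + q.arg * Complex.I)) := by
      rw [hx, e1]
      push_cast
      field_simp
      ring_nf
      rw [Complex.I_sq]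
      ring
    rw [qq, e2, e3, Complex.exp_add, Complex.exp_add, Complex.exp_add,
      Complex.exp_int_mul_two_pi_mul_I, one_mul, ← Complex.ofReal_exp, ← hq,
      Complex.norm_mul_exp_arg_mul_I]

theorem maxp (φ : ℂ → ℂ) (ρ r C : ℝ) (h0 : 0 < ρ) (h1 : ρ < r)
    (hd : ∀ q : ℂ, ‖q‖ < r → DifferentiableAt ℂ φ q) (hC : ∀ q : ℂ, ‖q‖ = ρ → ‖φ q‖ ≤ C) (q : ℂ)
    (hq : ‖q‖ ≤ ρ) : ‖φ q‖ ≤ C := by
  have hcl := closure_ball (0 : ℂ) h0.ne'
  refine Complex.norm_le_of_forall_mem_frontier_norm_le (U := Metric.ball 0 ρ) Metric.isBounded_ball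
    (DifferentiableOn.diffContOnCl ?_) ?_ ?_
  · rw [hcl]
    intro z hz
    exact (hd z (lt_of_le_of_lt (by simpa using hz) h1)).differentiableWithinAt
  · rw [frontier_ball (0 : ℂ) h0.ne']
    intro z hz
    exact hC z (by simpa using hz)
  · rw [hcl]; simpa using hq

end Gain

open Gain

theorem gain (H : HOL) : GAIN := by
  intro γ r hr f T S hf hT hS
  have hc : (γ.c : ℝ) ≠ 0 := by exact_mod_cast γ.c_ne
  have hc1 : (1 : ℝ) ≤ (γ.c : ℝ) ^ 2 := by
    have : 1 ≤ γ.c ^ 2 := by have := γ.c_ne; nlinarith [Int.one_le_abs this, sq_abs γ.c]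
    exact_mod_cast this
  obtain ⟨g, rfl⟩ := PowerSeries.X_pow_dvd_iff.2 hT
  obtain ⟨hg, hev⟩ := shift H r T g hf.conv
  set y : ℝ := 1 / (4 * (γ.c : ℝ) ^ 2) with hy
  have hρ : - Real.pi / (2 * (γ.c : ℝ) ^ 2) = - (2 * Real.pi * y) := by rw [hy]; field_simp; norm_num
  rw [hρ] at hr hS
  set ρ := Real.exp (- (2 * Real.pi * y)) with hρd
  have ρ0 : 0 < ρ := Real.exp_pos _
  have y0 : 0 < y := by positivity
  have y1 : y ≤ 1 / 4 := one_div_le_one_div_of_le (by norm_num) (by linarith)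
  have S0 : 0 ≤ S := le_trans (norm_nonneg _) (hS ρ (by simp [abs_of_pos ρ0]))
  have hd : ∀ q : ℂ, ‖q‖ < r → DifferentiableAt ℂ (ev g) q :=
    fun q hq => ((H.diff r g hg).2 q hq).differentiableAt
  have b1 : ∀ q : ℂ, ‖q‖ ≤ ρ → ‖ev g q‖ ≤ S / ρ ^ T := by
    refine maxp _ ρ r _ ρ0 hr hd fun q hq => ?_
    have := hS q hq
    rw [hev q (hq ▸ hr), norm_mul, norm_pow, hq] at this
    rw [le_div_iff₀ (by positivity)]
    linarith
  set K : ℕ := 2 * γ.c.natAbs ^ 2 with hK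
  have hKR : (K : ℝ) = 2 * (γ.c : ℝ) ^ 2 := by
    rw [hK]; push_cast; rw [Nat.cast_natAbs]; push_cast; rw [sq_abs]
  have hK0 : 0 < K := by
    have : (0 : ℝ) < K := by rw [hKR]; positivity
    exact_mod_cast this
  have hζ : ∀ k : ℕ, ‖Complex.exp (2 * Real.pi * Complex.I * (k / K))‖ = 1 := by
    intro k
    rw [Complex.norm_exp]
    simp
  have b2 : ∀ τ : ℂ, τ.im = y → |τ.re + γ.d / γ.c| ≤ y →
      ‖ev g (qq τ)‖ ≤ S / ρ ^ T * (Real.exp (- (4 * Real.pi)) / ρ) ^ T := by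
    intro τ h1 h2
    have h3 := two_le_im γ τ h1 h2
    have n1 : ‖qq τ‖ = ρ := by rw [norm_qq, h1]
    have n2 : ‖qq (γ.act τ)‖ ≤ Real.exp (- (4 * Real.pi)) := by
      rw [norm_qq]; exact Real.exp_le_exp.2 (by nlinarith [Real.pi_pos])
    have n3 : ‖qq (γ.act τ)‖ ≤ ρ :=
      n2.trans (Real.exp_le_exp.2 (by nlinarith [Real.pi_pos]))
    have e := hf.inv τ (h1 ▸ y0) (n1 ▸ hr) (n3.trans_lt hr)
    rw [hev _ (n3.trans_lt hr), hev _ (n1 ▸ hr)] at e
    have e' := congrArg norm e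
    rw [norm_mul, norm_mul, norm_pow, norm_pow, n1] at e'
    rw [div_pow, ← mul_div_assoc, le_div_iff₀ (by positivity), mul_comm _ (ρ ^ T), ← e', mul_comm]
    exact mul_le_mul (b1 _ n3) (pow_le_pow_left₀ (norm_nonneg _) n2 T) (by positivity) (by positivity)
  have b3 := maxp (fun q => ∏ k ∈ Finset.range K,
      ev g (Complex.exp (2 * Real.pi * Complex.I * (k / K)) * q)) ρ r
    ((S / ρ ^ T) ^ K * (Real.exp (- (4 * Real.pi)) / ρ) ^ T) ρ0 hr ?_ ?_ 0 (by simpa using ρ0.le)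
  · simp only [mul_zero, Finset.prod_const, Finset.card_range, norm_pow] at b3
    rw [H.zero] at b3
    rw [PowerSeries.coeff_X_pow_mul', if_pos le_rfl, Nat.sub_self,
      PowerSeries.coeff_zero_eq_constantCoeff_apply]
    refine le_of_pow_le_pow_left₀ hK0.ne' (by positivity) (b3.trans ?_)
    rw [div_pow, mul_pow, div_mul_eq_mul_div, mul_div_assoc]
    refine mul_le_mul_of_nonneg_left ?_ (by positivity)
    rw [hρd, ← Real.exp_sub, ← Real.exp_nat_mul, ← Real.exp_nat_mul, ← Real.exp_nat_mul,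
      ← Real.exp_nat_mul, ← Real.exp_sub]
    refine Real.exp_le_exp.2 ?_
    have e1 : (K : ℝ) * (T * - (2 * Real.pi * y)) = - (T * Real.pi) := by rw [hKR, hy]; field_simp; ring
    have e2 : (K : ℝ) * (- T / (γ.c : ℝ) ^ 2) = - (2 * T) := by rw [hKR]; field_simp
    rw [e1, e2]
    have T0 : (0 : ℝ) ≤ T := Nat.cast_nonneg _
    have p3 := Real.pi_gt_three
    have e3 : Real.pi * y ≤ Real.pi * (1 / 4) := mul_le_mul_of_nonneg_left y1 (by linarith)
    have e4 : - (4 * Real.pi) - - (2 * Real.pi * y) + Real.pi + 2 ≤ 0 := by linarith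
    nlinarith
  · intro q hq
    refine DifferentiableAt.fun_finset_prod fun k _ => ?_
    refine (hd _ (by rw [norm_mul, hζ, one_mul]; exact hq)).comp q ?_
    fun_prop
  · intro q hq
    obtain ⟨k, hk, τ, h1, h2, h3⟩ := rot K hK0 y (γ.d / γ.c) q hq
    have h2' : |τ.re + γ.d / γ.c| ≤ y := by
      refine h2.trans (le_of_eq ?_)
      rw [hKR, hy]; ring
    have b := b2 τ h1 h2'
    rw [h3] at b
    rw [norm_prod, ← Finset.mul_prod_erase _ _ (Finset.mem_range.2 hk)]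
    have b' : ∏ j ∈ (Finset.range K).erase k,
        ‖ev g (Complex.exp (2 * Real.pi * Complex.I * (j / K)) * q)‖ ≤ (S / ρ ^ T) ^ (K - 1) := by
      refine (Finset.prod_le_prod (g := fun _ => S / ρ ^ T) (fun j _ => norm_nonneg _)
        fun j _ => ?_).trans (le_of_eq ?_)
      · exact b1 _ (by rw [norm_mul, hζ, one_mul, hq])
      · rw [Finset.prod_const, Finset.card_erase_of_mem (Finset.mem_range.2 hk), Finset.card_range]
    refine (mul_le_mul b b' (by positivity) (by positivity)).trans (le_of_eq ?_)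
    obtain ⟨K', hK'⟩ : ∃ K', K = K' + 1 := ⟨K - 1, by omega⟩
    rw [hK', Nat.add_sub_cancel]
    ring

end Vale.Agent.P027M.B
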