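import Vale.Agent.P027M.B.AJ

/-! # P027, route M, block B : the genus of the hyperelliptic function field -/

open Polynomial Vale.Agent.P019P P025H492

noncomputable section

namespace Vale.Agent.P027M.B

namespace Gen3

variable {k L : Type*} [Field k] [Field L] [Algebra k L] [CFF k L]

theorem ord_aev {P : Plk k L} {m : L} (h : ord P m < 0) {a : k[X]} (ha : a ≠ 0) :
    aeval m a ≠ 0 ∧ ord P (aeval m a) = a.natDegree * ord P m := by
  have m0 : m ≠ 0 := fun e => by rw [e, ord_zero] at h; omega
  have o : ∀ j, a.coeff j ≠ 0 → a.coeff j • m ^ j ≠ 0 ∧ ord P (a.coeff j • m ^ j) = j * ord P m :=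
    fun j hj => by
      have c0 : algebraMap k L (a.coeff j) ≠ 0 := (_root_.map_ne_zero _).2 hj
      rw [Algebra.smul_def]
      exact ⟨mul_ne_zero c0 (pow_ne_zero _ m0), by
        rw [ord_mul P c0 (pow_ne_zero _ m0), ord_const, ord_pow, zero_add]⟩
  have l := o a.natDegree (leadingCoeff_ne_zero.2 ha)
  rw [aeval_eq_sum_range, ← l.2]
  refine ord_sum_of_lt (f := fun j => a.coeff j • m ^ j) (Finset.self_mem_range_succ _) l.1
    fun j hj hne => ?_
  by_cases c : a.coeff j = 0
  · simp only [c, zero_smul]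
    exact zero_mem _
  · refine Or.inr ?_
    have : (j : ℤ) + 1 ≤ a.natDegree := by
      have := Finset.mem_range.1 hj
      omega
    simp only [(o j c).2, l.2]
    nlinarith

end Gen3

open Gen3

theorem gen3 (pts : PTS) : GEN3 := by
  intro k L _ _ _ _ F m w H
  have p := pts k L F m w H
  obtain ⟨P, hm, hw, hP⟩ := p.inf
  have w0 : w ≠ 0 := fun e => by rw [e, ord_zero] at hw; omega
  have oa : ∀ a : k[X], a ≠ 0 → aeval m a ≠ 0 ∧ ord P (aeval m a) = -2 * a.natDegree :=
    fun a ha => by
      have := ord_aev (P := P) (m := m) (by omega) ha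
      exact ⟨this.1, by rw [this.2, hm]; ring⟩
  have ob : ∀ b : k[X], b ≠ 0 → aeval m b * w ≠ 0 ∧
      ord P (aeval m b * w) = -2 * b.natDegree - 7 := fun b hb =>
    ⟨mul_ne_zero (oa b hb).1 w0, by rw [ord_mul P (oa b hb).1 w0, (oa b hb).2, hw]; ring⟩
  obtain ⟨N, hN⟩ : ∃ N : ℕ, dg (can k L) < N := exists_nat_gt _
  let Λ : (degreeLT k (N + 4) × degreeLT k N) →ₗ[k] L :=
    ((aeval m).toLinearMap ∘ₗ (degreeLT k (N + 4)).subtype).coprod
      (LinearMap.mulRight k w ∘ₗ (aeval m).toLinearMap ∘ₗ (degreeLT k N).subtype)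
  have ap : ∀ x, Λ x = aeval m (x.1 : k[X]) + aeval m (x.2 : k[X]) * w := fun x => rfl
  have inj : Function.Injective Λ := (injective_iff_map_eq_zero Λ).2 fun x hx => by
    have := p.indep _ _ (ap x ▸ hx)
    exact Prod.ext (Subtype.ext this.1) (Subtype.ext this.2)
  have dl : ∀ (a : k[X]) (n : ℕ), a ∈ degreeLT k n ↔ a = 0 ∨ a.natDegree < n := fun a n => by
    by_cases h : a = 0
    · simp [h]
    · rw [mem_degreeLT, ← natDegree_lt_iff_degree_lt h]
      simp [h]
  have rg : LinearMap.range Λ = LL k (Finsupp.single P (2 * N + 6 : ℤ)) := by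
    ext z
    constructor
    · rintro ⟨x, rfl⟩
      rw [mem_LL_iff, ap]
      intro Q
      by_cases hQ : Q = P
      · subst hQ
        rw [Finsupp.single_eq_same]
        refine add_mem ?_ ?_
        · by_cases h : (x.1 : k[X]) = 0
          · rw [h, map_zero]; exact zero_mem _
          · have := ((dl _ _).1 x.1.2).resolve_left h
            exact Or.inr (by rw [(oa _ h).2]; omega)
        · by_cases h : (x.2 : k[X]) = 0
          · rw [h, map_zero, zero_mul]; exact zero_mem _
          · have := ((dl _ _).1 x.2.2).resolve_left h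
            exact Or.inr (by rw [(ob _ h).2]; omega)
      · have h0 : 0 ≤ ord Q m := not_lt.1 fun h => hQ (hP Q h)
        rw [Finsupp.single_eq_of_ne hQ, neg_zero]
        exact add_mem (aeval_mem_zero h0 _) (by
          simpa using mul_mem_Mge (aeval_mem_zero h0 (x.2 : k[X])) (Or.inr (p.pt Q h0).1))
    · intro hz
      rcases hz with rfl | hz
      · exact zero_mem _
      obtain ⟨a, b, e⟩ := p.reg z fun Q h0 => by
        have := hz Q
        rwa [Finsupp.single_eq_of_ne (by rintro rfl; omega), neg_zero] at this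
      have h1 := hz P
      rw [Finsupp.single_eq_same, e] at h1
      have : (a = 0 ∨ a.natDegree < N + 4) ∧ (b = 0 ∨ b.natDegree < N) := by
        by_cases ha : a = 0 <;> by_cases hb : b = 0
        · exact ⟨Or.inl ha, Or.inl hb⟩
        · rw [ha, map_zero, zero_add, (ob b hb).2] at h1
          exact ⟨Or.inl ha, Or.inr (by omega)⟩
        · rw [hb, map_zero, zero_mul, add_zero, (oa a ha).2] at h1
          exact ⟨Or.inr (by omega), Or.inl hb⟩
        · rw [(CAppr_add (oa a ha).1 (ob b hb).1 (by rw [(oa a ha).2, (ob b hb).2]; omega)).2,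
            (oa a ha).2, (ob b hb).2] at h1
          exact ⟨Or.inr (by omega), Or.inr (by omega)⟩
      exact ⟨(⟨a, (dl _ _).2 this.1⟩, ⟨b, (dl _ _).2 this.2⟩), e.symm⟩
  have fr : ∀ n : ℕ, Module.finrank k (degreeLT k n) = n := fun n => by
    rw [(degreeLTEquiv k n).finrank_eq, Module.finrank_fin_fun]
  have h := RR_large (D := Finsupp.single P (2 * N + 6 : ℤ)) (by rw [dg_sgl]; omega)
  rw [← rg, LinearMap.finrank_range_of_inj inj, Module.finrank_prod, fr, fr, dg_sgl] at h
  omega

end Vale.Agent.P027M.B
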