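import Vale.Agent.P027M.B.Defs

/-! # P027, route M, row B1.hol : convergent power series -/

open scoped PowerSeries
open Filter Topology Metric

noncomputable section

namespace Vale.Agent.P027M.B.Hol

open Vale.Agent.P027M.B PowerSeries

variable {r : ℝ} {f g : ℂ⟦X⟧}

theorem conv_of (h : ∀ q : ℂ, ‖q‖ < r → Summable fun n => coeff n f * q ^ n) : Conv r f := by
  intro ρ h0 hρ
  have h1 : ‖(ρ : ℂ)‖ = ρ := by rw [Complex.norm_real, Real.norm_of_nonneg h0]
  have := (h ρ (by rwa [h1])).norm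
  simpa only [norm_mul, norm_pow, h1] using this

theorem sum_norm (h : Conv r f) {q : ℂ} (hq : ‖q‖ < r) :
    Summable fun n => ‖coeff n f * q ^ n‖ := by
  simpa only [norm_mul, norm_pow] using h _ (norm_nonneg q) hq

theorem hasSum (h : Conv r f) {q : ℂ} (hq : ‖q‖ < r) :
    HasSum (fun n => coeff n f * q ^ n) (ev f q) := (sum_norm h hq).of_norm.hasSum

theorem mono {r' : ℝ} (h : Conv r f) (hr : r' ≤ r) : Conv r' f :=
  fun ρ h0 hρ => h ρ h0 (hρ.trans_le hr)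

theorem of_hasSum {φ : ℂ → ℂ} (h : ∀ q : ℂ, ‖q‖ < r → HasSum (fun n => coeff n f * q ^ n) (φ q)) :
    Conv r f ∧ ∀ q : ℂ, ‖q‖ < r → ev f q = φ q :=
  ⟨conv_of fun q hq => (h q hq).summable, fun q hq => (h q hq).tsum_eq⟩

theorem hasSum_C (c q : ℂ) : HasSum (fun n => coeff n (C c : ℂ⟦X⟧) * q ^ n) c := by
  convert hasSum_single (f := fun n => coeff n (C c : ℂ⟦X⟧) * q ^ n) 0 ?_ using 1
  · simp
  · intro n hn; simp [coeff_C, hn]

theorem const (r : ℝ) (c : ℂ) : Conv r (C c) ∧ ∀ q, ev (C c) q = c :=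
  ⟨conv_of fun q _ => (hasSum_C c q).summable, fun q => (hasSum_C c q).tsum_eq⟩

theorem hasSum_X (q : ℂ) : HasSum (fun n => coeff n (X : ℂ⟦X⟧) * q ^ n) q := by
  convert hasSum_single (f := fun n => coeff n (X : ℂ⟦X⟧) * q ^ n) 1 ?_ using 1
  · simp
  · intro n hn; simp [coeff_X, hn]

theorem conv_X (r : ℝ) : Conv r X ∧ ∀ q, ev X q = q :=
  ⟨conv_of fun q _ => (hasSum_X q).summable, fun q => (hasSum_X q).tsum_eq⟩

theorem add (hf : Conv r f) (hg : Conv r g) :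
    Conv r (f + g) ∧ ∀ q : ℂ, ‖q‖ < r → ev (f + g) q = ev f q + ev g q :=
  of_hasSum fun q hq => by
    simpa only [map_add, add_mul] using (hasSum hf hq).add (hasSum hg hq)

theorem mul (hf : Conv r f) (hg : Conv r g) :
    Conv r (f * g) ∧ ∀ q : ℂ, ‖q‖ < r → ev (f * g) q = ev f q * ev g q :=
  of_hasSum fun q hq => by
    have e : ∀ n, coeff n (f * g) * q ^ n = ∑ kl ∈ Finset.HasAntidiagonal.antidiagonal n,
        (coeff kl.1 f * q ^ kl.1) * (coeff kl.2 g * q ^ kl.2) := by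
      intro n
      rw [coeff_mul, Finset.sum_mul]
      refine Finset.sum_congr rfl fun kl h => ?_
      rw [← Finset.HasAntidiagonal.mem_antidiagonal.1 h, pow_add]; ring
    simp only [e]
    rw [ev, ev, tsum_mul_tsum_eq_tsum_sum_antidiagonal_of_summable_norm (sum_norm hf hq)
      (sum_norm hg hq)]
    exact (summable_norm_sum_mul_antidiagonal_of_summable_norm (sum_norm hf hq)
      (sum_norm hg hq)).of_norm.hasSum

theorem zero (f : ℂ⟦X⟧) : ev f 0 = constantCoeff f := by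
  rw [ev, tsum_eq_single 0]
  · simp
  · intro n hn; simp [hn]

theorem diff_aux (hf : Conv r f) {q : ℂ} (hq : ‖q‖ < r) : DifferentiableAt ℂ (ev f) q ∧
    HasSum (fun n => coeff n (derivative ℂ f) * q ^ n) (deriv (ev f) q) := by
  obtain ⟨ρ, h1, h2⟩ := exists_between hq
  have hu := hf ρ ((norm_nonneg q).trans h1.le) h2
  have hd : ∀ n : ℕ, DifferentiableOn ℂ (fun w : ℂ => coeff n f * w ^ n) (ball 0 ρ) :=
    fun n => by fun_prop
  have hle : ∀ (n : ℕ) (w : ℂ), w ∈ ball (0 : ℂ) ρ → ‖coeff n f * w ^ n‖ ≤ ‖coeff n f‖ * ρ ^ n := by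
    intro n w hw
    rw [norm_mul, norm_pow]
    have : ‖w‖ ≤ ρ := (mem_ball_zero_iff.1 hw).le
    gcongr
  have hq' : q ∈ ball (0 : ℂ) ρ := mem_ball_zero_iff.2 h1
  refine ⟨(Complex.differentiableOn_tsum_of_summable_norm hu hd isOpen_ball hle).differentiableAt
    (isOpen_ball.mem_nhds hq'), ?_⟩
  have h3 := (hasSum_nat_add_iff' 1).2
    (Complex.hasSum_deriv_of_summable_norm hu hd isOpen_ball hle hq')
  simp only [Finset.range_one, Finset.sum_singleton, pow_zero, deriv_const', sub_zero] at h3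
  refine HasSum.congr_fun h3 fun n => ?_
  rw [coeff_derivative, ((hasDerivAt_pow (n + 1) q).const_mul (coeff (n + 1) f)).deriv]
  simp only [Nat.add_sub_cancel]
  push_cast
  ring

theorem diff (hf : Conv r f) : Conv r (derivative ℂ f) ∧
    ∀ q : ℂ, ‖q‖ < r → HasDerivAt (ev f) (ev (derivative ℂ f) q) q := by
  obtain ⟨h1, h2⟩ := of_hasSum fun q hq => (diff_aux hf hq).2
  exact ⟨h1, fun q hq => by rw [h2 q hq]; exact (diff_aux hf hq).1.hasDerivAt⟩

theorem differentiableOn (hf : Conv r f) : DifferentiableOn ℂ (ev f) (ball 0 r) :=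
  fun _ hq => (diff_aux hf (mem_ball_zero_iff.1 hq)).1.differentiableWithinAt

theorem shift (h : Conv r (X * f)) : Conv r f := by
  intro ρ h0 hρ
  rcases h0.eq_or_lt with rfl | h0'
  · exact (summable_nat_add_iff 1).1 (by simpa using summable_zero)
  · have h1 := ((summable_nat_add_iff 1).2 (h ρ h0 hρ)).mul_right ρ⁻¹
    refine h1.congr fun n => ?_
    rw [coeff_succ_X_mul, pow_succ]
    field_simp

theorem ofFun (r : ℝ) (φ : ℂ → ℂ) (h : DifferentiableOn ℂ φ (ball 0 r)) :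
    ∃ f, Conv r f ∧ ∀ q : ℂ, ‖q‖ < r → ev f q = φ q :=
  ⟨mk fun n => (n.factorial : ℂ)⁻¹ * iteratedDeriv n φ 0, of_hasSum fun q hq => by
    refine HasSum.congr_fun
      (Complex.hasSum_taylorSeries_on_ball h (mem_ball_zero_iff.2 hq)) fun n => ?_
    simp only [coeff_mk, sub_zero, smul_eq_mul]
    ring⟩

theorem inj (hr : 0 < r) (hf : Conv r f) (h : ∀ q : ℂ, ‖q‖ < r → ev f q = 0) : f = 0 := by
  ext n
  induction n generalizing f with
  | zero => simpa [zero] using h 0 (by simpa using hr)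
  | succ n ih =>
    have h1 := ih (diff hf).1 fun q hq => by
      refine ((diff hf).2 q hq).unique ((hasDerivAt_const q (0 : ℂ)).congr_of_eventuallyEq ?_)
      filter_upwards [isOpen_ball.mem_nhds (mem_ball_zero_iff.2 hq)] with w hw
      exact h w (mem_ball_zero_iff.1 hw)
    rw [coeff_derivative, map_zero, mul_eq_zero] at h1
    rw [map_zero]
    exact h1.resolve_right (by exact_mod_cast n.succ_ne_zero)

theorem ext (hr : 0 < r) (hf : Conv r f) (hg : Conv r g)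
    (h : ∀ q : ℂ, ‖q‖ < r → ev f q = ev g q) : f = g := by
  have h1 := mul (const r (-1)).1 hg
  have h2 := add hf h1.1
  have h3 := inj hr h2.1 fun q hq => by
    rw [h2.2 q hq, h1.2 q hq, (const r (-1)).2, h q hq]; ring
  rw [map_neg, map_one] at h3
  linear_combination h3

theorem inv (hr : 0 < r) (hf : Conv r f) (h0 : constantCoeff f ≠ 0) :
    ∃ r' > 0, Conv r' f⁻¹ := by
  have h1 : ∀ᶠ q in 𝓝 (0 : ℂ), ev f q ≠ 0 :=
    (diff_aux hf (by simpa using hr)).1.continuousAt.eventually_ne (by rwa [zero])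
  obtain ⟨δ, hδ, h2⟩ := Metric.eventually_nhds_iff_ball.1 h1
  have hf' := mono hf (min_le_left r δ)
  have h3 : ∀ q ∈ ball (0 : ℂ) (min r δ), ev f q ≠ 0 := fun q hq =>
    h2 q (ball_subset_ball (min_le_right _ _) hq)
  obtain ⟨g, hg, hg'⟩ := ofFun (min r δ) (fun q => (ev f q)⁻¹) ((differentiableOn hf').inv h3)
  have h4 := mul hg hf'
  have h5 := ext (lt_min hr hδ) h4.1 (const _ 1).1 fun q hq => by
    rw [h4.2 q hq, hg' q hq, (const r 1).2, inv_mul_cancel₀ (h3 q (mem_ball_zero_iff.2 hq))]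
  rw [map_one, ← PowerSeries.eq_inv_iff_mul_eq_one h0] at h5
  exact ⟨_, lt_min hr hδ, h5 ▸ hg⟩

variable {γ : Gam}

theorem hol_C (γ : Gam) (r : ℝ) (c : ℂ) : IsHol γ r (C c) :=
  ⟨(const r c).1, fun _ _ _ _ => by rw [(const r c).2, (const r c).2]⟩

theorem hol_add (hf : IsHol γ r f) (hg : IsHol γ r g) : IsHol γ r (f + g) :=
  ⟨(add hf.conv hg.conv).1, fun τ h h1 h2 => by
    rw [(add hf.conv hg.conv).2 _ h1, (add hf.conv hg.conv).2 _ h2, hf.inv τ h h1 h2,
      hg.inv τ h h1 h2]⟩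

theorem hol_mul (hf : IsHol γ r f) (hg : IsHol γ r g) : IsHol γ r (f * g) :=
  ⟨(mul hf.conv hg.conv).1, fun τ h h1 h2 => by
    rw [(mul hf.conv hg.conv).2 _ h1, (mul hf.conv hg.conv).2 _ h2, hf.inv τ h h1 h2,
      hg.inv τ h h1 h2]⟩

theorem oo_C (γ : Gam) (r : ℝ) (c : ℂ) : IsOO γ r (C c) :=
  ⟨C c, C 1, hol_C γ r c, hol_C γ r 1, by simp, by simp⟩

theorem oo_mul (hf : IsOO γ r f) (hg : IsOO γ r g) : IsOO γ r (f * g) := by
  obtain ⟨a, b, h1, h2, h3, h4⟩ := hf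
  obtain ⟨a', b', h1', h2', h3', h4'⟩ := hg
  exact ⟨a * a', b * b', hol_mul h1 h1', hol_mul h2 h2', by rw [map_mul]; exact mul_ne_zero h3 h3',
    by rw [← h4, ← h4']; ring⟩

theorem oo_add (hf : IsOO γ r f) (hg : IsOO γ r g) : IsOO γ r (f + g) := by
  obtain ⟨a, b, h1, h2, h3, h4⟩ := hf
  obtain ⟨a', b', h1', h2', h3', h4'⟩ := hg
  exact ⟨a * b' + a' * b, b * b', hol_add (hol_mul h1 h2') (hol_mul h1' h2), hol_mul h2 h2',
    by rw [map_mul]; exact mul_ne_zero h3 h3', by rw [← h4, ← h4']; ring⟩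

theorem oo_inv (hf : IsOO γ r f) (h0 : constantCoeff f ≠ 0) : IsOO γ r f⁻¹ := by
  obtain ⟨a, b, h1, h2, h3, h4⟩ := hf
  exact ⟨b, a, h2, h1, by rw [← h4, map_mul]; exact mul_ne_zero h3 h0,
    by rw [← h4, mul_assoc, PowerSeries.mul_inv_cancel f h0, mul_one]⟩

theorem sub (γ : Gam) (r : ℝ) : ∃ S : Subring ℂ⟦X⟧, (∀ y, y ∈ S ↔ IsOO γ r y) ∧
    (∀ c, C c ∈ S) ∧ ∀ y ∈ S, constantCoeff y ≠ 0 → y⁻¹ ∈ S :=
  ⟨{ carrier := {y | IsOO γ r y}
     mul_mem' := oo_mul
     one_mem' := by simpa using oo_C γ r 1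
     add_mem' := oo_add
     zero_mem' := by simpa using oo_C γ r 0
     neg_mem' := fun {y} hy => by simpa using oo_mul (oo_C γ r (-1)) hy },
    fun _ => Iff.rfl, oo_C γ r, fun _ hy h0 => oo_inv hy h0⟩

theorem hol : HOL :=
  ⟨const, fun _ _ _ => add, fun _ _ _ => mul, zero, fun _ _ => diff, fun _ _ => shift, conv_X,
    ofFun, fun _ _ => inj, fun _ _ => inv, sub⟩

end Vale.Agent.P027M.B.Hol
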