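import Vale.Agent.P027M.B.Defs

/-! # P027, route M, row B1.leaf : the integral model of the vector field -/

set_option linter.all false

open Polynomial NumberField
open scoped PowerSeries

noncomputable section

namespace Vale.Agent.P027M.B

namespace Lf

/-- the square root of `1 + 4 y` -/
theorem sqrt4 {O σ : Type} [CommRing O] (y : MvPowerSeries σ O)
    (hy : MvPowerSeries.constantCoeff y = 0) :
    ∃ u : MvPowerSeries σ O, MvPowerSeries.constantCoeff u = 1 ∧ u ^ 2 = 1 + 4 * y := by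
  have hs : PowerSeries.HasSubst (-y) :=
    PowerSeries.HasSubst.of_constantCoeff_zero (by rw [map_neg, hy, neg_zero])
  have h0 := congrArg (PowerSeries.map (Nat.castRingHom O))
    PowerSeries.catalanSeries_sq_mul_X_add_one
  rw [map_add, map_mul, map_pow, map_one, PowerSeries.map_X] at h0
  have h1 := congrArg (PowerSeries.substAlgHom (R := O) hs) h0
  rw [map_add, map_mul, map_pow, map_one, PowerSeries.substAlgHom_X] at h1
  generalize PowerSeries.substAlgHom (R := O) hs _ = c at h1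
  refine ⟨1 + 2 * (y * c), by simp [hy], ?_⟩
  linear_combination (-4 * y) * h1

theorem nat_mul {K : Type} [Field K] [NumberField K] (a : 𝓞 K) (ha : a ≠ 0) :
    ∃ N : ℕ, 0 < N ∧ a ∣ (N : 𝓞 K) :=
  ⟨Ideal.absNorm (Ideal.span {a}), Nat.pos_of_ne_zero fun h =>
    ha (Ideal.span_singleton_eq_bot.1 (Ideal.absNorm_eq_zero_iff.1 h)),
    Ideal.mem_span_singleton.1 (Ideal.absNorm_mem _)⟩

theorem dvd_unit {O σ : Type} [CommRing O] {a : O} {N : ℕ} (h : a ∣ (N : O))
    {u : MvPowerSeries σ O} (hu : MvPowerSeries.constantCoeff u = 1) :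
    MvPowerSeries.C a * u ∣ (N : MvPowerSeries σ O) := by
  have h1 : IsUnit u := MvPowerSeries.isUnit_iff_constantCoeff.2 (hu ▸ isUnit_one)
  rw [h1.mul_right_dvd, ← map_natCast (MvPowerSeries.C (σ := σ) (R := O))]
  exact map_dvd _ h

theorem leaf0 {O : Type} [CommRing O] (F : O[X]) (m0 s : Fin 3 → O) (b : Fin 3 → ℕ → O) (De : ℕ)
    (h0 : 0 < De) (h1 : ∀ k, 4 * s k ^ 2 ∣ (De : O)) (h2 : ∀ k l, k ≠ l → m0 k - m0 l ∣ (De : O))
    (hs : ∀ k, s k ^ 2 = F.eval (m0 k)) : Nonempty (Leaf F m0 s b) := by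
  have cD : (De : RR O) = MvPowerSeries.C (De : O) := (map_natCast _ _).symm
  have hw : ∀ k, ∃ w : RR O, MvPowerSeries.constantCoeff w = s k ∧
      w ^ 2 = aeval (mu0 m0 De k) F ∧ w ∣ (De : RR O) := fun k => by
    obtain ⟨e, he⟩ := h1 k
    obtain ⟨G, hG⟩ := sub_dvd_eval_sub (mu0 m0 De k) (MvPowerSeries.C (m0 k))
      (F.map (algebraMap O (RR O)))
    rw [eval_map_algebraMap, eval_map_algebraMap, MvPowerSeries.c_eq_algebraMap,
      aeval_algebraMap_apply_eq_algebraMap_eval, ← hs, ← MvPowerSeries.c_eq_algebraMap] at hG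
    obtain ⟨u, u1, u2⟩ := sqrt4 (MvPowerSeries.C e * MvPowerSeries.X (some k) * G) (by simp)
    refine ⟨MvPowerSeries.C (s k) * u, by simp [u1], ?_,
      dvd_unit ⟨4 * s k * e, by rw [he]; ring⟩ u1⟩
    have e1 : (De : RR O) = 4 * MvPowerSeries.C (s k) ^ 2 * MvPowerSeries.C e := by
      rw [cD, he, map_mul, map_mul, map_pow, map_ofNat]
    rw [mul_pow, u2, eq_add_of_sub_eq hG, mu0, map_pow]
    linear_combination (-(MvPowerSeries.X (some k) * G)) * e1
  choose w w0 w2 wd using hw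
  choose wi hwi using wd
  have sd : ∀ k l, k ≠ l → mu0 m0 De k - mu0 m0 De l ∣ (De : RR O) := fun k l h => by
    obtain ⟨e, he⟩ := h2 k l h
    have e1 : (De : RR O) = MvPowerSeries.C (m0 k - m0 l) * MvPowerSeries.C e := by
      rw [cD, he, map_mul]
    have e2 : mu0 m0 De k - mu0 m0 De l = MvPowerSeries.C (m0 k - m0 l) *
        (1 + MvPowerSeries.C e * (MvPowerSeries.X (some k) - MvPowerSeries.X (some l))) := by
      rw [mu0, mu0, map_sub] at *
      linear_combination (MvPowerSeries.X (some k) - MvPowerSeries.X (some l)) * e1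
    rw [e2]
    exact dvd_unit ⟨e, he⟩ (by simp)
  let A : Matrix (Fin 3) (Fin 3) (RR O) := (Matrix.vandermonde (mu0 m0 De)).transpose
  obtain ⟨c, hc⟩ : A.det ∣ ((∏ i : Fin 3, ∏ _j ∈ Finset.Ioi i, De : ℕ) : RR O) := by
    rw [Matrix.det_transpose, Matrix.det_vandermonde]
    push_cast
    exact Finset.prod_dvd_prod_of_dvd _ _ fun i _ => Finset.prod_dvd_prod_of_dvd _ _ fun j hj =>
      sd j i (Finset.mem_Ioi.1 hj).ne'
  let H : Fin 3 → RR O := fun j => inq fun n => b j (n + 1)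
  refine ⟨⟨De, De, De * ∏ i : Fin 3, ∏ _j ∈ Finset.Ioi i, De, w, wi,
    fun k => w k * (c * A.cramer H k), h0, h0, by positivity, w0, w2, fun k => (hwi k).symm, sd,
    fun j => ?_⟩⟩
  have h := congrFun (Matrix.mulVec_cramer A H) j
  rw [Matrix.mulVec, dotProduct, Pi.smul_apply, smul_eq_mul] at h
  rw [Nat.cast_mul, hc, Finset.sum_congr rfl
    (g := fun k => (De : RR O) * De * c * (A j k * A.cramer H k)) fun k _ => ?_,
    ← Finset.mul_sum, h]
  · ring
  · have : A j k = mu0 m0 De k ^ (j : ℕ) := rfl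
    rw [this]
    linear_combination (-(De : RR O) * mu0 m0 De k ^ (j : ℕ) * c * A.cramer H k) * hwi k

end Lf

open Lf

theorem leaf : LEAF := by
  intro K _ _ F m0 s b hm hs h
  have d0 : ∀ k l, k ≠ l → (m0 k : 𝓞 K) - m0 l ≠ 0 := fun k l hkl e =>
    hkl (hm (by exact_mod_cast sub_eq_zero.1 e))
  obtain ⟨N, N0, hN⟩ := nat_mul ((∏ k, 4 * s k ^ 2) *
      ∏ p ∈ Finset.univ.filter fun p : Fin 3 × Fin 3 => p.1 ≠ p.2, ((m0 p.1 : 𝓞 K) - m0 p.2))
    (mul_ne_zero (Finset.prod_ne_zero_iff.2 fun k _ =>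
      mul_ne_zero (by norm_num) (pow_ne_zero _ (hs k)))
      (Finset.prod_ne_zero_iff.2 fun p hp => d0 _ _ (Finset.mem_filter.1 hp).2))
  refine leaf0 F _ s b N N0 (fun k => ?_) (fun k l hkl => ?_) h
  · exact ((Finset.dvd_prod_of_mem _ (Finset.mem_univ k)).mul_right _).trans hN
  · exact ((Finset.dvd_prod_of_mem (fun p : Fin 3 × Fin 3 => (m0 p.1 : 𝓞 K) - m0 p.2)
      (a := (k, l)) (Finset.mem_filter.2 ⟨Finset.mem_univ _, hkl⟩)).mul_left _).trans hN

end Vale.Agent.P027M.B
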