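import Vale.Agent.P027M.B.Defs
import Vale.Agent.P289C.Jac

/-! # P027, route M, block B1 : the `p`-curvature vanishes -/

set_option linter.all false

open Polynomial Finset

noncomputable section

namespace Vale.Agent.P027M.B

namespace Pc

open Vale.Agent.P289C

section gen

variable {k R : Type*} [CommRing k] [CommRing R] [Algebra k R] (d : Derivation k R R)

theorem it_add (n : ℕ) (x y : R) : d^[n] (x + y) = d^[n] x + d^[n] y := by
  induction n with
  | zero => rfl
  | succ n ih => simp only [Function.iterate_succ_apply', ih, map_add]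

theorem it_zero (n : ℕ) : d^[n] 0 = 0 := Function.iterate_fixed (map_zero d) n

theorem it_sum {ι : Type*} (n : ℕ) (s : Finset ι) (f : ι → R) :
    d^[n] (∑ i ∈ s, f i) = ∑ i ∈ s, d^[n] (f i) := by
  classical
  induction s using Finset.induction_on with
  | empty => simpa using it_zero d n
  | insert a s ha ih => rw [sum_insert ha, sum_insert ha, it_add, ih]

theorem it_const (n : ℕ) {c : R} (hc : d c = 0) (x : R) : d^[n] (c * x) = c * d^[n] x := by
  induction n with
  | zero => rfl
  | succ n ih => simp only [Function.iterate_succ_apply', ih, Derivation.leibniz, hc, smul_eq_mul,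
      mul_zero, add_zero]

variable (p : ℕ) [hp : Fact p.Prime] [CharP R p]

theorem d_pow_p (x : R) : d (x ^ p) = 0 := by
  rw [Derivation.leibniz_pow, nsmul_eq_mul, CharP.cast_eq_zero, zero_mul]

theorem it_pred (x : R) : d^[p - 1] (d x) = d^[p] x := by
  rw [← Function.iterate_succ_apply, Nat.succ_eq_add_one, Nat.sub_add_cancel hp.1.pos]

theorem itp_kill {x : R} (h : d x = 0) : d^[p] x = 0 := by
  rw [← it_pred, h, it_zero]

theorem itp_mul (x y : R) : d^[p] (x * y) = d^[p] x * y + x * d^[p] y :=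
  IsCon.leib_p p (isCon_ad d) x y

theorem itp_pow (x : R) (n : ℕ) : d^[p] (x ^ (n + 1)) = (n + 1) * (x ^ n * d^[p] x) := by
  induction n with
  | zero => simp
  | succ n ih =>
    rw [pow_succ, itp_mul, ih]
    push_cast
    ring

theorem unit_nat {n : ℕ} (h : ¬ p ∣ n) : IsUnit (n : R) := by
  have h1 : Nat.Coprime n p := ((Nat.Prime.coprime_iff_not_dvd hp.1).2 h).symm
  have h2 := (Nat.isCoprime_iff_coprime.2 h1).map (Int.castRingHom R)
  rw [map_natCast, map_natCast, CharP.cast_eq_zero R p] at h2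
  exact isCoprime_zero_right.1 h2

theorem nat_pow (n : ℕ) : (n : R) ^ p = n := map_natCast (frobenius R p) n

theorem cart_mon (m : R) (N r : ℕ) (hr : r + 1 < (N + 1) * p) :
    d^[p - 1] (m ^ r * d m) = m ^ r * d^[p] m -
      (∑ i ∈ range N, if r = (i + 1) * p - 1 then (m ^ i) ^ p else 0) * d m ^ p := by
  have p0 := hp.1.pos
  by_cases h : p ∣ r + 1
  · obtain ⟨c, hc⟩ := h
    obtain ⟨i, rfl⟩ : ∃ i, c = i + 1 := ⟨c - 1, by
      rcases Nat.eq_zero_or_pos c with h | h
      · simp [h] at hc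
      · omega⟩
    have iN : i < N := by
      rw [hc, mul_comm] at hr
      have := Nat.lt_of_mul_lt_mul_right hr
      omega
    have e : r = i * p + (p - 1) := by
      have : p * (i + 1) = i * p + p := by ring
      omega
    rw [sum_eq_single i, if_pos (by rw [mul_comm]; omega)]
    · rw [e, pow_add, pow_mul, mul_assoc, it_const d _ (d_pow_p d p _), hochschild]
      ring
    · intro l _ hl
      refine if_neg fun h => hl ?_
      have h1 : 0 < (l + 1) * p := by positivity
      have h2 : (l + 1) * p = (i + 1) * p := by rw [mul_comm (i + 1)]; omega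
      have := Nat.eq_of_mul_eq_mul_right p0 h2
      omega
    · intro h
      exact absurd (mem_range.2 iN) h
  · rw [sum_eq_zero, zero_mul, sub_zero]
    · refine (unit_nat (R := R) p h).mul_left_cancel ?_
      rw [← it_const d _ (d.map_natCast _), Nat.cast_succ, ← itp_pow,
        ← it_pred d p (m ^ (r + 1)), Derivation.leibniz_pow]
      simp
    · intro i _
      refine if_neg fun e => h ⟨i + 1, ?_⟩
      have h1 : 0 < (i + 1) * p := by positivity
      rw [mul_comm]
      omega

theorem cart (m : R) (N : ℕ) (Φ : k[X]) (hΦ : Φ.natDegree + 1 < (N + 1) * p) :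
    d^[p - 1] (aeval m Φ * d m) = aeval m Φ * d^[p] m -
      (∑ i ∈ range N, algebraMap k R (Φ.coeff ((i + 1) * p - 1)) * (m ^ i) ^ p) * d m ^ p := by
  have e : ∀ i, algebraMap k R (Φ.coeff ((i + 1) * p - 1)) * (m ^ i) ^ p =
      ∑ r ∈ range (Φ.natDegree + 1), algebraMap k R (Φ.coeff r) *
        if r = (i + 1) * p - 1 then (m ^ i) ^ p else 0 := by
    intro i
    rw [sum_eq_single ((i + 1) * p - 1), if_pos rfl]
    · intro r _ hr
      rw [if_neg hr, mul_zero]
    · intro h
      rw [mem_range] at h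
      rw [coeff_eq_zero_of_natDegree_lt (by omega), map_zero, zero_mul]
  simp only [e]
  rw [sum_comm, aeval_eq_sum_range, sum_mul, sum_mul, sum_mul, it_sum, ← sum_sub_distrib]
  refine sum_congr rfl fun r hr => ?_
  have := mem_range.1 hr
  rw [Algebra.smul_def, mul_assoc, it_const d _ (d.map_algebraMap _),
    cart_mon d p m N r (by omega), ← mul_sum]
  ring

theorem prod_mod (n : ℕ) :
    ∏ i ∈ range (p - 1), ((n : R) + (i + 1)) = if p ∣ n then -1 else 0 := by
  have p0 := hp.1.pos
  split_ifs with h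
  · rw [(CharP.cast_eq_zero_iff R p n).2 h]
    have := congrArg (ZMod.castHom (dvd_refl p) R) (ZMod.wilsons_lemma p)
    rw [map_natCast, map_neg, map_one, ← prod_range_add_one_eq_factorial, Nat.cast_prod] at this
    simpa only [zero_add, Nat.cast_add, Nat.cast_one] using this
  · have h1 : n % p < p := Nat.mod_lt _ p0
    have h2 : n % p ≠ 0 := fun e => h (Nat.dvd_of_mod_eq_zero e)
    refine prod_eq_zero (i := p - 1 - n % p) (mem_range.2 (by omega)) ?_
    have : p ∣ n + (p - 1 - n % p + 1) := by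
      refine ⟨n / p + 1, ?_⟩
      have := Nat.div_add_mod n p
      rw [mul_add]
      omega
    have := (CharP.cast_eq_zero_iff R p _).2 this
    exact_mod_cast this

end gen

theorem vdm {R : Type*} [CommRing R] {a b c x y z : R} (h0 : x + y + z = 0)
    (h1 : a * x + b * y + c * z = 0) (h2 : a ^ 2 * x + b ^ 2 * y + c ^ 2 * z = 0)
    (u : IsUnit (a - b)) (u' : IsUnit (a - c)) : x = 0 := by
  refine (u.mul u').mul_left_cancel ?_
  linear_combination h2 - (b + c) * h1 + b * c * h0

variable {O : Type*} [CommRing O]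

theorem dl_apply (v : Fin 3 → RR O) (M1 : ℕ) (f : RR O) : dl v M1 f =
    MvPowerSeries.pderiv O none f +
      ∑ k, (M1 : RR O) * v k * MvPowerSeries.pderiv O (some k) f := by
  simp only [dl, Fin.sum_univ_three, Derivation.add_apply, Derivation.smul_apply, smul_eq_mul]

theorem coeff_inq (a : ℕ → O) (e : Option (Fin 3) →₀ ℕ) :
    MvPowerSeries.coeff e (inq a) = if ∀ k, e (some k) = 0 then a (e none) else 0 := rfl

theorem dl_inq (v : Fin 3 → RR O) (M1 : ℕ) (a : ℕ → O) :
    dl v M1 (inq a) = inq fun n => a (n + 1) * (n + 1) := by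
  have h : ∀ k, MvPowerSeries.pderiv O (some k) (inq a) = 0 := by
    intro k
    ext e
    rw [MvPowerSeries.coeff_pderiv, coeff_inq, if_neg, zero_mul, map_zero]
    intro h
    simpa using h k
  rw [dl_apply]
  simp only [h, mul_zero, sum_const_zero, add_zero]
  ext e
  rw [MvPowerSeries.coeff_pderiv, coeff_inq, coeff_inq]
  simp

theorem it_inq (v : Fin 3 → RR O) (M1 r : ℕ) (a : ℕ → O) :
    (dl v M1)^[r] (inq a) = inq fun n => a (n + r) * ∏ i ∈ range r, ((n : O) + (i + 1)) := by
  induction r generalizing a with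
  | zero => simp
  | succ r ih =>
    rw [Function.iterate_succ_apply, dl_inq, ih]
    congr 1
    funext n
    rw [prod_range_succ]
    push_cast
    ring_nf

theorem inq_pow (p : ℕ) [hp : Fact p.Prime] [CharP O p] (a : ℕ → O) :
    inq a ^ p = inq fun n => if p ∣ n then a (n / p) ^ p else 0 := by
  have p0 := hp.1.pos
  rw [← MvPowerSeries.map_frobenius_expand p p0.ne']
  ext e
  rw [MvPowerSeries.coeff_map, coeff_inq, frobenius_def]
  by_cases h : ∀ i, p ∣ e i
  · obtain ⟨e, rfl⟩ : ∃ e' : Option (Fin 3) →₀ ℕ, e = p • e' :=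
      ⟨e.mapRange (· / p) (Nat.zero_div p), Finsupp.ext fun i => by
        simp [Nat.mul_div_cancel' (h i)]⟩
    rw [MvPowerSeries.coeff_expand_smul, coeff_inq]
    simp [p0.ne', Nat.mul_div_cancel_left _ p0]
  · push Not at h
    obtain ⟨i, hi⟩ := h
    rw [MvPowerSeries.coeff_expand_of_not_dvd _ _ _ hi, zero_pow p0.ne']
    rcases i with _ | k
    · rw [if_neg hi, ite_self]
    · rw [if_neg fun h => hi (by rw [h k]; exact dvd_zero p)]

theorem dl_X (v : Fin 3 → RR O) (M1 : ℕ) (k : Fin 3) :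
    dl v M1 (MvPowerSeries.X (some k)) = M1 * v k := by
  rw [dl_apply, MvPowerSeries.pderiv_X_of_ne (by simp), zero_add, sum_eq_single k]
  · simp
  · intro l _ hl
    rw [MvPowerSeries.pderiv_X_of_ne (by simpa using hl.symm), mul_zero]
  · simp

theorem dl_q (v : Fin 3 → RR O) (M1 : ℕ) : dl v M1 (MvPowerSeries.X none) = 1 := by
  rw [dl_apply, MvPowerSeries.pderiv_X_self, sum_eq_zero, add_zero]
  intro l _
  rw [MvPowerSeries.pderiv_X_of_ne (by simp), mul_zero]

theorem dl_C (v : Fin 3 → RR O) (M1 : ℕ) (a : O) : dl v M1 (MvPowerSeries.C a) = 0 := by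
  simp [dl_apply]

/-- vanishing to order `n` -/
def Od (n : ℕ) (f : RR O) : Prop := ∀ e : Option (Fin 3) →₀ ℕ, e.degree < n →
  MvPowerSeries.coeff e f = 0

theorem Od.mul {n : ℕ} {f : RR O} (h : Od n f) (g : RR O) : Od n (g * f) := by
  intro e he
  rw [MvPowerSeries.coeff_mul]
  refine sum_eq_zero fun x hx => ?_
  rw [h x.2, mul_zero]
  rw [← mem_antidiagonal.1 hx, map_add] at he
  omega

theorem Od.pd {n : ℕ} {f : RR O} (h : Od (n + 1) f) (i : Option (Fin 3)) :
    Od n (MvPowerSeries.pderiv O i f) := by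
  intro e he
  rw [MvPowerSeries.coeff_pderiv, h, zero_mul]
  rw [map_add, Finsupp.degree_single]
  omega

theorem Od.dl {n : ℕ} {f : RR O} (h : Od (n + 1) f) (v : Fin 3 → RR O) (M1 : ℕ) :
    Od n (dl v M1 f) := by
  intro e he
  rw [dl_apply, map_add, map_sum, h.pd _ e he, zero_add]
  exact sum_eq_zero fun k _ => (h.pd _).mul _ e he

theorem Od.it {n r : ℕ} {f : RR O} (h : Od (n + r) f) (v : Fin 3 → RR O) (M1 : ℕ) :
    Od n ((B.dl v M1)^[r] f) := by
  induction r generalizing f with
  | zero => exact h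
  | succ r ih => exact ih (Od.dl h v M1)

theorem kill_all (p : ℕ) [hp : Fact p.Prime] [CharP (RR O) p] (v : Fin 3 → RR O) (M1 : ℕ)
    (h : ∀ i, (dl v M1)^[p] (MvPowerSeries.X i) = 0) (f : RR O) : (dl v M1)^[p] f = 0 := by
  have hP : ∀ g : MvPolynomial (Option (Fin 3)) O, (dl v M1)^[p] (g : RR O) = 0 := by
    intro g
    induction g using MvPolynomial.induction_on with
    | C a => rw [MvPolynomial.coe_C]; exact itp_kill _ p (dl_C v M1 a)
    | add f g hf hg => rw [MvPolynomial.coe_add, it_add, hf, hg, add_zero]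
    | mul_X f i hf => rw [MvPolynomial.coe_mul, MvPolynomial.coe_X, itp_mul, hf, h]; simp
  ext e
  have h1 : Od (e.degree + 1 + p) (f - ((MvPowerSeries.truncTotal (e.degree + 1 + p) f :
      MvPolynomial (Option (Fin 3)) O) : RR O)) := by
    intro x hx
    rw [map_sub, MvPolynomial.coeff_coe, MvPowerSeries.coeff_truncTotal _ hx, sub_self]
  have h2 := h1.it v M1 e (Nat.lt_succ_self _)
  have h3 := it_add (dl v M1) p ((MvPowerSeries.truncTotal (e.degree + 1 + p) f :
      MvPolynomial (Option (Fin 3)) O) : RR O) (f - ((MvPowerSeries.truncTotal (e.degree + 1 + p) f :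
      MvPolynomial (Option (Fin 3)) O) : RR O))
  rw [add_sub_cancel, hP, zero_add] at h3
  rw [h3, h2, map_zero]

theorem core {F : O[X]} {m0 s : Fin 3 → O} {b : Fin 3 → ℕ → O} (Λ : Leaf F m0 s b) (M1 p : ℕ)
    (hF : F.natDegree ≤ 7) (hp : p.Prime) (h0 : (p : O) = 0) (hd : ¬ p ∣ 2 * Λ.De * Λ.De')
    (hc : ∀ (j : Fin 3) (n : ℕ), b j (n * p) = ∑ i : Fin 3, cm F p j i * b i n ^ p) (f : RR O) :
    (dl Λ.v M1)^[p] f = 0 := by
  rcases subsingleton_or_nontrivial O with hO | hO
  · ext e
    exact Subsingleton.elim _ _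
  haveI : Fact p.Prime := ⟨hp⟩
  haveI : CharP O p := (CharP.charP_iff_prime_eq_zero hp).2 h0
  haveI : CharP (RR O) p := (CharP.charP_iff_prime_eq_zero hp).2 (by
    rw [← map_natCast (MvPowerSeries.C : O →+* RR O), h0, map_zero])
  have p0 := hp.pos
  have u1 : IsUnit (Λ.De : RR O) := unit_nat p fun h => hd ((h.mul_left 2).mul_right _)
  have u2 : IsUnit (Λ.De' : RR O) := unit_nat p fun h => hd (h.mul_left _)
  obtain ⟨t, ht⟩ : Odd p := hp.odd_of_ne_two fun h => hd (by
    rw [h, mul_assoc]; exact dvd_mul_right _ _)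
  have t2 : (p - 1) / 2 = t := by omega
  set δ := dl Λ.v M1 with hδ
  set μ := mu0 m0 Λ.De with hμ
  have dμ : ∀ k, δ (μ k) = Λ.De * (M1 * Λ.v k) := by
    intro k
    rw [hμ, mu0, map_add, dl_C, zero_add, Derivation.leibniz, dl_X, Derivation.map_natCast]
    simp
  set H : Fin 3 → RR O := fun j => inq fun n => b j (n + 1) with hH
  set c : ℕ := M1 * (Λ.De' * Λ.M0) with hcc
  have ode : ∀ j : Fin 3, ∑ k, μ k ^ (j : ℕ) * δ (μ k) * Λ.wi k = c * H j := by
    intro j
    have := congrArg (fun x => (M1 : RR O) * x) (Λ.ode j)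
    simp only [mul_sum] at this
    rw [hcc]
    push_cast
    rw [mul_assoc, ← this]
    exact sum_congr rfl fun k _ => by rw [dμ]; ring
  have wi : ∀ k, Λ.wi k = Λ.wi k ^ p * aeval (μ k) F ^ t := by
    intro k
    refine u2.mul_left_cancel ?_
    have e1 := Λ.w_wi k
    have e2 : (Λ.w k * Λ.wi k) ^ p = Λ.De' := by rw [e1, nat_pow]
    rw [← Λ.sq k]
    nth_rewrite 1 [← e2]
    rw [← e1]
    generalize Λ.wi k = y
    generalize Λ.w k = x
    rw [mul_pow, show x ^ p = x ^ (2 * t + 1) by rw [ht]]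
    ring
  have hH1 : ∀ j, δ^[p - 1] (H j) = -∑ i : Fin 3, algebraMap O (RR O) (cm F p j i) * H i ^ p := by
    intro j
    rw [hH, hδ, it_inq]
    simp only [inq_pow, prod_mod]
    ext e
    rw [map_neg, map_sum, coeff_inq]
    simp only [← MvPowerSeries.c_eq_algebraMap, MvPowerSeries.coeff_C_mul, coeff_inq]
    split_ifs with h1 h2
    · obtain ⟨n, hn⟩ := h2
      rw [hn, Nat.mul_div_cancel_left _ p0, ← hc, mul_neg_one]
      congr 2
      rw [add_mul, mul_comm n]
      omega
    · simp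
    · simp
  have odp : ∀ i : Fin 3, ∑ k, (μ k ^ (i : ℕ)) ^ p * δ (μ k) ^ p * Λ.wi k ^ p = c * H i ^ p := by
    intro i
    have := congrArg (frobenius (RR O) p) (ode i)
    simpa only [map_sum, map_mul, map_natCast, frobenius_def] using this
  have lin : ∀ j : Fin 3, ∑ k, μ k ^ (j : ℕ) * (Λ.wi k * δ^[p] (μ k)) = 0 := by
    intro j
    have hΦ : (X ^ (j : ℕ) * F ^ t).natDegree + 1 < (3 + 1) * p := by
      have h1 := natDegree_mul_le (p := X ^ (j : ℕ)) (q := F ^ t)
      have h2 := natDegree_X_pow_le (R := O) (j : ℕ)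
      have h3 := natDegree_pow_le_of_le t hF
      have := j.2
      omega
    have e1 : ∀ k, μ k ^ (j : ℕ) * δ (μ k) * Λ.wi k =
        Λ.wi k ^ p * (aeval (μ k) (X ^ (j : ℕ) * F ^ t) * δ (μ k)) := by
      intro k
      rw [map_mul, map_pow, map_pow, aeval_X]
      linear_combination μ k ^ (j : ℕ) * δ (μ k) * wi k
    have e2 := congrArg δ^[p - 1] (ode j)
    rw [it_sum, it_const δ _ (δ.map_natCast c), hH1] at e2
    simp only [e1, it_const δ _ (d_pow_p δ p _), cart δ p _ 3 _ hΦ] at e2
    have e3 : ∀ k, μ k ^ (j : ℕ) * (Λ.wi k * δ^[p] (μ k)) =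
        Λ.wi k ^ p * (aeval (μ k) (X ^ (j : ℕ) * F ^ t) * δ^[p] (μ k)) := by
      intro k
      rw [map_mul, map_pow, map_pow, aeval_X]
      linear_combination μ k ^ (j : ℕ) * δ^[p] (μ k) * wi k
    have o0 := odp 0
    have o1 := odp 1
    have o2 := odp 2
    simp only [e3]
    simp only [cm, t2, Fin.sum_univ_three, sum_range_succ, sum_range_zero, zero_add, Fin.val_zero,
      Fin.val_one, Fin.val_two] at e2 o0 o1 o2 ⊢
    linear_combination e2 + algebraMap O (RR O) ((X ^ (j : ℕ) * F ^ t).coeff (1 * p - 1)) * o0 +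
      algebraMap O (RR O) ((X ^ (j : ℕ) * F ^ t).coeff ((1 + 1) * p - 1)) * o1 +
      algebraMap O (RR O) ((X ^ (j : ℕ) * F ^ t).coeff ((2 + 1) * p - 1)) * o2
  have us : ∀ k l, k ≠ l → IsUnit (μ k - μ l) := fun k l h =>
    isUnit_of_dvd_unit (Λ.sub_dvd k l h) u2
  have y0 : ∀ k, Λ.wi k * δ^[p] (μ k) = 0 := by
    have l0 := lin 0
    have l1 := lin 1
    have l2 := lin 2
    simp only [Fin.sum_univ_three, Fin.val_zero, Fin.val_one, Fin.val_two, pow_zero, pow_one,
      one_mul] at l0 l1 l2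
    set y : Fin 3 → RR O := fun k => Λ.wi k * δ^[p] (μ k)
    have a0 : y 0 = 0 := vdm l0 l1 l2 (us 0 1 (by decide)) (us 0 2 (by decide))
    have a1 : y 1 = 0 := vdm (a := μ 1) (b := μ 0) (c := μ 2) (y := y 0) (z := y 2)
      (by linear_combination l0) (by linear_combination l1) (by linear_combination l2)
      (us 1 0 (by decide)) (us 1 2 (by decide))
    have a2 : y 2 = 0 := vdm (a := μ 2) (b := μ 0) (c := μ 1) (y := y 0) (z := y 1)
      (by linear_combination l0) (by linear_combination l1) (by linear_combination l2)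
      (us 2 0 (by decide)) (us 2 1 (by decide))
    intro k
    fin_cases k
    exacts [a0, a1, a2]
  refine kill_all p Λ.v M1 (fun i => ?_) f
  rcases i with _ | k
  · rw [← it_pred, dl_q]
    obtain ⟨r, hr⟩ : ∃ r, p - 1 = r + 1 := ⟨p - 2, by have := hp.two_le; omega⟩
    rw [hr, Function.iterate_succ_apply, Derivation.map_one_eq_zero, it_zero]
  · have uw : IsUnit (Λ.wi k) := isUnit_of_dvd_unit ⟨Λ.w k, by rw [← Λ.w_wi k, mul_comm]⟩ u2
    have e1 : δ^[p] (μ k) = 0 := uw.mul_left_cancel (by rw [y0, mul_zero])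
    rw [hμ, mu0, it_add, itp_kill δ p (dl_C _ _ _), zero_add,
      it_const δ _ (δ.map_natCast _)] at e1
    exact u1.mul_left_cancel (by rw [e1, mul_zero])

variable {O' : Type*} [CommRing O'] (φ : O →+* O')

theorem map_pd (i : Option (Fin 3)) (f : RR O) :
    MvPowerSeries.map φ (MvPowerSeries.pderiv O i f) =
      MvPowerSeries.pderiv O' i (MvPowerSeries.map φ f) := by
  ext e
  simp [MvPowerSeries.coeff_pderiv]

theorem map_dl (v : Fin 3 → RR O) (M1 : ℕ) (f : RR O) :
    MvPowerSeries.map φ (dl v M1 f) =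
      dl (fun k => MvPowerSeries.map φ (v k)) M1 (MvPowerSeries.map φ f) := by
  simp only [dl_apply, map_add, map_sum, map_mul, map_natCast, map_pd]

theorem map_it (v : Fin 3 → RR O) (M1 r : ℕ) (f : RR O) :
    MvPowerSeries.map φ ((dl v M1)^[r] f) =
      (dl (fun k => MvPowerSeries.map φ (v k)) M1)^[r] (MvPowerSeries.map φ f) := by
  induction r generalizing f with
  | zero => rfl
  | succ r ih => rw [Function.iterate_succ_apply, Function.iterate_succ_apply, ih, map_dl]

theorem map_inq (a : ℕ → O) : MvPowerSeries.map φ (inq a) = inq fun n => φ (a n) := by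
  ext e
  rw [MvPowerSeries.coeff_map, coeff_inq, coeff_inq]
  split_ifs <;> simp

theorem map_mu0 (m0 : Fin 3 → O) (De : ℕ) (k : Fin 3) :
    MvPowerSeries.map φ (mu0 m0 De k) = mu0 (fun k => φ (m0 k)) De k := by
  simp [mu0]

/-- the image of a leaf -/
def mapL {F : O[X]} {m0 s : Fin 3 → O} {b : Fin 3 → ℕ → O} (Λ : Leaf F m0 s b) :
    Leaf (F.map φ) (fun k => φ (m0 k)) (fun k => φ (s k)) (fun j n => φ (b j n)) where
  De := Λ.De
  De' := Λ.De'
  M0 := Λ.M0
  w k := MvPowerSeries.map φ (Λ.w k)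
  wi k := MvPowerSeries.map φ (Λ.wi k)
  v k := MvPowerSeries.map φ (Λ.v k)
  De_pos := Λ.De_pos
  De'_pos := Λ.De'_pos
  M0_pos := Λ.M0_pos
  w_zero k := by rw [MvPowerSeries.constantCoeff_map, Λ.w_zero]
  sq k := by
    rw [← map_pow, Λ.sq, ← map_mu0]
    refine map_aeval_eq_aeval_map (RingHom.ext fun a => ?_) _ _
    simp [← MvPowerSeries.c_eq_algebraMap]
  w_wi k := by rw [← map_mul, Λ.w_wi, map_natCast]
  sub_dvd k l h := by
    have := map_dvd (MvPowerSeries.map (σ := Option (Fin 3)) φ) (Λ.sub_dvd k l h)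
    rwa [map_sub, map_mu0, map_mu0, map_natCast] at this
  ode j := by
    have := congrArg (MvPowerSeries.map φ) (Λ.ode j)
    simpa only [map_sum, map_mul, map_pow, map_natCast, map_mu0, map_inq] using this

theorem cm_map (F : O[X]) (p j i : ℕ) : cm (F.map φ) p j i = φ (cm F p j i) := by
  rw [cm, cm, ← coeff_map]
  simp

end Pc

open Pc

theorem pc : PC := by
  intro O _ F m0 s b Λ M1 p hF hp hd hc f
  let φ := Ideal.Quotient.mk (Ideal.span {(p : O)})
  have hφ : ∀ x, φ x = 0 ↔ (p : O) ∣ x := fun x =>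
    Ideal.Quotient.eq_zero_iff_mem.trans Ideal.mem_span_singleton
  have h1 := core (mapL φ Λ) M1 p (natDegree_map_le.trans hF) hp
    (by rw [← map_natCast φ, hφ]) hd (fun j n => by
      have := (hφ _).2 (hc j n)
      rw [map_sub, sub_eq_zero] at this
      simpa only [map_sum, map_mul, map_pow, cm_map] using this) (MvPowerSeries.map φ f)
  replace h1 := (map_it φ Λ.v M1 p f).trans h1
  have h2 : ∀ e, (p : O) ∣ MvPowerSeries.coeff e ((dl Λ.v M1)^[p] f) := fun e =>
    (hφ _).1 (by rw [← MvPowerSeries.coeff_map, h1, map_zero])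
  choose g hg using h2
  refine ⟨g, ?_⟩
  ext e
  rw [← map_natCast (MvPowerSeries.C : O →+* RR O)]
  exact (hg e).trans (MvPowerSeries.coeff_C_mul e (g : RR O) p).symm

end Vale.Agent.P027M.B
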