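import Vale.Agent.P027M.B.AJ

/-! # P027, route M, block B : places and points of the hyperelliptic function field -/

set_option linter.all false

open Polynomial Vale.Agent.P019P P025H492 IntermediateField

noncomputable section

namespace Vale.Agent.P027M.B

namespace PtsAux

section alg

variable {k L : Type*} [Field k] [Field L] [Algebra k L] {F : k[X]} {m w : L}

theorem inj (h : Hyp F m w) : Function.Injective (aeval m : k[X] →ₐ[k] L) :=
  transcendental_iff_injective.1 h.tr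

theorem ne0 (h : Hyp F m w) {c : k[X]} (hc : c ≠ 0) : aeval m c ≠ 0 :=
  (map_ne_zero_iff _ (inj h)).2 hc

theorem F0 (h : Hyp F m w) : F ≠ 0 := fun e => by
  have := h.deg
  rw [e, natDegree_zero] at this
  omega

theorem w0 (h : Hyp F m w) : w ≠ 0 := fun e => ne0 h (F0 h) (by rw [← h.sq, e]; ring)

theorem nc (h : Hyp F m w) (a : k) : m ≠ algebraMap k L a := fun e =>
  h.tr (e ▸ isAlgebraic_algebraMap a)

theorem indep (h : Hyp F m w) (a b : k[X]) (e : aeval m a + aeval m b * w = 0) : a = 0 ∧ b = 0 := by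
  have h1 : a ^ 2 = b ^ 2 * F := inj h (by
    rw [map_mul, map_pow, map_pow, ← h.sq]
    linear_combination (aeval m a - aeval m b * w) * e)
  have hb : b = 0 := by
    by_contra hb
    have h2 := congrArg natDegree h1
    rw [natDegree_mul (pow_ne_zero _ hb) (F0 h), natDegree_pow, natDegree_pow, h.deg] at h2
    omega
  rw [hb] at h1
  exact ⟨pow_eq_zero_iff two_ne_zero |>.1 (by rw [h1]; ring), hb⟩

theorem ex_io (h : Hyp F m w) (z : L) : ∃ z' : L, ∀ a b c : k[X],
    aeval m c * z = aeval m a + aeval m b * w → aeval m c * z' = aeval m a - aeval m b * w := by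
  obtain ⟨a₀, b₀, c₀, h0, e0⟩ := h.top z
  refine ⟨(aeval m a₀ - aeval m b₀ * w) / aeval m c₀, fun a b c e => ?_⟩
  obtain ⟨h1, h2⟩ := indep h (c₀ * a - c * a₀) (c₀ * b - c * b₀) (by
    simp only [map_sub, map_mul]
    linear_combination aeval m c * e0 - aeval m c₀ * e)
  have h3 := congrArg (aeval m) h1
  have h4 := congrArg (aeval m) h2
  simp only [map_sub, map_mul, map_zero] at h3 h4
  have := ne0 h h0
  field_simp
  linear_combination w * h4 - h3

theorem invol (h : Hyp F m w) : ∃ ι : L ≃ₐ[k] L, ι m = m ∧ ι w = -w := by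
  choose f hf using ex_io h
  have hc : ∀ r : k, f (algebraMap k L r) = algebraMap k L r := fun r => by
    simpa using hf (algebraMap k L r) (C r) 0 1 (by simp)
  have hadd : ∀ x y, f (x + y) = f x + f y := by
    intro x y
    obtain ⟨a, b, c, h0, e⟩ := h.top x
    obtain ⟨a', b', c', h0', e'⟩ := h.top y
    have h1 := hf (x + y) (c' * a + c * a') (c' * b + c * b') (c * c') (by
      simp only [map_add, map_mul]
      linear_combination aeval m c' * e + aeval m c * e')
    refine mul_left_cancel₀ (ne0 h (mul_ne_zero h0 h0')) ?_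
    simp only [map_add, map_mul] at h1 ⊢
    linear_combination h1 - aeval m c' * hf x a b c e - aeval m c * hf y a' b' c' e'
  have hmul : ∀ x y, f (x * y) = f x * f y := by
    intro x y
    obtain ⟨a, b, c, h0, e⟩ := h.top x
    obtain ⟨a', b', c', h0', e'⟩ := h.top y
    have h1 := hf (x * y) (a * a' + b * b' * F) (a * b' + a' * b) (c * c') (by
      simp only [map_add, map_mul, ← h.sq]
      linear_combination (aeval m c' * y) * e + (aeval m a + aeval m b * w) * e')
    refine mul_left_cancel₀ (ne0 h (mul_ne_zero h0 h0')) ?_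
    simp only [map_add, map_mul, ← h.sq] at h1 ⊢
    linear_combination h1 - (aeval m c' * f y) * hf x a b c e -
      (aeval m a - aeval m b * w) * hf y a' b' c' e'
  have hi : Function.Involutive f := by
    intro x
    obtain ⟨a, b, c, h0, e⟩ := h.top x
    have h1 := hf (f x) a (-b) c (by rw [hf x a b c e, map_neg]; ring)
    refine mul_left_cancel₀ (ne0 h h0) ?_
    rw [h1, e, map_neg]
    ring
  let g : L →ₐ[k] L :=
    { toFun := f
      map_one' := by simpa using hc 1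
      map_mul' := hmul
      map_zero' := by simpa using hc 0
      map_add' := hadd
      commutes' := hc }
  refine ⟨AlgEquiv.ofBijective g hi.bijective, ?_, ?_⟩
  · show f m = m
    simpa using hf m X 0 1 (by simp)
  · show f w = -w
    simpa using hf w 0 1 1 (by simp)

theorem rank (h : Hyp F m w) : Module.finrank k⟮m⟯ L ≤ 2 := by
  have h1 : ∀ p : k[X], aeval m p ∈ k⟮m⟯ := fun p =>
    algebra_adjoin_le_adjoin k _ (aeval_mem_adjoin_singleton k m)
  refine (finrank_le_of_span_eq_top (v := ![(1 : L), w]) (eq_top_iff.2 fun z _ => ?_)).trans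
    (by simp)
  obtain ⟨a, b, c, h0, e⟩ := h.top z
  rw [Submodule.mem_span_range_iff_exists_fun]
  refine ⟨![⟨aeval m a / aeval m c, div_mem (h1 a) (h1 c)⟩,
    ⟨aeval m b / aeval m c, div_mem (h1 b) (h1 c)⟩], ?_⟩
  have := ne0 h h0
  rw [Fin.sum_univ_two]
  show aeval m a / aeval m c * 1 + aeval m b / aeval m c * w = z
  field_simp
  exact e.symm

end alg

section gen

variable {k L : Type*} [Field k] [Field L] [Algebra k L] [CFF k L] {P : Plk k L}

theorem cmem (P : Plk k L) (c : k) : algebraMap k L c ∈ Mge P 0 := Or.inr (ord_const P c).ge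

theorem unit {z : L} {c : k} (hc : c ≠ 0) (h : z - algebraMap k L c ∈ Mge P 1) :
    z ≠ 0 ∧ ord P z = 0 := by
  have h1 := ord_add_of_lt (P := P) ((map_ne_zero (algebraMap k L)).2 hc)
    (w := z - algebraMap k L c) (by rwa [ord_const])
  rwa [add_sub_cancel, ord_const] at h1

theorem mul1 {x y : L} {a b : k} (hx : x - algebraMap k L a ∈ Mge P 1)
    (hy : y - algebraMap k L b ∈ Mge P 1) : x * y - algebraMap k L (a * b) ∈ Mge P 1 := by
  have e : x * y - algebraMap k L (a * b) = (x - algebraMap k L a) * y +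
      algebraMap k L a * (y - algebraMap k L b) := by rw [map_mul]; ring
  rw [e]
  exact add_mem (mul_mem_Mge (n := 0) hx (Or.inr (ord_nonneg_of_sub hy)))
    (mul_mem_Mge (m := 0) (cmem P a) hy)

theorem add1 {x y : L} {a b : k} (hx : x - algebraMap k L a ∈ Mge P 1)
    (hy : y - algebraMap k L b ∈ Mge P 1) : x + y - algebraMap k L (a + b) ∈ Mge P 1 := by
  rw [map_add, add_sub_add_comm]
  exact add_mem hx hy

theorem zero1 {x : L} {a : k} (hx : x - algebraMap k L a ∈ Mge P 1) (h : x ∈ Mge P 1) : a = 0 := by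
  have := sub_mem h hx
  rw [sub_sub_cancel] at this
  exact const_notMem this

theorem root_mem {m : L} (hm : 0 ≤ ord P m) {μ : k} {φ : k[X]} (h : X - C μ ∣ φ) :
    aeval m φ ∈ Mge P (ord P (m - algebraMap k L μ)) := by
  obtain ⟨q, rfl⟩ := h
  rw [map_mul, map_sub, aeval_X, aeval_C]
  simpa using mul_mem_Mge (m := ord P (m - algebraMap k L μ)) (Or.inr le_rfl) (aeval_mem_zero hm q)

theorem val1 {m : L} (hm : 0 ≤ ord P m) (φ : k[X]) :
    aeval m φ - algebraMap k L (φ.eval (vl P m)) ∈ Mge P 1 := by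
  obtain ⟨q, hq⟩ := X_sub_C_dvd_sub_C_eval (p := φ) (a := vl P m)
  have h1 := congrArg (aeval m) hq
  rw [map_sub, map_mul, map_sub, aeval_X, aeval_C, aeval_C] at h1
  rw [h1]
  exact mul_mem_Mge (n := 0) (sub_vl_mem hm) (aeval_mem_zero hm q)

theorem ord_aff {m : L} (hx : ∀ a : k, m ≠ algebraMap k L a) (hm : 0 ≤ ord P m) {φ : k[X]}
    (h : φ ≠ 0) : ord P (aeval m φ) =
      φ.rootMultiplicity (vl P m) * ord P (m - algebraMap k L (vl P m)) := by
  obtain ⟨q, hq, h1⟩ := exists_eq_pow_rootMultiplicity_mul_and_not_dvd φ h (vl P m)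
  obtain ⟨h2, h3⟩ := unit (fun e => h1 (dvd_iff_isRoot.2 e)) (val1 hm q)
  conv_lhs => rw [hq]
  rw [map_mul, map_pow, map_sub, aeval_X, aeval_C,
    ord_mul P (pow_ne_zero _ (sub_ne_zero.2 (hx _))) h2, h3, add_zero, ord_pow]

theorem ord_pole {m : L} (hm : ord P m < 0) {φ : k[X]} (h : φ ≠ 0) :
    ord P (aeval m φ) = φ.natDegree * ord P m := by
  have m0 : m ≠ 0 := fun e => by rw [e, ord_zero] at hm; omega
  have c0 : algebraMap k L (φ.coeff φ.natDegree) ≠ 0 :=
    (map_ne_zero (algebraMap k L)).2 (leadingCoeff_ne_zero.2 h)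
  have e : ord P (φ.coeff φ.natDegree • m ^ φ.natDegree) = φ.natDegree * ord P m := by
    rw [Algebra.smul_def, ord_mul P c0 (pow_ne_zero _ m0), ord_const, zero_add, ord_pow]
  rw [aeval_eq_sum_range, ← e]
  refine (ord_sum_of_lt (f := fun i => φ.coeff i • m ^ i) (Finset.self_mem_range_succ _) ?_
    fun j hj hne => ?_).2
  · rw [Algebra.smul_def]
    exact mul_ne_zero c0 (pow_ne_zero _ m0)
  · refine Submodule.smul_mem _ _ (Or.inr ?_)
    have h1 : (j : ℤ) + 1 ≤ φ.natDegree := by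
      have := Finset.mem_range.1 hj
      omega
    rw [e, ord_pow]
    nlinarith

theorem conj_mem (ι : L ≃ₐ[k] L) {z : L} {n : ℤ} (h : z ∈ Mge P n) : ι z ∈ Mge (conj k ι P) n := by
  rcases h with h | h
  · exact Or.inl (by rw [h, map_zero])
  · exact Or.inr (by rwa [ord_conj])

end gen

variable {k L : Type*} [Field k] [Field L] [Algebra k L] [CFF k L] {F : k[X]} {m w : L}

theorem le2 (h : Hyp F m w) (μ : k) (S : Finset (Plk k L))
    (hS : ∀ P ∈ S, 0 < ord P (m - algebraMap k L μ)) :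
    ∑ P ∈ S, ord P (m - algebraMap k L μ) ≤ 2 := by
  have h1 := sum_ord_le (nc_sub (nc h) μ) S hS
  rw [adjoin_sub_eq] at h1
  have := rank h
  omega

theorem le2' (h : Hyp F m w) (S : Finset (Plk k L)) (hS : ∀ P ∈ S, ord P m < 0) :
    ∑ P ∈ S, ord P m⁻¹ ≤ 2 := by
  have h1 := sum_ord_le (nc_inv (nc h)) S fun P hP => by
    have := hS P hP
    rw [ord_inv]; omega
  rw [cDeg_finrank_inv] at h1
  have := rank h
  omega

theorem two_ord (h : Hyp F m w) (P : Plk k L) : 2 * ord P w = ord P (aeval m F) := by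
  rw [← h.sq, ord_pow]; rfl

theorem pole (h : Hyp F m w) {P : Plk k L} (hP : ord P m < 0) : ord P m = -2 ∧ ord P w = -7 := by
  have h1 := le2' h {P} (by simpa using hP)
  have h2 := two_ord h P
  rw [ord_pole hP (F0 h), h.deg] at h2
  rw [Finset.sum_singleton, ord_inv] at h1
  omega

theorem inf (h : Hyp F m w) :
    ∃ P : Plk k L, ord P m = -2 ∧ ord P w = -7 ∧ ∀ Q : Plk k L, ord Q m < 0 → Q = P := by
  classical
  obtain ⟨P, hP⟩ := exists_pole (nc h)
  refine ⟨P, (pole h hP).1, (pole h hP).2, fun Q hQ => by_contra fun hne => ?_⟩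
  have h1 := le2' h {Q, P} (by simp [hP, hQ])
  rw [Finset.sum_pair hne, ord_inv, ord_inv, (pole h hP).1, (pole h hQ).1] at h1
  omega

theorem pt (h : Hyp F m w) (P : Plk k L) (hm : 0 ≤ ord P m) :
    0 ≤ ord P w ∧ vl P w ^ 2 = F.eval (vl P m) := by
  have h1 : 0 ≤ ord P w := by
    have h2 := two_ord h P
    have h3 := (mem_Mge.1 (aeval_mem_zero hm F)).resolve_left (ne0 h (F0 h))
    omega
  refine ⟨h1, ?_⟩
  have h2 := mul1 (sub_vl_mem h1) (sub_vl_mem h1)
  rw [← pow_two, ← pow_two, h.sq] at h2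
  rw [← vl_eq h2, vl_eq (val1 hm F)]

theorem bra (h : Hyp F m w) (P : Plk k L) (hm : 0 ≤ ord P m) (hs : vl P w = 0) :
    ord P (m - algebraMap k L (vl P m)) = 2 ∧ ord P w = 1 := by
  have h0 := ord_sub_vl_pos (nc h) hm
  have h1 := le2 h (vl P m) {P} (by simpa using h0)
  have h2 := two_ord h P
  have h3 : F.rootMultiplicity (vl P m) = 1 := le_antisymm
    (rootMultiplicity_le_one_of_separable h.sep _) ((rootMultiplicity_pos (F0 h)).2 (by
      rw [IsRoot, ← (pt h P hm).2, hs]; ring))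
  rw [ord_aff (nc h) hm (F0 h), h3] at h2
  rw [Finset.sum_singleton] at h1
  omega

/-- the conjugate place -/
theorem cnj (h : Hyp F m w) (P : Plk k L) (hm : 0 ≤ ord P m) : ∃ Q : Plk k L, 0 ≤ ord Q m ∧
    vl Q m = vl P m ∧ vl Q w = -vl P w := by
  obtain ⟨ι, h1, h2⟩ := invol h
  have a1 := conj_mem ι (sub_vl_mem hm)
  have a2 := neg_mem (conj_mem ι (sub_vl_mem (pt h P hm).1))
  rw [map_sub, h1, AlgEquiv.commutes] at a1
  rw [map_sub, h2, AlgEquiv.commutes, neg_sub', neg_neg, ← map_neg] at a2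
  exact ⟨conj k ι P, ord_nonneg_of_sub a1, vl_eq a1, vl_eq a2⟩

theorem neg_ne (h : Hyp F m w) {s : k} (hs : s ≠ 0) : -s ≠ s := fun e =>
  mul_ne_zero h.two hs (by linear_combination -e)

theorem unif (h : Hyp F m w) (P : Plk k L) (hm : 0 ≤ ord P m) (hs : vl P w ≠ 0) :
    ord P (m - algebraMap k L (vl P m)) = 1 := by
  classical
  obtain ⟨Q, q1, q2, q3⟩ := cnj h P hm
  have hne : P ≠ Q := fun e => neg_ne h hs (by rw [← q3, ← e])
  have h0 := ord_sub_vl_pos (nc h) hm
  have h1 := ord_sub_vl_pos (nc h) q1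
  rw [q2] at h1
  have h2 := le2 h (vl P m) {P, Q} (by simp [h0, h1])
  rw [Finset.sum_pair hne] at h2
  omega

theorem injP (h : Hyp F m w) (P Q : Plk k L) (hP : 0 ≤ ord P m) (hQ : 0 ≤ ord Q m)
    (e1 : vl P m = vl Q m) (e2 : vl P w = vl Q w) : P = Q := by
  classical
  by_contra hne
  have p0 := ord_sub_vl_pos (nc h) hP
  have q0 := ord_sub_vl_pos (nc h) hQ
  rw [← e1] at q0
  by_cases hs : vl P w = 0
  · have h2 := le2 h (vl P m) {P, Q} (by simp [p0, q0])
    rw [Finset.sum_pair hne, (bra h P hP hs).1] at h2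
    omega
  · obtain ⟨R, r1, r2, r3⟩ := cnj h P hP
    have r0 := ord_sub_vl_pos (nc h) r1
    rw [r2] at r0
    have n1 : R ≠ P := fun e => neg_ne h hs (by rw [← r3, e])
    have n2 : R ≠ Q := fun e => neg_ne h hs (by rw [← r3, e, e2])
    have h2 := le2 h (vl P m) {R, P, Q} (by simp [p0, q0, r0])
    rw [Finset.sum_insert (by simp [n1, n2]), Finset.sum_pair hne] at h2
    omega

theorem surj (h : Hyp F m w) (μ s : k) (hs : s ^ 2 = F.eval μ) :
    ∃ P : Plk k L, 0 ≤ ord P m ∧ vl P m = μ ∧ vl P w = s := by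
  obtain ⟨P, hP⟩ := exists_zero (nc_sub (nc h) μ)
  have h1 := ord_nonneg_of_sub (mem_Mge_one_of_pos hP)
  have h2 := vl_eq_of_pos hP
  have h3 := (pt h P h1).2
  rw [h2, ← hs] at h3
  rcases sq_eq_sq_iff_eq_or_eq_neg.1 h3 with e | e
  · exact ⟨P, h1, h2, e⟩
  · obtain ⟨Q, q1, q2, q3⟩ := cnj h P h1
    exact ⟨Q, q1, q2.trans h2, by rw [q3, e, neg_neg]⟩

theorem mem_iff (h : Hyp F m w) (P : Plk k L) (hm : 0 ≤ ord P m) (hs : vl P w ≠ 0) (n : ℕ)
    (φ : k[X]) : aeval m φ ∈ Mge P n ↔ (X - C (vl P m)) ^ n ∣ φ := by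
  by_cases h0 : φ = 0
  · simp [h0]
  · rw [mem_Mge, or_iff_right (ne0 h h0), ord_aff (nc h) hm h0, unif h P hm hs, mul_one,
      Nat.cast_le, le_rootMultiplicity_iff h0]

theorem dvd (h : Hyp F m w) (P : Plk k L) (n : ℕ) (V a b : k[X]) (hm : 0 ≤ ord P m)
    (hs : vl P w ≠ 0) (hV : (X - C (vl P m)) ^ n ∣ V ^ 2 - F) (hv : V.eval (vl P m) = vl P w) :
    aeval m a + aeval m b * w ∈ Mge P n ↔ (X - C (vl P m)) ^ n ∣ a + b * V := by
  have h1 := add1 (val1 hm V) (sub_vl_mem (pt h P hm).1)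
  rw [hv, ← two_mul] at h1
  obtain ⟨h2, h3⟩ := unit (mul_ne_zero h.two hs) h1
  have h4 := (mem_iff h P hm hs n _).2 hV
  have e : aeval m (V ^ 2 - F) = (aeval m V + w) * (aeval m V - w) := by
    rw [map_sub, map_pow, ← h.sq]; ring
  rw [e, mul_mem_Mge_iff h2, h3, sub_zero] at h4
  have h5 := mul_mem_Mge (aeval_mem_zero hm b) h4
  rw [zero_add] at h5
  have e2 : aeval m (a + b * V) = aeval m a + aeval m b * w + aeval m b * (aeval m V - w) := by
    rw [map_add, map_mul]; ring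
  rw [← mem_iff h P hm hs, e2, Submodule.add_mem_iff_left _ h5]

theorem both (h : Hyp F m w) {z : L} (hz : ∀ P : Plk k L, 0 ≤ ord P m → 0 ≤ ord P z)
    {a b c : k[X]} (e : aeval m c * z = aeval m a + aeval m b * w) {μ : k} (hc : X - C μ ∣ c) :
    X - C μ ∣ a ∧ X - C μ ∣ b := by
  have := CFF.ac (k := k) (F := L)
  have key : ∀ P : Plk k L, 0 ≤ ord P m → vl P m = μ →
      aeval m a + aeval m b * w ∈ Mge P (ord P (m - algebraMap k L μ)) ∧
        a.eval μ + b.eval μ * vl P w = 0 := by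
    intro P hP hμ
    have h1 := mul_mem_Mge (n := 0) (root_mem hP hc) (Or.inr (hz P hP))
    rw [add_zero, e] at h1
    have h2 := ord_sub_vl_pos (nc h) hP
    have h3 := add1 (val1 hP a) (mul1 (val1 hP b) (sub_vl_mem (pt h P hP).1))
    rw [hμ] at h2 h3
    exact ⟨h1, zero1 h3 (Mge_mono P (by omega) h1)⟩
  obtain ⟨s, hs⟩ := IsAlgClosed.exists_pow_nat_eq (F.eval μ) two_pos
  obtain ⟨P, p1, p2, p3⟩ := surj h μ s hs
  obtain ⟨k1, k2⟩ := key P p1 p2
  rw [dvd_iff_isRoot, dvd_iff_isRoot, IsRoot, IsRoot]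
  by_cases h0 : s = 0
  · rw [p3, h0, mul_zero, add_zero] at k2
    obtain ⟨b1, b2⟩ := bra h P p1 (p3.trans h0)
    have h1 := sub_mem k1 (root_mem p1 (dvd_iff_isRoot.2 k2))
    rw [add_sub_cancel_left, mul_comm, mul_mem_Mge_iff (w0 h), ← p2, b1, b2] at h1
    exact ⟨k2, p2 ▸ zero1 (val1 p1 b) h1⟩
  · obtain ⟨Q, q1, q2, q3⟩ := cnj h P p1
    have k3 := (key Q q1 (q2.trans p2)).2
    rw [q3, p3] at k3
    rw [p3] at k2
    exact ⟨mul_left_cancel₀ h.two (by linear_combination k2 + k3),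
      mul_left_cancel₀ (mul_ne_zero h.two h0) (by linear_combination k2 - k3)⟩

theorem reg (h : Hyp F m w) (z : L) (hz : ∀ P : Plk k L, 0 ≤ ord P m → 0 ≤ ord P z) :
    ∃ a b : k[X], z = aeval m a + aeval m b * w := by
  have := CFF.ac (k := k) (F := L)
  obtain ⟨a, b, c, c0, e⟩ := h.top z
  induction hn : c.natDegree generalizing a b c with
  | zero =>
    obtain ⟨r, rfl⟩ := natDegree_eq_zero.1 hn
    have r0 : algebraMap k L r ≠ 0 := by simpa using c0
    refine ⟨C r⁻¹ * a, C r⁻¹ * b, ?_⟩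
    simp only [map_mul, aeval_C, map_inv₀] at e ⊢
    field_simp
    linear_combination e
  | succ n ih =>
    obtain ⟨μ, hμ⟩ := IsAlgClosed.exists_root c (natDegree_pos_iff_degree_pos.1 (by omega)).ne'
    have h1 := dvd_iff_isRoot.2 hμ
    obtain ⟨⟨a', rfl⟩, ⟨b', rfl⟩⟩ := both h hz e h1
    obtain ⟨c', rfl⟩ := h1
    have c1 : c' ≠ 0 := right_ne_zero_of_mul c0
    refine ih a' b' c' c1 (mul_left_cancel₀ (ne0 h (X_sub_C_ne_zero μ)) ?_) ?_
    · simp only [map_mul] at e
      linear_combination e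
    · rw [natDegree_mul (X_sub_C_ne_zero μ) c1, natDegree_X_sub_C] at hn
      omega

end PtsAux

open PtsAux in
theorem Hyp.pts {k L : Type*} [Field k] [Field L] [Algebra k L] [CFF k L] {F : k[X]} {m w : L}
    (h : Hyp F m w) : Pts F m w :=
  ⟨pt h, injP h, surj h, inf h, unif h, bra h, dvd h, reg h, indep h, invol h⟩

theorem pts : PTS := fun _ _ _ _ _ _ _ _ _ h => h.pts

end Vale.Agent.P027M.B
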