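import Vale.Agent.P027M.B.Defs

/-! # P027, route M, block B1 : the restriction to the leaf -/

set_option linter.all false

open Polynomial NumberField
open scoped PowerSeries

noncomputable section

namespace Vale.Agent.P027M.B

namespace Tay

variable {O : Type} (K : Type) [CommRing O] [Field K] [CharZero K] [Algebra O K]
  (δ : Derivation O (RR O) (RR O))

theorem der (f : RR O) : PowerSeries.derivative K (tay K δ f) = tay K δ (δ f) := by
  ext n
  have : (n + 1 : K) ≠ 0 := Nat.cast_add_one_ne_zero n
  have : (n.factorial : K) ≠ 0 := Nat.cast_ne_zero.2 n.factorial_ne_zero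
  simp only [PowerSeries.coeff_derivative, tay, PowerSeries.coeff_mk, Function.iterate_succ_apply,
    Nat.factorial_succ]
  push_cast
  field_simp

theorem cst (f : RR O) : PowerSeries.constantCoeff (tay K δ f) =
    algebraMap O K (MvPowerSeries.constantCoeff f) := by
  simp [tay, ← PowerSeries.coeff_zero_eq_constantCoeff_apply]

theorem add (f g : RR O) : tay K δ (f + g) = tay K δ f + tay K δ g := by
  ext n
  simp [tay, iterate_map_add, add_div]

theorem zero : tay K δ 0 = 0 := by
  ext n
  simp [tay, iterate_map_zero]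

theorem tC (a : O) : tay K δ (MvPowerSeries.C a) = PowerSeries.C (algebraMap O K a) :=
  PowerSeries.derivative.ext
    (by rw [der, PowerSeries.derivative_C, ← zero K δ]; exact congrArg _ (δ.map_algebraMap a))
    (by simp [cst])

theorem mul (n : ℕ) : ∀ f g : RR O,
    PowerSeries.coeff n (tay K δ (f * g)) = PowerSeries.coeff n (tay K δ f * tay K δ g) := by
  induction n with
  | zero => simp [cst]
  | succ n ih =>
    intro f g
    refine mul_right_cancel₀ (Nat.cast_add_one_ne_zero n) ?_
    rw [← PowerSeries.coeff_derivative, ← PowerSeries.coeff_derivative, der, δ.leibniz,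
      Derivation.leibniz, der, der]
    simp only [smul_eq_mul, add, map_add, ih]

/-- the restriction to the leaf is a ring homomorphism -/
def E : RR O →+* K⟦X⟧ where
  toFun := tay K δ
  map_one' := by simpa using tC K δ 1
  map_mul' f g := PowerSeries.ext fun n => mul K δ n f g
  map_zero' := zero K δ
  map_add' := add K δ

variable (v : Fin 3 → RR O) (M1 : ℕ)

theorem dl_apply (f : RR O) : dl v M1 f =
    MvPowerSeries.pderiv O none f + ∑ k, M1 * v k * MvPowerSeries.pderiv O (some k) f := by
  simp [dl, Fin.sum_univ_three]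

theorem dl_inq (a : ℕ → O) : dl v M1 (inq a) = inq fun n => a (n + 1) * (n + 1) := by
  have h : ∀ k, MvPowerSeries.pderiv O (some k) (inq a) = 0 := fun k => by
    ext e
    rw [MvPowerSeries.coeff_pderiv, MvPowerSeries.coeff_apply, inq, if_neg fun h => by simpa using h k]
    simp
  simp only [dl_apply, h, mul_zero, Finset.sum_const_zero, add_zero]
  ext e
  rw [MvPowerSeries.coeff_pderiv]
  simp [MvPowerSeries.coeff_apply, inq]

theorem t_inq (n : ℕ) : ∀ a : ℕ → O,
    PowerSeries.coeff n (tay K (dl v M1) (inq a)) = algebraMap O K (a n) := by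
  induction n with
  | zero =>
    intro a
    rw [PowerSeries.coeff_zero_eq_constantCoeff_apply, cst]
    simp [← MvPowerSeries.coeff_zero_eq_constantCoeff_apply, MvPowerSeries.coeff_apply, inq]
  | succ n ih =>
    intro a
    refine mul_right_cancel₀ (Nat.cast_add_one_ne_zero n) ?_
    rw [← PowerSeries.coeff_derivative, der, dl_inq, ih]
    simp

theorem dl_mu (m0 : Fin 3 → O) (De : ℕ) (k : Fin 3) :
    dl v M1 (mu0 m0 De k) = De * (M1 * v k) := by
  have h : dl v M1 (MvPowerSeries.X (some k)) = M1 * v k := by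
    rw [dl_apply, Finset.sum_eq_single k (fun l _ e => by simp [e.symm]) (by simp)]
    simp
  rw [mu0, map_add, Derivation.leibniz, h, Derivation.map_natCast,
    show dl v M1 (MvPowerSeries.C (m0 k)) = 0 from (dl v M1).map_algebraMap _]
  simp

end Tay

open Tay in
theorem tay_ok : TAY := by
  intro O K _ _ _ _ F m0 s b Λ M1 hb hs
  have i : ∀ a : ℕ → O, E K (dl Λ.v M1) (inq a) = PowerSeries.mk fun n => algebraMap O K (a n) :=
    fun a => PowerSeries.ext fun n => by rw [PowerSeries.coeff_mk]; exact t_inq K _ _ n a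
  have w0 := fun k => (cst K (dl Λ.v M1) (Λ.w k)).trans (congrArg _ (Λ.w_zero k))
  refine ⟨⟨E K _, fun _ => rfl, i⟩, fun k => by simp [cst, mu0], w0, fun k => ?_, fun j => ?_⟩
  · refine ((E K _).map_pow _ 2).symm.trans ((congrArg _ (Λ.sq k)).trans
      (map_aeval_eq_aeval_map (RingHom.ext fun a => (tC K _ a).symm) F _))
  have d : (Λ.De' : K⟦X⟧) ≠ 0 := fun e => Λ.De'_pos.ne' (by
    simpa using congrArg PowerSeries.constantCoeff e)
  have wi : ∀ k, Λ.De' * (tay K (dl Λ.v M1) (Λ.w k))⁻¹ = E K (dl Λ.v M1) (Λ.wi k) := fun k => by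
    rw [← map_natCast (E K (dl Λ.v M1)), ← Λ.w_wi k, map_mul, mul_right_comm]
    exact (congrArg (· * _) (PowerSeries.mul_inv_cancel _ (w0 k ▸ hs k))).trans (one_mul _)
  have o := congrArg (E K (dl Λ.v M1)) (Λ.ode j)
  simp only [map_sum, map_mul, map_pow, map_natCast, i] at o
  have r : (PowerSeries.mk fun n => (Λ.M0 * M1 : ℕ) * algebraMap O K (b j n)) = (Λ.M0 * M1 : K⟦X⟧) *
      (PowerSeries.X * PowerSeries.mk fun n => algebraMap O K (b j (n + 1))) := by
    rw [← Nat.cast_mul, ← map_natCast (PowerSeries.C (R := K))]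
    ext n
    rw [PowerSeries.coeff_C_mul]
    rcases n with _ | n <;> simp [hb, PowerSeries.coeff_succ_X_mul]
  refine mul_left_cancel₀ d ?_
  rw [r, Finset.mul_sum]
  refine (Finset.sum_congr rfl fun k _ => ?_).trans ((Finset.mul_sum _ _ _).symm.trans
    ((congrArg (PowerSeries.X * (M1 : K⟦X⟧) * ·) o).trans (by ring)))
  rw [mul_left_comm, wi, th, der, dl_mu]
  show _ * (_ * E K _ _) * _ = _ * (_ * tay K _ _ ^ _ * _ * _)
  simp only [map_mul, map_natCast]
  ring

end Vale.Agent.P027M.B
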