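import Vale.Agent.P027M.B.Defs

/-! # P027, route M, block B1 : the Cartier congruence for the three forms -/

set_option linter.all false

open Polynomial NumberField
open scoped PowerSeries

noncomputable section

namespace Vale.Agent.P027M.B

namespace CcAux

/-- the square root of `-1` -/
abbrev I0 : GaussianInt := Zsqrtd.sqrtd

/-- the Frobenius congruence in terms of the power of the square root of `-1` -/
lemma frob0 {p : ℕ} (hp : p.Prime) (z : GaussianInt) :
    (p : GaussianInt) ∣ z ^ p - (z.re + I0 ^ p * z.im) := by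
  have hz : z = z.re + I0 * z.im := Zsqrtd.decompose
  obtain ⟨r, hr⟩ := exists_add_pow_prime_eq hp (z.re : GaussianInt) (I0 * z.im)
  rw [← hz] at hr
  obtain ⟨a, ha⟩ := Int.prime_dvd_pow_self_sub hp z.re
  obtain ⟨b, hb⟩ := Int.prime_dvd_pow_self_sub hp z.im
  have ha' : (z.re : GaussianInt) ^ p - z.re = p * a := by exact_mod_cast ha
  have hb' : (z.im : GaussianInt) ^ p - z.im = p * b := by exact_mod_cast hb
  refine ⟨a + I0 ^ p * b + z.re * (I0 * z.im) * r, ?_⟩
  rw [hr, mul_pow]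
  linear_combination ha' + I0 ^ p * hb'

lemma s4 : (I0 : GaussianInt) ^ 4 = 1 := by decide

lemma frob1 {p : ℕ} (hp : p.Prime) (h : p % 4 = 1) (z : GaussianInt) :
    (p : GaussianInt) ∣ z ^ p - z := by
  have h1 := frob0 hp z
  rw [pow_eq_pow_mod p s4, h, pow_one] at h1
  have hz : z = z.re + I0 * z.im := Zsqrtd.decompose
  rwa [← hz] at h1

lemma frob3 {p : ℕ} (hp : p.Prime) (h : p % 4 = 3) (z : GaussianInt) :
    (p : GaussianInt) ∣ z ^ p - star z := by
  have h1 := frob0 hp z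
  have e : (I0 : GaussianInt) ^ 3 = -I0 := by decide
  rw [pow_eq_pow_mod p s4, h, e] at h1
  have hz : star z = z.re + -I0 * z.im := by ext <;> simp
  rwa [← hz] at h1

lemma dvd_star {p : ℕ} {z : GaussianInt} (h : (p : GaussianInt) ∣ z) :
    (p : GaussianInt) ∣ star z := by
  obtain ⟨u, hu⟩ := h
  exact ⟨star u, by rw [hu, star_mul', star_natCast]⟩

end CcAux

open CcAux in
theorem ccg : CCG := by
  rintro F S l0 l1 l2 c ⟨B1, hB1, h1⟩ ⟨B2, hB2, h2⟩
  refine ⟨2 * B1 * B2, by positivity, fun p hp hpB j n => ?_⟩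
  have hp2 : ¬ p ∣ 2 := fun h => hpB ((h.mul_right B1).mul_right B2)
  have hp1 : ¬ p ∣ B1 := fun h => hpB ((h.mul_left 2).mul_right B2)
  have hp3 : ¬ p ∣ B2 := fun h => hpB (h.mul_left _)
  have hodd : p % 2 = 1 := by
    rcases hp.eq_two_or_odd with h | h
    · exact absurd (h ▸ dvd_rfl) hp2
    · exact h
  obtain ⟨hA, hC⟩ := h1 p hp hp1 j
  have hH := h2 p hp hp3 n
  have hH' := dvd_star hH
  have hp0 : p ≠ 0 := hp.ne_zero
  have hmod : (n * p) % 4 = (n % 4) * (p % 4) % 4 := Nat.mul_mod _ _ _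
  rw [Fin.sum_univ_three]
  have hn : n % 4 = 1 ∨ n % 4 = 3 ∨ n % 4 = 0 ∨ n % 4 = 2 := by omega
  have hp4 : p % 4 = 1 ∨ p % 4 = 3 := by omega
  rcases hp4 with h4 | h4
  · obtain ⟨⟨u1, hu1⟩, ⟨u2, hu2⟩⟩ := hA h4
    rcases hn with hn | hn | hn | hn
    · rw [hn, h4] at hmod
      obtain ⟨v, hv⟩ := hH
      obtain ⟨a, ha⟩ := frob1 hp h4 (l0 * c n)
      obtain ⟨b, hb⟩ := frob1 hp h4 (l2 * c n)
      simp only [B.hb, hmod, hn, h4] at hv ⊢
      simp [hp0] at hv ⊢
      refine ⟨![l0, 0, l2] j * v - c n * u1 - cm F p j 0 * a - cm F p j 2 * b, ?_⟩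
      linear_combination ![l0, 0, l2] j * hv - c n * hu1 - cm F p j 0 * ha - cm F p j 2 * hb
    · rw [hn, h4] at hmod
      obtain ⟨v, hv⟩ := hH'
      obtain ⟨a, ha⟩ := frob1 hp h4 (l1 * star (c n))
      simp only [B.hb, hmod, hn, h4] at hv ⊢
      simp [hp0] at hv ⊢
      refine ⟨![0, l1, 0] j * v - star (c n) * u2 - cm F p j 1 * a, ?_⟩
      linear_combination ![0, l1, 0] j * hv - star (c n) * hu2 - cm F p j 1 * ha
    · rw [hn, h4] at hmod
      simp only [B.hb, hmod, hn]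
      simp [hp0]
    · rw [hn, h4] at hmod
      simp only [B.hb, hmod, hn]
      simp [hp0]
  · obtain ⟨⟨u1, hu1⟩, ⟨u2, hu2⟩⟩ := hC h4
    rcases hn with hn | hn | hn | hn
    · rw [hn, h4] at hmod
      obtain ⟨v, hv⟩ := hH'
      obtain ⟨a, ha⟩ := frob3 hp h4 (l0 * c n)
      obtain ⟨b, hb⟩ := frob3 hp h4 (l2 * c n)
      rw [star_mul'] at ha hb
      simp only [B.hb, hmod, hn, h4] at hv ⊢
      simp [hp0] at hv ⊢
      refine ⟨![0, l1, 0] j * v - star (c n) * u1 - cm F p j 0 * a - cm F p j 2 * b, ?_⟩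
      linear_combination ![0, l1, 0] j * hv - star (c n) * hu1 - cm F p j 0 * ha - cm F p j 2 * hb
    · rw [hn, h4] at hmod
      obtain ⟨v, hv⟩ := hH
      obtain ⟨a, ha⟩ := frob3 hp h4 (l1 * star (c n))
      rw [star_mul', star_star] at ha
      simp only [B.hb, hmod, hn, h4] at hv ⊢
      simp [hp0] at hv ⊢
      refine ⟨![l0, 0, l2] j * v - c n * u2 - cm F p j 1 * a, ?_⟩
      linear_combination ![l0, 0, l2] j * hv - c n * hu2 - cm F p j 1 * ha
    · rw [hn, h4] at hmod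
      simp only [B.hb, hmod, hn]
      simp [hp0]
    · rw [hn, h4] at hmod
      simp only [B.hb, hmod, hn]
      simp [hp0]

theorem ccmap : CCMAP := by
  rintro O O' _ _ φ F b ⟨B, hB, h⟩
  refine ⟨B, hB, fun p hp hpB j n => ?_⟩
  have h1 := map_dvd φ (h p hp hpB j n)
  have hcm : ∀ i : ℕ, cm (F.map φ) p j i = φ (cm F p j i) := by
    intro i
    unfold cm
    rw [← Polynomial.coeff_map, Polynomial.map_mul, Polynomial.map_pow, Polynomial.map_pow,
      Polynomial.map_X]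
  simp only [hcm]
  simpa only [map_natCast, map_sub, map_sum, map_mul, map_pow] using h1

end Vale.Agent.P027M.B
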