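import Vale.Agent.P027M.B.Defs

/-! # P027, route M, block B1 : uniqueness of the formal solution -/

open Polynomial
open scoped PowerSeries

noncomputable section

namespace Vale.Agent.P027M.B

namespace Uniq

variable {L : Type} [Field L]

theorem coeff_th (f : L⟦X⟧) (n : ℕ) : PowerSeries.coeff n (th f) = n * PowerSeries.coeff n f := by
  unfold th
  cases n with
  | zero => simp
  | succ n =>
    rw [PowerSeries.coeff_succ_X_mul, PowerSeries.coeff_derivative]
    push_cast
    ring

theorem th_sub (f g : L⟦X⟧) : th (f - g) = th f - th g := by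
  unfold th
  rw [map_sub, mul_sub]

theorem coeff_mul_of_dvd {f : L⟦X⟧} {n : ℕ} (h : PowerSeries.X ^ n ∣ f) (A : L⟦X⟧) :
    PowerSeries.coeff n (A * f) = PowerSeries.constantCoeff A * PowerSeries.coeff n f := by
  obtain ⟨g, rfl⟩ := h
  have e : ∀ u : L⟦X⟧, PowerSeries.coeff n (PowerSeries.X ^ n * u) =
      PowerSeries.constantCoeff u := fun u => by
    have := PowerSeries.coeff_X_pow_mul u n 0
    rwa [zero_add, PowerSeries.coeff_zero_eq_constantCoeff_apply] at this
  rw [mul_left_comm, e, e, map_mul]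

theorem dvd_w [CharZero L] {F : L[X]} {s : L} (hs : s ≠ 0) {m w m' w' : L⟦X⟧}
    (h1 : PowerSeries.constantCoeff w = s) (h2 : PowerSeries.constantCoeff w' = s)
    (e1 : w ^ 2 = aeval m F) (e2 : w' ^ 2 = aeval m' F) : m - m' ∣ w - w' := by
  have h3 : m - m' ∣ w ^ 2 - w' ^ 2 := by
    rw [e1, e2, ← eval_map_algebraMap, ← eval_map_algebraMap]
    exact sub_dvd_eval_sub _ _ _
  have h4 : PowerSeries.constantCoeff (w + w') ≠ 0 := by
    rw [map_add, h1, h2, ← two_mul]
    exact mul_ne_zero two_ne_zero hs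
  have h5 : w - w' = (w ^ 2 - w' ^ 2) * (w + w')⁻¹ := by
    have := PowerSeries.mul_inv_cancel _ h4
    linear_combination (w' - w) * this
  rw [h5]
  exact h3.mul_right _

end Uniq

open Uniq in
theorem uniq : UNIQ := by
  intro L _ _ F m0 s h m w m' w' hm hs S S'
  have hw : ∀ k, m k - m' k ∣ w k - w' k := fun k =>
    dvd_w (hs k) (S.w_zero k) (S'.w_zero k) (S.sq k) (S'.sq k)
  have key : ∀ n : ℕ, ∀ k, PowerSeries.X ^ n ∣ m k - m' k := by
    intro n
    induction n with
    | zero => intro k; rw [pow_zero]; exact one_dvd _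
    | succ n ih =>
      have step : ∀ k, PowerSeries.coeff n (m k - m' k) = 0 := by
        rcases Nat.eq_zero_or_pos n with rfl | hn
        · intro k
          rw [PowerSeries.coeff_zero_eq_constantCoeff_apply, map_sub, S.m_zero, S'.m_zero, sub_self]
        have hv : (fun k => (s k)⁻¹ * (n * PowerSeries.coeff n (m k - m' k))) = 0 := by
          refine Matrix.eq_zero_of_forall_pow_sum_mul_pow_eq_zero hm fun j => ?_
          have e0 : ∑ k, (m k ^ (j : ℕ) * th (m k) * (w k)⁻¹ -
              m' k ^ (j : ℕ) * th (m' k) * (w' k)⁻¹) = 0 := by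
            rw [Finset.sum_sub_distrib, S.ode, S'.ode, sub_self]
          have e1 := congrArg (PowerSeries.coeff n) e0
          rw [map_sum, map_zero] at e1
          rw [← e1]
          refine Finset.sum_congr rfl fun k _ => ?_
          have c1 : PowerSeries.constantCoeff (w k) ≠ 0 := by rw [S.w_zero]; exact hs k
          have c2 : PowerSeries.constantCoeff (w' k) ≠ 0 := by rw [S'.w_zero]; exact hs k
          have i1 := PowerSeries.mul_inv_cancel _ c1
          have i2 := PowerSeries.mul_inv_cancel _ c2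
          have d1 : PowerSeries.X ^ n ∣ m k ^ (j : ℕ) * (w k)⁻¹ - m' k ^ (j : ℕ) * (w' k)⁻¹ := by
            have e2 : m k ^ (j : ℕ) * (w k)⁻¹ - m' k ^ (j : ℕ) * (w' k)⁻¹ =
                (m k ^ (j : ℕ) - m' k ^ (j : ℕ)) * (w k)⁻¹ -
                  (w k - w' k) * (m' k ^ (j : ℕ) * (w k)⁻¹ * (w' k)⁻¹) := by
              linear_combination (m' k ^ (j : ℕ) * (w' k)⁻¹) * i1 - (m' k ^ (j : ℕ) * (w k)⁻¹) * i2
            rw [e2]
            exact (((ih k).trans (sub_dvd_pow_sub_pow _ _ _)).mul_right _).sub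
              (((ih k).trans (hw k)).mul_right _)
          have d2 : PowerSeries.X ^ (n + 1) ∣
              (m k ^ (j : ℕ) * (w k)⁻¹ - m' k ^ (j : ℕ) * (w' k)⁻¹) * th (m k) := by
            rw [pow_succ]
            exact mul_dvd_mul d1 (Dvd.intro _ rfl)
          have d3 : PowerSeries.X ^ n ∣ th (m k - m' k) := by
            refine PowerSeries.X_pow_dvd_iff.2 fun i hi => ?_
            rw [coeff_th, PowerSeries.X_pow_dvd_iff.1 (ih k) i hi, mul_zero]
          have e3 : m k ^ (j : ℕ) * th (m k) * (w k)⁻¹ - m' k ^ (j : ℕ) * th (m' k) * (w' k)⁻¹ =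
              (m k ^ (j : ℕ) * (w k)⁻¹ - m' k ^ (j : ℕ) * (w' k)⁻¹) * th (m k) +
                m' k ^ (j : ℕ) * (w' k)⁻¹ * th (m k - m' k) := by
            rw [th_sub]; ring
          rw [e3, map_add, PowerSeries.X_pow_dvd_iff.1 d2 n (Nat.lt_succ_self n), zero_add,
            coeff_mul_of_dvd d3, coeff_th, map_mul, map_pow, PowerSeries.constantCoeff_inv,
            S'.m_zero, S'.w_zero]
          ring
        intro k
        have h1 : (s k)⁻¹ * (n * PowerSeries.coeff n (m k - m' k)) = 0 := congrFun hv k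
        have h2 : (n : L) ≠ 0 := Nat.cast_ne_zero.2 hn.ne'
        exact (mul_eq_zero.1 ((mul_eq_zero.1 h1).resolve_left (inv_ne_zero (hs k)))).resolve_left h2
      intro k
      refine PowerSeries.X_pow_dvd_iff.2 fun i hi => ?_
      rcases (Nat.lt_succ_iff.1 hi).lt_or_eq with h1 | rfl
      · exact PowerSeries.X_pow_dvd_iff.1 (ih k) i h1
      · exact step k
  have e : ∀ k, m k - m' k = 0 := fun k => PowerSeries.ext fun n => by
    rw [PowerSeries.X_pow_dvd_iff.1 (key (n + 1) k) n (Nat.lt_succ_self n), map_zero]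
  refine ⟨funext fun k => sub_eq_zero.1 (e k), funext fun k => sub_eq_zero.1 ?_⟩
  have := hw k
  rwa [e k, zero_dvd_iff] at this

end Vale.Agent.P027M.B
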