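import Vale.Agent.P027M.B.Hol
import Vale.Agent.P027M.B.Uniq
import Vale.Agent.P027M.B.Cc

/-! # P027, route M, row B1.top : the leaf is algebraic -/

set_option linter.all false

open Polynomial NumberField
open scoped PowerSeries

noncomputable section

namespace Vale.Agent.P027M.B

namespace Top

theorem sol_map {L L' : Type} [Field L] [Field L'] (σ : L →+* L') {F : L[X]} {m0 s : Fin 3 → L}
    {h m w : Fin 3 → L⟦X⟧} (H : Sol F m0 s h m w) (hs : ∀ k, s k ≠ 0) :
    Sol (F.map σ) (fun k => σ (m0 k)) (fun k => σ (s k)) (fun j => (h j).map σ)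
      (fun k => (m k).map σ) (fun k => (w k).map σ) := by
  have hc : ∀ f : L⟦X⟧, PowerSeries.constantCoeff (f.map σ) = σ (PowerSeries.constantCoeff f) :=
    fun f => by
      rw [← PowerSeries.coeff_zero_eq_constantCoeff_apply, PowerSeries.coeff_map,
        PowerSeries.coeff_zero_eq_constantCoeff_apply]
  refine ⟨fun k => by rw [hc, H.m_zero], fun k => by rw [hc, H.w_zero], fun k => ?_, fun j => ?_⟩
  · rw [← map_pow, H.sq]
    refine map_aeval_eq_aeval_map ?_ F (m k)
    ext a : 1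
    simp [PowerSeries.algebraMap_apply]
  · rw [← H.ode j, map_sum]
    refine Finset.sum_congr rfl fun k _ => ?_
    have h0 : PowerSeries.constantCoeff (w k) ≠ 0 := by rw [H.w_zero]; exact hs k
    have e1 : th ((m k).map σ) = (th (m k)).map σ := by
      ext n
      rw [Uniq.coeff_th, PowerSeries.coeff_map, PowerSeries.coeff_map, Uniq.coeff_th, map_mul,
        map_natCast]
    have e2 : ((w k).map σ)⁻¹ = ((w k)⁻¹).map σ := by
      symm
      rw [PowerSeries.eq_inv_iff_mul_eq_one (by rw [hc]; exact (map_ne_zero σ).2 h0), ← map_mul,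
        PowerSeries.inv_mul_cancel _ h0, map_one]
    rw [e1, e2, map_mul, map_mul, map_pow]

/-- the relation forced by a constant point -/
theorem rel {L : Type} [Field L] {F : L[X]} {m0 s : Fin 3 → L} {h ν ω : Fin 3 → L⟦X⟧}
    (H : Sol F m0 s h ν ω) {k : Fin 3} (hk : ν k = PowerSeries.C (m0 k)) {n : ℕ}
    (hn : ∀ j, PowerSeries.X ^ n ∣ h j) : ∃ a b : Fin 3, a ≠ b ∧
      PowerSeries.coeff n (h 2) - (m0 a + m0 b) * PowerSeries.coeff n (h 1) +
        m0 a * m0 b * PowerSeries.coeff n (h 0) = 0 := by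
  obtain ⟨a, b, hab, hsum⟩ : ∃ a b : Fin 3, a ≠ b ∧
      ∀ f : Fin 3 → L⟦X⟧, ∑ l, f l = f k + f a + f b := by
    fin_cases k
    · exact ⟨1, 2, by decide, fun f => by simp [Fin.sum_univ_three]⟩
    · exact ⟨0, 2, by decide, fun f => by simp [Fin.sum_univ_three]; ring⟩
    · exact ⟨0, 1, by decide, fun f => by simp [Fin.sum_univ_three]; ring⟩
  have h0 : th (ν k) = 0 := by
    rw [hk, th, PowerSeries.derivative_C, mul_zero]
  have e0 := H.ode 0
  have e1 := H.ode 1
  have e2 := H.ode 2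
  rw [hsum, h0] at e0 e1 e2
  simp only [Fin.val_zero, Fin.val_one, Fin.val_two] at e0 e1 e2
  have e : h 2 - (ν a + ν b) * h 1 + ν a * ν b * h 0 = 0 := by
    rw [← e0, ← e1, ← e2]
    ring
  have := congrArg (PowerSeries.coeff n) e
  rw [map_add, map_sub, Uniq.coeff_mul_of_dvd (hn 1), Uniq.coeff_mul_of_dvd (hn 0), map_add,
    map_mul, H.m_zero, H.m_zero, map_zero] at this
  exact ⟨a, b, hab, this⟩

theorem avoid {O : Type*} [CommRing O] [IsDomain O] [CharZero O] {p : O[X]} (hp : p ≠ 0) :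
    ∃ t : ℤ, p.eval (t : O) ≠ 0 := by
  by_contra h
  push Not at h
  exact hp (eq_zero_of_infinite_isRoot p
    (Set.infinite_of_injective_forall_mem (f := fun t : ℤ => (t : O)) Int.cast_injective h))

/-- generic base points -/
theorem choose {O : Type*} [CommRing O] [IsDomain O] [CharZero O] {F : O[X]} (hF : F ≠ 0)
    {b0 b1 b2 : O} (hb : b0 ≠ 0 ∨ b1 ≠ 0 ∨ b2 ≠ 0) : ∃ m0 : Fin 3 → ℤ, Function.Injective m0 ∧
      (∀ k, F.eval (m0 k : O) ≠ 0) ∧ ∀ a b, a ≠ b →
        b2 - ((m0 a : O) + m0 b) * b1 + (m0 a : O) * m0 b * b0 ≠ 0 := by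
  let P : O → O[X] := fun s => C (s * b0 - b1) * X + C (b2 - s * b1)
  have hP : ∀ s t, (P s).eval t = b2 - (s + t) * b1 + s * t * b0 := fun s t => by
    simp only [P, eval_add, eval_mul, eval_C, eval_X]
    ring
  obtain ⟨G, hG, hGP⟩ : ∃ G : O[X], G ≠ 0 ∧ ∀ s, G.eval s ≠ 0 → P s ≠ 0 := by
    have key : ∀ s, P s = 0 → s * b0 - b1 = 0 ∧ b2 - s * b1 = 0 := by
      intro s h
      have h0 := hP s 0
      have h1 := hP s 1
      rw [h, eval_zero] at h0 h1
      exact ⟨by linear_combination h0 - h1, by linear_combination -h0⟩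
    by_cases h0 : b0 = 0
    · refine ⟨1, one_ne_zero, fun s _ h => ?_⟩
      obtain ⟨h1, h2⟩ := key s h
      have h3 : b1 = 0 := by rw [h0] at h1; linear_combination -h1
      have h4 : b2 = 0 := by rw [h3] at h2; linear_combination h2
      rcases hb with h | h | h
      exacts [h h0, h h3, h h4]
    · refine ⟨C b0 * X - C b1, fun h => h0 ?_, fun s hs h => hs ?_⟩
      · simpa using congrArg (fun p => p.coeff 1) h
      · simp only [eval_sub, eval_mul, eval_C, eval_X]
        linear_combination (key s h).1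
  obtain ⟨s0, h0⟩ := avoid (mul_ne_zero hF hG)
  rw [eval_mul, mul_ne_zero_iff] at h0
  obtain ⟨s1, h1⟩ := avoid (mul_ne_zero (mul_ne_zero hF hG)
    (mul_ne_zero (hGP _ h0.2) (X_sub_C_ne_zero (s0 : O))))
  simp only [eval_mul, mul_ne_zero_iff, hP, eval_sub, eval_X, eval_C] at h1
  obtain ⟨s2, h2⟩ := avoid (mul_ne_zero (mul_ne_zero hF (mul_ne_zero (hGP _ h0.2) (hGP _ h1.1.2)))
    (mul_ne_zero (X_sub_C_ne_zero (s0 : O)) (X_sub_C_ne_zero (s1 : O))))
  simp only [eval_mul, mul_ne_zero_iff, hP, eval_sub, eval_X, eval_C] at h2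
  have n10 : s1 ≠ s0 := fun h => h1.2.2 (by rw [h, sub_self])
  have n20 : s2 ≠ s0 := fun h => h2.2.1 (by rw [h, sub_self])
  have n21 : s2 ≠ s1 := fun h => h2.2.2 (by rw [h, sub_self])
  have sy : ∀ s t : O, b2 - (s + t) * b1 + s * t * b0 ≠ 0 → b2 - (t + s) * b1 + t * s * b0 ≠ 0 :=
    fun s t h => by rwa [add_comm t, mul_comm t]
  refine ⟨![s0, s1, s2], ?_, ?_, ?_⟩
  · intro a b h
    fin_cases a <;> fin_cases b <;> simp_all
  · intro k
    fin_cases k
    exacts [h0.1, h1.1.1, h2.1.1]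
  · intro a b h
    fin_cases a <;> fin_cases b
    exacts [(h rfl).elim, h1.2.1, h2.1.2.1, sy _ _ h1.2.1, (h rfl).elim, h2.1.2.2, sy _ _ h2.1.2.1,
      sy _ _ h2.1.2.2, (h rfl).elim]

/-- a non-constant series is transcendental -/
theorem transc {L : Type*} [Field L] {x : L⟦X⟧} {n : ℕ} (hn : n ≠ 0)
    (hx : PowerSeries.coeff n x ≠ 0) {p : L[X]} (hp : p ≠ 0) : aeval x p ≠ 0 := by
  obtain ⟨q, hq, hd⟩ := exists_eq_pow_rootMultiplicity_mul_and_not_dvd p hp
    (PowerSeries.constantCoeff x)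
  rw [hq, map_mul, map_pow]
  refine mul_ne_zero (pow_ne_zero _ fun h => hx ?_) fun h => hd ?_
  · rw [map_sub, aeval_X, aeval_C, sub_eq_zero] at h
    rw [h, PowerSeries.algebraMap_apply, PowerSeries.coeff_C, if_neg hn]
  · rw [dvd_iff_isRoot, IsRoot.def]
    have e : PowerSeries.constantCoeff (aeval x q) = q.eval (PowerSeries.constantCoeff x) := by
      rw [map_aeval_eq_aeval_map (φ := RingHom.id L) (ψ := PowerSeries.constantCoeff) ?_ q x]
      · simp
      · ext a
        simp [PowerSeries.algebraMap_apply]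
    rw [← e, h, map_zero]

theorem alg_of {L : Type*} [Field L] {x y : L⟦X⟧} {n : ℕ} (hn : n ≠ 0)
    (hx : PowerSeries.coeff n x ≠ 0) {P : L[X][X]} (hP : P ≠ 0)
    (h : P.eval₂ (aeval x : L[X] →ₐ[L] L⟦X⟧) y = 0) : IsAlgebraic (Algebra.adjoin L {x}) y := by
  let ψ : L[X] →ₐ[L] Algebra.adjoin L {x} :=
    aeval (⟨x, Algebra.self_mem_adjoin_singleton L x⟩ : Algebra.adjoin L {x})
  have hψ : (algebraMap (Algebra.adjoin L {x}) L⟦X⟧).comp (ψ : L[X] →+* _) =
      (aeval x : L[X] →ₐ[L] L⟦X⟧) := by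
    ext a : 2
    · simp [ψ]
    · simp [ψ]
  have hi : Function.Injective (ψ : L[X] →+* Algebra.adjoin L {x}) := by
    rw [injective_iff_map_eq_zero]
    intro p hp
    by_contra h0
    apply transc hn hx h0
    have := RingHom.congr_fun hψ p
    rw [RingHom.comp_apply, hp, map_zero] at this
    exact this.symm
  refine ⟨P.map (ψ : L[X] →+* _), (Polynomial.map_ne_zero_iff hi).2 hP, ?_⟩
  rw [aeval_def, eval₂_map, hψ]
  exact h

theorem alg_root {A B : Type*} [CommRing A] [IsDomain A] [CommRing B] [IsDomain B] [Algebra A B]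
    {U : B[X]} (hU : U.Monic) (hc : ∀ i, IsAlgebraic A (U.coeff i)) {z : B} (hz : U.eval z = 0) :
    IsAlgebraic A z := by
  let S := Subalgebra.algebraicClosure A B
  have h1 : U ∈ lifts (algebraMap S B) := (lifts_iff_coeff_lifts U).2 fun i => ⟨⟨_, hc i⟩, rfl⟩
  obtain ⟨q, hq, -, hm⟩ := lifts_and_degree_eq_and_monic h1 hU
  have h2 : IsIntegral S z := ⟨q, hm, by rw [← eval_map, hq, hz]⟩
  exact h2.trans_isAlgebraic A

theorem coeff_mem {B : Type*} [CommRing B] (T : Subring B) {m : Fin 3 → B} (hm : ∀ k, m k ∈ T)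
    (i : ℕ) : (∏ k, (X - C (m k))).coeff i ∈ T := by
  have e : ∏ k, (X - C (m k)) = (∏ k, (X - C (⟨m k, hm k⟩ : T))).map T.subtype := by
    rw [Polynomial.map_prod]
    simp
  rw [e, coeff_map]
  exact SetLike.coe_mem _

theorem hol_mono {γ : Gam} {r r' : ℝ} {f : ℂ⟦X⟧} (h : IsHol γ r f) (hr : r' ≤ r) : IsHol γ r' f :=
  ⟨Hol.mono h.conv hr, fun τ h0 h1 h2 => h.inv τ h0 (h1.trans_le hr) (h2.trans_le hr)⟩

theorem oo_of {γ : Gam} {r : ℝ} {f : ℂ⟦X⟧} (h : IsHol γ r f) : IsOO γ r f :=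
  ⟨f, PowerSeries.C 1, h, Hol.hol_C γ r 1, by simp, by simp⟩

theorem core (hA : ARITH) (hN : ANA) (hC : CONT) (hL : ALG) (K : Type) [Field K] [NumberField K]
    (F : (𝓞 K)[X]) (b : Fin 3 → ℕ → 𝓞 K) (x : ℤ⟦X⟧) (γ : Gam) (m0 : Fin 3 → ℤ)
    (s : Fin 3 → 𝓞 K) (n0 : ℕ) (hF : F.natDegree = 7) (hb : ∀ j, b j 0 = 0)
    (hn0 : ∀ j, ∀ n < n0, b j n = 0) (hx : ∃ n, n ≠ 0 ∧ PowerSeries.coeff n x ≠ 0)
    (han : AN γ (fun j n => (b j n : K)) x) (hcc : CC F b) (hi : Function.Injective m0)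
    (hs : ∀ k, s k ≠ 0) (hsq : ∀ k, s k ^ 2 = F.eval (m0 k : 𝓞 K))
    (hg : ∀ a c, a ≠ c →
      b 2 n0 - ((m0 a : 𝓞 K) + m0 c) * b 1 n0 + (m0 a : 𝓞 K) * m0 c * b 0 n0 ≠ 0) :
    ∃ (M : ℕ) (m w : Fin 3 → K⟦X⟧), 0 < M ∧
      Sol (F.map (algebraMap (𝓞 K) K)) (fun k => (m0 k : K)) (fun k => (s k : K))
        (fun j => PowerSeries.mk fun n => (M : K) * (b j n : K)) m w ∧
      ∀ k, IsAlgebraic (Algebra.adjoin K {x.map (Int.castRingHom K)}) (m k) := by
  have hc : (0 : ℝ) < 2 * (γ.c : ℝ) ^ 2 := by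
    have : (γ.c : ℝ) ≠ 0 := by exact_mod_cast γ.c_ne
    positivity
  obtain ⟨M, m, w, C0, d, hM, hS, hd, hint⟩ :=
    hA K F m0 s b x (1 / (2 * (γ.c : ℝ) ^ 2)) hF.le hi hs hsq hb hcc (by positivity)
  refine ⟨M, m, w, hM, hS, ?_⟩
  have h1 : Real.exp (-Real.pi / (2 * (γ.c : ℝ) ^ 2)) < 1 := by
    rw [Real.exp_lt_one_iff]
    exact div_neg_of_neg_of_pos (neg_neg_of_pos Real.pi_pos) hc
  obtain ⟨r, hr, hr1⟩ := exists_between h1
  have hr0 : 0 < r := (Real.exp_pos _).trans hr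
  have hs' : ∀ k, (s k : K) ≠ 0 := fun k h => hs k (RingOfIntegers.ext h)
  have hoo : ∀ (σ : K →+* ℂ) (i : ℕ), IsOO γ r (((∏ k, (X - C (m k))).coeff i).map σ) := by
    intro σ i
    let φ : 𝓞 K →+* ℂ := σ.comp (algebraMap (𝓞 K) K)
    have hφ : Function.Injective φ := σ.injective.comp RingOfIntegers.coe_injective
    have hSσ := sol_map σ hS hs'
    let u : Fin 3 → ℂ⟦X⟧ := fun j =>
      PowerSeries.C (M : ℂ) * PowerSeries.mk fun n => σ (b j n) / n
    have hu : ∀ j n, PowerSeries.coeff n (th (u j)) = M * φ (b j n) := by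
      intro j n
      rw [Uniq.coeff_th, PowerSeries.coeff_C_mul, PowerSeries.coeff_mk]
      rcases eq_or_ne n 0 with rfl | hn
      · rw [hb j]; simp
      · have : (n : ℂ) ≠ 0 := by exact_mod_cast hn
        show _ = M * σ (b j n)
        field_simp
    have hu' : (fun j => (PowerSeries.mk fun n => (M : K) * (b j n : K)).map σ) =
        fun j => th (u j) := by
      funext j
      ext n
      rw [hu, PowerSeries.coeff_map, PowerSeries.coeff_mk, map_mul, map_natCast]
      rfl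
    rw [hu'] at hSσ
    have hiσ : Function.Injective fun k => σ (m0 k : K) := fun a c h =>
      hi (Int.cast_injective (α := K) (σ.injective h))
    have hsσ : ∀ k, σ (s k : K) ≠ 0 := fun k => (map_ne_zero σ).2 (hs' k)
    obtain ⟨n, ν, ω, hn, hν, hhol⟩ := hN γ r ((F.map (algebraMap (𝓞 K) K)).map σ)
      (fun k => σ (m0 k : K)) (fun k => σ (s k : K)) u hr0 hr1 hiσ hsσ
      (fun k => by
        have := congrArg φ (hsq k)
        rw [map_pow, ← eval_map_apply, map_intCast] at this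
        rw [Polynomial.map_map, map_intCast]
        exact this)
      (fun j => Hol.hol_mul (Hol.hol_C γ 1 _) (han.2 σ j))
      (fun j => by
        rw [map_mul, ← PowerSeries.coeff_zero_eq_constantCoeff_apply (PowerSeries.mk _),
          PowerSeries.coeff_mk]
        simp)
    obtain ⟨S, hS1, hS2, hS3⟩ := Hol.sub γ r
    have hne : ∀ k, ν k ≠ PowerSeries.C (σ (m0 k : K)) := by
      intro k hk
      obtain ⟨a, c, hac, e⟩ := rel hν hk (n := n0) fun j => by
        rw [PowerSeries.X_pow_dvd_iff]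
        intro l hl
        rw [PowerSeries.coeff_C_mul, hu, hn0 j l hl]
        simp
      simp only [PowerSeries.coeff_C_mul, hu, map_intCast] at e
      apply hg a c hac
      apply hφ
      have h2 : (n : ℂ)⁻¹ * M ≠ 0 :=
        mul_ne_zero (inv_ne_zero (by exact_mod_cast hn.ne')) (by exact_mod_cast hM.ne')
      apply mul_left_cancel₀ h2
      simp only [map_add, map_sub, map_mul, map_intCast, map_zero]
      linear_combination e
    have key := hC S _ _ _ n _ ν ω _ _ hS2 hS3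
      (by rw [Polynomial.map_map, natDegree_map_eq_of_injective hφ, hF]) hn hiσ hsσ
      (fun k => ⟨(hS1 _).2 (oo_of (hhol k).1), (hS1 _).2 (oo_of (hhol k).2)⟩) hne hν hSσ i
    rw [← hS1, ← coeff_map, Polynomial.map_prod]
    simpa using key
  obtain ⟨n, hn, hxn⟩ := hx
  have hxn' : PowerSeries.coeff n (x.map (Int.castRingHom K)) ≠ 0 := by
    rw [PowerSeries.coeff_map]
    simpa using hxn
  intro k
  refine alg_root (U := ∏ k, (X - C (m k))) (monic_prod_of_monic _ _ fun k _ => monic_X_sub_C _)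
    (fun i => ?_) ?_
  · obtain ⟨T, hT⟩ : ∃ T, T = Subring.closure (insert (x.map (Int.castRingHom K)) (Set.range m)) :=
      ⟨_, rfl⟩
    have hxT : x.map (Int.castRingHom K) ∈ T := hT ▸ Subring.subset_closure (Set.mem_insert _ _)
    have hmT : ∀ k, m k ∈ T := fun k =>
      hT ▸ Subring.subset_closure (Set.mem_insert_of_mem _ (Set.mem_range_self k))
    rw [← hT] at hint
    have hyT := coeff_mem T hmT i
    have hxh : ∀ σ : K →+* ℂ, IsHol γ r ((x.map (Int.castRingHom K)).map σ) := fun σ => by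
      have e : (x.map (Int.castRingHom K)).map σ = x.map (Int.castRingHom ℂ) := by
        ext l
        simp
      rw [e]
      exact hol_mono han.1 hr1.le
    have hσ := fun σ => hoo σ i
    generalize (∏ k, (X - C (m k))).coeff i = y at hyT hσ ⊢
    have hab : ∀ a c l : ℕ, IsIntegral ℤ ((d l : K) *
        PowerSeries.coeff l (x.map (Int.castRingHom K) ^ a * y ^ c)) := fun a c l =>
      hint _ (T.mul_mem (T.pow_mem hxT a) (T.pow_mem hyT c)) l
    obtain ⟨P, hP, h0⟩ := hL K γ r C0 d (x.map (Int.castRingHom K)) y hr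
      (fun σ => ⟨hxh σ, hσ σ⟩) hd hab
    exact alg_of hn hxn' hP h0
  · rw [eval_prod]
    exact Finset.prod_eq_zero (Finset.mem_univ k) (by simp)

end Top

open Top in
theorem leafalg (hA : ARITH) (_ : HOL) (hN : ANA) (hC : CONT) (hL : ALG) : LEAFALG := by
  classical
  intro K _ _ F b x γ hF hb hne hx han hcc
  have hex : ∃ n, ∃ j, b j n ≠ 0 := by
    obtain ⟨j, n, h⟩ := hne
    exact ⟨n, j, h⟩
  have hF0 : F ≠ 0 := by
    rintro rfl
    simp at hF
  obtain ⟨m0, hi, hm, hg⟩ := choose hF0 (b0 := b 0 (Nat.find hex)) (b1 := b 1 (Nat.find hex))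
    (b2 := b 2 (Nat.find hex)) (by
      obtain ⟨j, hj⟩ := Nat.find_spec hex
      fin_cases j
      exacts [Or.inl hj, Or.inr (Or.inl hj), Or.inr (Or.inr hj)])
  have hn0 : ∀ j, ∀ n < Nat.find hex, b j n = 0 := fun j n hn => by
    by_contra h
    exact Nat.find_min hex hn ⟨j, h⟩
  choose t ht using fun k => IsAlgClosed.exists_pow_nat_eq
    (algebraMap K (AlgebraicClosure K) (F.eval (m0 k : 𝓞 K) : 𝓞 K)) (n := 2) (by norm_num)
  let K' : IntermediateField K (AlgebraicClosure K) := IntermediateField.adjoin K (Set.range t)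
  haveI : FiniteDimensional K K' :=
    IntermediateField.finiteDimensional_adjoin fun z _ => Algebra.IsIntegral.isIntegral z
  haveI : NumberField K' := NumberField.of_module_finite K K'
  let φ : 𝓞 K →+* 𝓞 K' := RingOfIntegers.mapRingHom (algebraMap K K')
  have hφ : Function.Injective φ := fun a c h =>
    RingOfIntegers.ext ((algebraMap K K').injective (congrArg (fun z : 𝓞 K' => (z : K')) h))
  let t' : Fin 3 → K' := fun k => ⟨t k, IntermediateField.subset_adjoin _ _ ⟨k, rfl⟩⟩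
  have ht' : ∀ k, t' k ^ 2 = (φ (F.eval (m0 k : 𝓞 K)) : 𝓞 K') := fun k => Subtype.ext (ht k)
  let s : Fin 3 → 𝓞 K' := fun k => ⟨t' k, IsIntegral.of_pow (n := 2) (by norm_num)
    (by rw [ht']; exact RingOfIntegers.isIntegral_coe _)⟩
  have hsq : ∀ k, s k ^ 2 = (F.map φ).eval (m0 k : 𝓞 K') := fun k => by
    rw [← map_intCast φ, eval_map_apply]
    exact RingOfIntegers.ext (ht' k)
  have hs : ∀ k, s k ≠ 0 := fun k h => by
    have := hsq k
    rw [h, ← map_intCast φ, eval_map_apply, zero_pow two_ne_zero] at this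
    exact hm k (hφ (by rw [← this, map_zero]))
  obtain ⟨M, m, w, hM, hS, halg⟩ := core hA hN hC hL K' (F.map φ) (fun j n => φ (b j n)) x γ m0 s
    (Nat.find hex) (by rw [natDegree_map_eq_of_injective hφ, hF])
    (fun j => by simp only [hb j, map_zero])
    (fun j n hn => by simp only [hn0 j n hn, map_zero]) hx
    ⟨han.1, fun σ j => han.2 (σ.comp (algebraMap K K')) j⟩ (ccmap _ _ φ F b hcc) hi hs hsq
    (fun a c hac h => hg a c hac (hφ (by
      simp only [map_add, map_sub, map_mul, map_intCast, map_zero]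
      exact h)))
  refine ⟨K', M, fun k => (m0 k : K'), fun k => (s k : K'), m, w, inferInstance, hM,
    fun k h => hs k (RingOfIntegers.ext h), ?_, halg⟩
  rw [Polynomial.map_map] at hS ⊢
  exact hS

end Vale.Agent.P027M.B
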