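import Vale.Agent.P027M.B.Abel
import Vale.Agent.P027M.B.Abel2
import Vale.Agent.P027M.B.Uniq
import Vale.Agent.P027M.B.Leaf
import Vale.Agent.P027M.B.Pc
import Vale.Agent.P027M.B.Bad
import Vale.Agent.P027M.B.Tay
import Vale.Agent.P027M.B.Den
import Vale.Agent.P027M.B.Arith
import Vale.Agent.P027M.B.Hol
import Vale.Agent.P027M.B.An
import Vale.Agent.P027M.B.Cont
import Vale.Agent.P027M.B.Gain
import Vale.Agent.P027M.B.Alg
import Vale.Agent.P027M.B.Top
import Vale.Agent.P027M.B.Corr
import Vale.Agent.P027M.B.Cc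
import Vale.Agent.P027M.B.Pts
import Vale.Agent.P027M.B.Gen3
import Vale.Agent.P027M.B.Abeld

/-! Block B1 assembled: the algebraicity criterion and the divisor facts, unconditionally. -/

namespace Vale.Agent.P027M.B

theorem leafalg_all : LEAFALG :=
  leafalg (arith leaf pc bad tay_ok den) Hol.hol (ana Hol.hol) (cont (abel2 abel) uniq)
    (alg Hol.hol (gain Hol.hol))

theorem b1_all : B1 := b1 leafalg_all

theorem gen3_all : GEN3 := gen3 pts

theorem abeld_all : ABELD := Abeld.abeld pts abel

end Vale.Agent.P027M.B
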