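import Vale.Agent.P027M.B.Defs

/-! # P027, route M, block B1 : tools for the row `B1.cont` -/

open Polynomial
open scoped PowerSeries

noncomputable section

namespace Vale.Agent.P027M.B.Cont

/-- Newton's iteration for a square root modulo powers of `U` -/
theorem newton {A : Type*} [CommRing A] {F U V W : A} (h1 : U ∣ V ^ 2 - F)
    (h2 : U ∣ 2 * V * W - 1) (N : ℕ) : ∃ V', U ^ (N + 1) ∣ V' ^ 2 - F ∧ U ∣ V' - V := by
  induction N with
  | zero => exact ⟨V, by simpa using h1, by simp⟩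
  | succ N ih =>
    obtain ⟨V', ⟨e, he⟩, ⟨f, hf⟩⟩ := ih
    obtain ⟨g, hg⟩ := h2
    refine ⟨V' - U ^ (N + 1) * e * W, ⟨-(e * g) - 2 * e * f * W + U ^ N * e ^ 2 * W ^ 2, ?_⟩,
      ⟨f - U ^ N * e * W, ?_⟩⟩
    · have h3 : V' = V + U * f := by linear_combination hf
      linear_combination he - U ^ (N + 1) * e * hg - 2 * U ^ (N + 1) * e * W * h3
    · linear_combination hf

/-- an inverse modulo `U` gives an inverse modulo the powers of `U` -/
theorem inv_pow_mod {A : Type*} [CommRing A] {U V W : A} (h : U ∣ V * W - 1) (N : ℕ) :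
    ∃ W', U ^ N ∣ V * W' - 1 := by
  obtain ⟨g, hg⟩ := h
  have h1 : IsCoprime V U := ⟨W, -g, by linear_combination hg⟩
  obtain ⟨a, b, hab⟩ := (h1.pow_right (n := N))
  exact ⟨a, -b, by linear_combination hab⟩

/-- a derivation extends to the field of fractions -/
theorem exists_frac {R L : Type*} [CommRing R] [IsDomain R] [Field L] [Algebra R L]
    [IsFractionRing R L] (θ : R →+ R) (hθ : ∀ a b, θ (a * b) = a * θ b + b * θ a) :
    ∃ d : Derivation ℤ L L, ∀ a, d (algebraMap R L a) = algebraMap R L (θ a) := by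
  have h1 : θ 1 = 0 := by simpa using hθ 1 1
  obtain ⟨f, hf0⟩ : ∃ f : R →+* L, f = algebraMap R L := ⟨_, rfl⟩
  let φ : R →+* TrivSqZeroExt L L :=
    { toFun := fun a => (f a, f (θ a))
      map_one' := TrivSqZeroExt.ext (map_one f) (by
        show f (θ 1) = 0
        rw [h1, map_zero])
      map_zero' := TrivSqZeroExt.ext (map_zero f) (by
        show f (θ 0) = 0
        rw [map_zero, map_zero])
      map_add' := fun a b => TrivSqZeroExt.ext (map_add f a b) (by
        show f (θ (a + b)) = f (θ a) + f (θ b)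
        rw [map_add, map_add])
      map_mul' := fun a b => TrivSqZeroExt.ext (map_mul f a b) (by
        show f (θ (a * b)) = f a * f (θ b) + f (θ a) * f b
        rw [hθ, map_add, map_mul, map_mul, mul_comm (f b)]) }
  have hφ : ∀ y : nonZeroDivisors R, IsUnit (φ y) := fun y => by
    rw [TrivSqZeroExt.isUnit_iff_isUnit_fst]
    show IsUnit (f y)
    rw [hf0]
    exact IsLocalization.map_units L y
  obtain ⟨ψ, hψ⟩ : ∃ ψ : L →+* TrivSqZeroExt L L, ∀ a, ψ (algebraMap R L a) = φ a :=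
    ⟨IsLocalization.lift hφ, fun a => IsLocalization.lift_eq hφ a⟩
  have hf : ∀ z, (ψ z).fst = z := by
    have : (TrivSqZeroExt.fstHom ℤ L L : TrivSqZeroExt L L →+* L).comp ψ = RingHom.id L := by
      apply IsLocalization.ringHom_ext (nonZeroDivisors R)
      refine RingHom.ext fun a => ?_
      show (ψ (algebraMap R L a)).fst = algebraMap R L a
      rw [hψ, ← hf0]
      rfl
    exact fun z => RingHom.congr_fun this z
  refine ⟨Derivation.mk' (AddMonoidHom.toIntLinearMap
    { toFun := fun z => (ψ z).snd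
      map_zero' := by rw [map_zero]; rfl
      map_add' := fun a b => by rw [map_add]; rfl }) fun a b => ?_, fun a => ?_⟩
  · show (ψ (a * b)).snd = a * (ψ b).snd + b * (ψ a).snd
    rw [map_mul]
    show (ψ a).fst * (ψ b).snd + (ψ a).snd * (ψ b).fst = _
    rw [hf, hf, mul_comm b]
  · show (ψ (algebraMap R L a)).snd = _
    rw [hψ, ← hf0]
    rfl

/-- Hensel's lemma in a ring of power series -/
theorem hensel {K : Type*} [Field K] (f : K⟦X⟧[X]) (hf : f.Monic) (a : K)
    (h0 : (f.map (PowerSeries.constantCoeff (R := K))).eval a = 0)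
    (h1 : (f.map (PowerSeries.constantCoeff (R := K))).derivative.eval a ≠ 0) :
    ∃ z, f.eval z = 0 ∧ PowerSeries.constantCoeff z = a := by
  have key : ∀ g : K⟦X⟧[X], PowerSeries.constantCoeff (g.eval (PowerSeries.C a)) =
      (g.map (PowerSeries.constantCoeff (R := K))).eval a := fun g => by
    rw [eval_map, ← eval₂_id, hom_eval₂]
    simp
  obtain ⟨z, hz, hz'⟩ := HenselianRing.is_henselian (I := Ideal.span {(PowerSeries.X : K⟦X⟧)})
    f hf (PowerSeries.C a) (by
      rw [Ideal.mem_span_singleton, PowerSeries.X_dvd_iff, key, h0]) (by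
      apply IsUnit.map
      rw [PowerSeries.isUnit_iff_constantCoeff, key, ← derivative_map]
      exact h1.isUnit)
  rw [Ideal.mem_span_singleton, PowerSeries.X_dvd_iff] at hz'
  exact ⟨z, hz, by simpa [sub_eq_zero] using hz'⟩

/-- interpolation at points whose differences are units -/
theorem interp {A ι : Type*} [CommRing A] [Fintype ι] (p y : ι → A)
    (h : ∀ k l, k ≠ l → IsUnit (p k - p l)) : ∃ V : A[X], ∀ k, V.eval (p k) = y k := by
  classical
  have hu : ∀ k, IsUnit (∏ l ∈ Finset.univ.erase k, (p k - p l)) := fun k =>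
    IsUnit.prod_iff.2 fun l hl => h k l (Finset.ne_of_mem_erase hl).symm
  refine ⟨∑ k, C (y k * ↑(hu k).unit⁻¹) * ∏ l ∈ Finset.univ.erase k, (X - C (p l)), fun k => ?_⟩
  rw [eval_finsetSum, Finset.sum_eq_single k]
  · simp [eval_prod, mul_assoc]
  · intro l _ hl
    rw [eval_mul, eval_prod]
    exact mul_eq_zero_of_right _ (Finset.prod_eq_zero (i := k) (by simp [hl.symm]) (by simp))
  · simp

theorem prod_dvd_of_eval {A ι : Type*} [CommRing A] [Fintype ι] (p : ι → A)
    (h : ∀ k l, k ≠ l → IsUnit (p k - p l)) {G : A[X]} (hG : ∀ k, G.eval (p k) = 0) :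
    ∏ k, (X - C (p k)) ∣ G := by
  refine Finset.prod_dvd_of_coprime (fun k _ l _ hkl => ?_) fun k _ => dvd_iff_isRoot.2 (hG k)
  exact isCoprime_X_sub_C_of_isUnit_sub (h k l hkl)

/-- a square root of `F` modulo a power of `∏ (X - p k)` with given values -/
theorem exists_branch {A ι : Type*} [CommRing A] [Fintype ι] (F : A[X]) (p y : ι → A)
    (h : ∀ k l, k ≠ l → IsUnit (p k - p l)) (hy : ∀ k, IsUnit (2 * y k))
    (hF : ∀ k, y k ^ 2 = F.eval (p k)) (N : ℕ) :
    ∃ V W : A[X], (∏ k, (X - C (p k))) ^ (N + 1) ∣ V ^ 2 - F ∧ (∀ k, V.eval (p k) = y k) ∧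
      ∏ k, (X - C (p k)) ∣ 2 * V * W - 1 := by
  obtain ⟨V, hV⟩ := interp p y h
  obtain ⟨W, hW⟩ := interp p (fun k => ↑(hy k).unit⁻¹) h
  have h2 : ∏ k, (X - C (p k)) ∣ 2 * V * W - 1 :=
    prod_dvd_of_eval p h fun k => by simp [hV, hW]
  obtain ⟨V', h3, h4⟩ := newton (F := F) (prod_dvd_of_eval p h fun k => by simp [hV, hF]) h2 N
  refine ⟨V', W, h3, fun k => ?_, ?_⟩
  · obtain ⟨g, hg⟩ := (Finset.dvd_prod_of_mem (fun k => X - C (p k)) (Finset.mem_univ k)).trans h4
    have := congrArg (eval (p k)) hg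
    simpa [sub_eq_zero, hV] using this
  · have : 2 * V' * W - 1 = 2 * V * W - 1 + (V' - V) * (2 * W) := by ring
    rw [this]
    exact h2.add (h4.mul_right _)

open Classical in
/-- `ABEL2` for a family of points with repetitions -/
theorem abel3 (h : ABEL2) {L : Type} [Field L] (d : Derivation ℤ L L) (F : L[X]) {J : Type}
    [Fintype J] (p s : J → L) (α β : J → ℕ) (A B : L[X]) (h2 : (2 : L) ≠ 0)
    (hF : F.natDegree = 7) (hd : ∀ i, d (F.coeff i) = 0) (hs : ∀ j, s j ≠ 0)
    (hsq : ∀ j, s j ^ 2 = F.eval (p j)) (hc : ∀ j j', p j = p j' → s j = s j')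
    (hN : A ^ 2 - B ^ 2 * F = ∏ j, (X - C (p j)) ^ (α j + β j))
    (ho : ∀ j, ∀ V : L[X], V.eval (p j) = s j →
      (X - C (p j)) ^ ((∑ i with p i = p j, α i) + 1) ∣ V ^ 2 - F →
      (X - C (p j)) ^ (∑ i with p i = p j, α i) ∣ A + B * V ∧
        ¬ (X - C (p j)) ^ ((∑ i with p i = p j, α i) + 1) ∣ A + B * V) :
    ∀ i < 3, ∑ j, ((α j : L) - β j) * (p j ^ i * d (p j) / s j) = 0 := by
  intro i hi
  set T : Finset L := Finset.univ.image p with hT
  have hpre : ∀ μ : T, ∃ j, p j = μ := fun μ => by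
    obtain ⟨j, -, hj⟩ := Finset.mem_image.1 μ.2
    exact ⟨j, hj⟩
  choose g hg using hpre
  let a : L → ℕ := fun μ => ∑ j with p j = μ, α j
  let b : L → ℕ := fun μ => ∑ j with p j = μ, β j
  have hV : ∀ μ : T, ∃ V : L[X], (X - C (μ : L)) ^ (a μ + b μ + 1) ∣ V ^ 2 - F ∧
      V.eval (μ : L) = s (g μ) := fun μ => by
    obtain ⟨V, W, h3, h4, -⟩ := exists_branch (ι := Unit) F (fun _ => (μ : L)) (fun _ => s (g μ))
      (fun k l hkl => absurd rfl hkl) (fun _ => (mul_ne_zero h2 (hs _)).isUnit)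
      (fun _ => by rw [hsq, hg]) (a μ + b μ)
    exact ⟨V, by simpa using h3, h4 ()⟩
  choose V hV1 hV2 using hV
  have hmaps : ∀ j ∈ (Finset.univ : Finset J), p j ∈ T := fun j hj => Finset.mem_image_of_mem p hj
  have hN' : A ^ 2 - B ^ 2 * F = ∏ μ : T, (X - C (μ : L)) ^ (a μ + b μ) := by
    rw [hN, ← Finset.prod_fiberwise_of_maps_to hmaps,
      ← Finset.prod_coe_sort T fun μ => ∏ j with p j = μ, (X - C (p j)) ^ (α j + β j)]
    refine Finset.prod_congr rfl fun μ _ => ?_
    rw [← Finset.sum_add_distrib, ← Finset.prod_pow_eq_pow_sum]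
    exact Finset.prod_congr rfl fun j hj => by rw [(Finset.mem_filter.1 hj).2]
  have ho' : ∀ μ : T, (X - C (μ : L)) ^ a μ ∣ A + B * V μ ∧
      ¬ (X - C (μ : L)) ^ (a μ + 1) ∣ A + B * V μ := fun μ => by
    have := ho (g μ) (V μ) (by rw [hg, hV2]) (by
      rw [hg]; exact (pow_dvd_pow _ (by simp [a])).trans (hV1 μ))
    rwa [hg] at this
  have key := h L d F T (fun μ => μ) (fun μ => s (g μ)) (fun μ => a μ) (fun μ => b μ) V A B 1 h2 hF
    hd one_ne_zero Subtype.val_injective (fun μ => hs _) hV2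
    (fun μ => (pow_dvd_pow _ (Nat.le_succ _)).trans (hV1 μ)) (fun μ => (ho' μ).1) (fun μ => ?_)
    (by rw [hN', C_1, one_mul]) i hi
  · rw [← key, ← Finset.sum_fiberwise_of_maps_to hmaps,
      ← Finset.sum_coe_sort T fun μ => ∑ j with p j = μ, ((α j : L) - β j) * (p j ^ i * d (p j) / s j)]
    refine Finset.sum_congr rfl fun μ _ => ?_
    simp only [a, b, Nat.cast_sum]
    rw [← Finset.sum_sub_distrib, Finset.sum_mul]
    refine Finset.sum_congr rfl fun j hj => ?_
    have h5 := (Finset.mem_filter.1 hj).2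
    rw [hc j (g μ) (by rw [hg, h5]), h5]
  · obtain ⟨⟨c, hc1⟩, hc2⟩ := ho' μ
    have h5 : (X - C (μ : L)) ^ (a μ + b μ) ∣ (A + B * V μ) * (A - B * V μ) := by
      have : (A + B * V μ) * (A - B * V μ) = A ^ 2 - B ^ 2 * F - B ^ 2 * (V μ ^ 2 - F) := by ring
      rw [this, hN']
      exact (Finset.dvd_prod_of_mem _ (Finset.mem_univ μ)).sub
        (((pow_dvd_pow _ (Nat.le_succ _)).trans (hV1 μ)).mul_left _)
    rw [hc1, pow_add, mul_assoc,
      mul_dvd_mul_iff_left (pow_ne_zero _ (X_sub_C_ne_zero _))] at h5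
    have h6 : ¬ X - C (μ : L) ∣ c := fun h7 => hc2 (by
      rw [hc1, pow_succ]; exact mul_dvd_mul_left _ h7)
    exact (((irreducible_X_sub_C (μ : L)).coprime_iff_not_dvd.2 h6).pow_left).dvd_of_dvd_mul_left h5

end Vale.Agent.P027M.B.Cont
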