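import Vale.Agent.P027M.B.ContA

/-! # P027, route M, block B1 : the linear system of the row `B1.cont` -/

open Polynomial

noncomputable section

namespace Vale.Agent.P027M.B.Cont

variable {S K : Type*} [CommRing S] [Field K]

theorem mem_smul_of_map (ρ : S →+* K) (d : ℕ) (y : degreeLT S d) (hy : (y : S[X]).map ρ = 0) :
    y ∈ RingHom.ker ρ • (⊤ : Submodule S (degreeLT S d)) := by
  have h1 : y = ∑ i : Fin d, (y : S[X]).coeff i •
      (⟨X ^ (i : ℕ), mem_degreeLT.2 ((degree_X_pow_le _).trans_lt (by exact_mod_cast i.2))⟩ :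
        degreeLT S d) := by
    apply Subtype.ext
    rw [Submodule.coe_sum]
    conv_lhs => rw [← sum_monomial_eq (y : S[X]),
      ← sum_fin (fun i a => monomial i a) (by simp) (mem_degreeLT.1 y.2)]
    exact Finset.sum_congr rfl fun i _ => by simp [← C_mul_X_pow_eq_monomial, smul_eq_C_mul]
  rw [h1]
  refine Submodule.sum_mem _ fun i _ => Submodule.smul_mem_smul ?_ Submodule.mem_top
  rw [RingHom.mem_ker, ← coeff_map, hy, coeff_zero]

/-- the linear system over a local ring -/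
theorem solve [Nontrivial S] (ρ : S →+* K) (hρ : ∀ y, ρ y ≠ 0 → IsUnit y) (U U0 V V0 W0 : S[X])
    (n : ℕ) (hU : U.Monic) (hU0 : U0.Monic) (hm : U.map ρ = U0.map ρ) (hV : V.map ρ = V0.map ρ)
    (hW : U0 ∣ 2 * V0 * W0 - 1) :
    ∃ A B c : S[X], A.Monic ∧ A.natDegree = (n + 1) * U.natDegree ∧
      B.degree < (n * U0.natDegree : ℕ) ∧ A + B * V = U ^ (n + 1) * c ∧
      U0 ^ n ∣ A - B * V0 ∧ B.map ρ = 0 ∧ A.map ρ = U0.map ρ ^ (n + 1) ∧ c.map ρ = 1 := by
  have hP := hU.pow (n := n + 1)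
  have hQ := hU0.pow (n := n)
  have hdeg : (U0 ^ n).degree = (n * U0.natDegree : ℕ) := by
    rw [degree_eq_natDegree hQ.ne_zero, hU0.natDegree_pow]
  have hlt : ∀ f : S[X], f %ₘ U0 ^ n ∈ degreeLT S (n * U0.natDegree) := fun f =>
    mem_degreeLT.2 (hdeg ▸ degree_modByMonic_lt f hQ)
  let Ψ : degreeLT S (n * U0.natDegree) →ₗ[S] degreeLT S (n * U0.natDegree) :=
    LinearMap.codRestrict _ (modByMonicHom (U0 ^ n) ∘ₗ
      (modByMonicHom (U ^ (n + 1)) ∘ₗ LinearMap.mulRight S V + LinearMap.mulRight S V0) ∘ₗ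
        (degreeLT S (n * U0.natDegree)).subtype) fun f => hlt _
  have hΨ : ∀ f, (Ψ f : S[X]) = (((f : S[X]) * V) %ₘ U ^ (n + 1) + (f : S[X]) * V0) %ₘ U0 ^ n := fun f => rfl
  obtain ⟨W, hW'⟩ := inv_pow_mod hW n
  have hQ' := hQ.map ρ
  have hmod : ∀ f : S[X], (U0 ^ n).map ρ ∣
      ((f * V) %ₘ U ^ (n + 1) + f * V0).map ρ - f.map ρ * (2 * V0).map ρ := fun f => by
    have h1 := modByMonic_add_div (f * V) (U ^ (n + 1))
    have h2 := congrArg (Polynomial.map ρ) h1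
    simp only [Polynomial.map_add, Polynomial.map_mul, Polynomial.map_pow, hm, hV,
      Polynomial.map_ofNat] at h2 ⊢
    exact ⟨-(U0.map ρ * ((f * V) /ₘ U ^ (n + 1)).map ρ), by linear_combination h2⟩
  have hW2 : (U0 ^ n).map ρ ∣ (2 * V0).map ρ * W.map ρ - 1 := by
    simpa using Polynomial.map_dvd ρ hW'
  have hsurj : (⊤ : Submodule S (degreeLT S (n * U0.natDegree))) ≤ LinearMap.range Ψ := by
    refine Submodule.le_of_le_smul_of_le_jacobson_bot (I := RingHom.ker ρ)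
      Module.Finite.fg_top (fun x hx => Ideal.mem_jacobson_bot.2 fun y => hρ _ ?_) fun y _ => ?_
    · rw [map_add, map_mul, (RingHom.mem_ker).1 hx]; simp
    · let b : degreeLT S (n * U0.natDegree) := ⟨(y * W) %ₘ U0 ^ n, hlt _⟩
      have h1 : y = Ψ b + (y - Ψ b) := by abel
      rw [h1]
      refine Submodule.add_mem_sup ⟨b, rfl⟩ (mem_smul_of_map ρ _ _ ?_)
      refine eq_zero_of_dvd_of_degree_lt (p := (U0 ^ n).map ρ) ?_ ?_
      · obtain ⟨g1, h2⟩ := hmod b
        obtain ⟨g2, h3⟩ := hW2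
        have h4 := congrArg (Polynomial.map ρ) (modByMonic_add_div ((y : S[X]) * W) (U0 ^ n))
        have h5 := congrArg (Polynomial.map ρ)
          (modByMonic_add_div (((b : S[X]) * V) %ₘ U ^ (n + 1) + (b : S[X]) * V0) (U0 ^ n))
        rw [← hΨ] at h5
        rw [Polynomial.map_add, Polynomial.map_mul] at h5
        rw [Polynomial.map_add, Polynomial.map_mul, Polynomial.map_mul] at h4
        rw [Submodule.coe_sub, Polynomial.map_sub]
        refine ⟨((((b : S[X]) * V) %ₘ U ^ (n + 1) + (b : S[X]) * V0) /ₘ U0 ^ n).map ρ - g1 +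
          (2 * V0).map ρ * (((y : S[X]) * W) /ₘ U0 ^ n).map ρ - (y : S[X]).map ρ * g2, ?_⟩
        have hb : (b : S[X]) = ((y : S[X]) * W) %ₘ U0 ^ n := rfl
        rw [← hb] at h4
        linear_combination -h5 - h2 - (2 * V0).map ρ * h4 - (y : S[X]).map ρ * h3
      · rw [hQ.degree_map, hdeg]
        exact degree_map_le.trans_lt (mem_degreeLT.1 (y - Ψ b).2)
  obtain ⟨B, hB⟩ := hsurj (Submodule.mem_top (x := ⟨U ^ (n + 1) %ₘ U0 ^ n, hlt _⟩))
  have hB' : (((B : S[X]) * V) %ₘ U ^ (n + 1) + (B : S[X]) * V0) %ₘ U0 ^ n = U ^ (n + 1) %ₘ U0 ^ n := by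
    rw [← hΨ, hB]
  have hdvd : U0 ^ n ∣ U ^ (n + 1) - ((B : S[X]) * V) %ₘ U ^ (n + 1) - (B : S[X]) * V0 := by
    rw [← modByMonic_eq_zero_iff_dvd hQ, sub_sub, sub_modByMonic, hB', sub_self]
  have hlt2 := degree_modByMonic_lt ((B : S[X]) * V) hP
  have hB0 : (B : S[X]).map ρ = 0 := by
    refine eq_zero_of_dvd_of_degree_lt (p := (U0 ^ n).map ρ) ?_ ?_
    · obtain ⟨g1, h2⟩ := hmod B
      obtain ⟨g2, h3⟩ := hW2
      obtain ⟨g3, h4⟩ := Polynomial.map_dvd ρ hdvd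
      rw [sub_sub, Polynomial.map_sub, Polynomial.map_pow, hm, pow_succ, ← Polynomial.map_pow] at h4
      exact ⟨(U0.map ρ - g3 - g1) * W.map ρ - (B : S[X]).map ρ * g2, by
        linear_combination (-W.map ρ) * h4 - W.map ρ * h2 - (B : S[X]).map ρ * h3⟩
    · rw [hQ.degree_map, hdeg]
      exact degree_map_le.trans_lt (mem_degreeLT.1 B.2)
  have hA : (U ^ (n + 1) - ((B : S[X]) * V) %ₘ U ^ (n + 1)).map ρ = U0.map ρ ^ (n + 1) := by
    rw [Polynomial.map_sub, map_modByMonic ρ hP, Polynomial.map_mul, hB0, zero_mul,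
      zero_modByMonic, sub_zero, Polynomial.map_pow, hm]
  have hc : U ^ (n + 1) - ((B : S[X]) * V) %ₘ U ^ (n + 1) + (B : S[X]) * V =
      U ^ (n + 1) * (1 + ((B : S[X]) * V) /ₘ U ^ (n + 1)) := by
    linear_combination -modByMonic_add_div ((B : S[X]) * V) (U ^ (n + 1))
  refine ⟨_, B, _, hP.sub_of_left hlt2, ?_, mem_degreeLT.1 B.2, hc, hdvd, hB0, hA, ?_⟩
  · rw [natDegree_eq_of_degree_eq (degree_sub_eq_left_of_degree_lt hlt2), hU.natDegree_pow]
  · rw [Polynomial.map_add, map_divByMonic ρ hP, Polynomial.map_mul, hB0, zero_mul,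
      zero_divByMonic, Polynomial.map_one, add_zero]

end Vale.Agent.P027M.B.Cont
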