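import Mathlib

/-! # P027, route M, FAITH : rational identities for the differentials of the family -/

namespace Vale.Agent.P027M.B.Crt

variable {L : Type*} [Field L]

/-- the differential `M ^ i dM / W` in terms of `dN / Y` -/
theorem om_eq {k : Type*} [CommRing k] [Algebra k L] (d : Derivation k L L) {M N Y W c g e G : L}
    (hc : d c = 0) (hG : d G = 0) (h1 : g * e = c) (h2 : g + e = 3 - c)
    (hN : N = M * (M ^ 2 - c * G) / (M ^ 2 - G))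
    (hW : W = Y * (M ^ 2 - G) ^ 2 / (M ^ 2 - g * G)) (n1 : M ^ 2 - G ≠ 0) (n2 : M ^ 2 - g * G ≠ 0)
    (n3 : M ^ 2 - e * G ≠ 0) (n4 : Y ≠ 0) (i : ℕ) :
    M ^ i * d M / W = M ^ i / (M ^ 2 - e * G) * (d N / Y) := by
  have h3 : N * (M ^ 2 - G) = M * (M ^ 2 - c * G) := by rw [hN]; field_simp
  have h4 := congrArg d h3
  simp only [Derivation.leibniz, map_sub, Derivation.leibniz_pow, hc, hG, smul_eq_mul, mul_zero,
    add_zero, sub_zero, nsmul_eq_mul, Nat.cast_ofNat, Nat.add_one_sub_one, pow_one] at h4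
  have h5 : d N * (M ^ 2 - G) ^ 2 = (M ^ 2 - g * G) * (M ^ 2 - e * G) * d M := by
    linear_combination (M ^ 2 - G) * h4 - 2 * M * d M * h3 - G ^ 2 * d M * h1 + M ^ 2 * G * d M * h2
  have h6 : d N = (M ^ 2 - g * G) * (M ^ 2 - e * G) * d M / (M ^ 2 - G) ^ 2 := by
    rw [← h5]; field_simp
  rw [h6, hW]
  generalize M ^ 2 - G = u at *
  generalize M ^ 2 - g * G = v at *
  generalize M ^ 2 - e * G = z at *
  field_simp

section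
variable {A B C g G : L}

theorem prod_e (hg : g + 1 ≠ 0) (n1 : A ^ 2 - G ≠ 0)
    (hs : B + C = (1 - g * (3 - g) / (g + 1)) * G * A / (A ^ 2 - G))
    (hp : B * C = G * (g * (3 - g) / (g + 1) * G - A ^ 2) / (A ^ 2 - G)) :
    (B ^ 2 - (3 - g) / (g + 1) * G) * (C ^ 2 - (3 - g) / (g + 1) * G) =
      G ^ 2 * (g - 1) ^ 2 * (A ^ 2 - (3 - g) / (g + 1) * G) * (4 * A ^ 2 - (3 - g) * (g + 1) * G) /
        ((g + 1) ^ 2 * (A ^ 2 - G) ^ 2) := by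
  have : (B ^ 2 - (3 - g) / (g + 1) * G) * (C ^ 2 - (3 - g) / (g + 1) * G) =
      (B * C) ^ 2 - (3 - g) / (g + 1) * G * ((B + C) ^ 2 - 2 * (B * C)) +
        ((3 - g) / (g + 1) * G) ^ 2 := by ring
  rw [this, hs, hp]
  field_simp
  ring

theorem prod_g (hg : g + 1 ≠ 0) (n1 : A ^ 2 - G ≠ 0)
    (hs : B + C = (1 - g * (3 - g) / (g + 1)) * G * A / (A ^ 2 - G))
    (hp : B * C = G * (g * (3 - g) / (g + 1) * G - A ^ 2) / (A ^ 2 - G)) :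
    (B ^ 2 - g * G) * (C ^ 2 - g * G) =
      G ^ 2 * (g - 1) ^ 2 * (A ^ 2 - g * G) * ((g + 1) ^ 2 * A ^ 2 - 4 * g * G) /
        ((g + 1) ^ 2 * (A ^ 2 - G) ^ 2) := by
  have : (B ^ 2 - g * G) * (C ^ 2 - g * G) =
      (B * C) ^ 2 - g * G * ((B + C) ^ 2 - 2 * (B * C)) + (g * G) ^ 2 := by ring
  rw [this, hs, hp]
  field_simp
  ring

theorem disc (hg : g + 1 ≠ 0) (n1 : A ^ 2 - G ≠ 0)
    (hs : B + C = (1 - g * (3 - g) / (g + 1)) * G * A / (A ^ 2 - G))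
    (hp : B * C = G * (g * (3 - g) / (g + 1) * G - A ^ 2) / (A ^ 2 - G)) :
    (B - C) ^ 2 = G * (4 * A ^ 2 - (3 - g) * (g + 1) * G) * ((g + 1) ^ 2 * A ^ 2 - 4 * g * G) /
      ((g + 1) ^ 2 * (A ^ 2 - G) ^ 2) := by
  have : (B - C) ^ 2 = (B + C) ^ 2 - 4 * (B * C) := by ring
  rw [this, hs, hp]
  field_simp
  ring

theorem qd (hg : g + 1 ≠ 0) (n1 : A ^ 2 - G ≠ 0)
    (hs : B + C = (1 - g * (3 - g) / (g + 1)) * G * A / (A ^ 2 - G))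
    (hp : B * C = G * (g * (3 - g) / (g + 1) * G - A ^ 2) / (A ^ 2 - G)) :
    (A - B) * (C - A) = -((A ^ 2 - g * G) * (A ^ 2 - (3 - g) / (g + 1) * G) / (A ^ 2 - G)) := by
  have : (A - B) * (C - A) = -(A ^ 2 - A * (B + C) + B * C) := by ring
  rw [this, hs, hp]
  field_simp
  ring

theorem nd (hg : g + 1 ≠ 0) (n1 : A ^ 2 - G ≠ 0)
    (hs : B + C = (1 - g * (3 - g) / (g + 1)) * G * A / (A ^ 2 - G)) :
    (A + B + C) ^ 2 - 4 * g ^ 3 / (g + 1) ^ 2 * G =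
      (A ^ 2 - g * G) ^ 2 * ((g + 1) ^ 2 * A ^ 2 - 4 * g * G) / ((g + 1) ^ 2 * (A ^ 2 - G) ^ 2) := by
  rw [add_assoc, hs]
  field_simp
  ring

theorem sum0 (x : L) (hB : B ^ 2 - x ≠ 0) (hC : C ^ 2 - x ≠ 0) :
    1 / (B ^ 2 - x) + 1 / (C ^ 2 - x) =
      ((B + C) ^ 2 - 2 * (B * C) - 2 * x) / ((B ^ 2 - x) * (C ^ 2 - x)) := by
  field_simp; ring

theorem sum1 (x : L) (hB : B ^ 2 - x ≠ 0) (hC : C ^ 2 - x ≠ 0) :
    B / (B ^ 2 - x) + C / (C ^ 2 - x) = (B + C) * (B * C - x) / ((B ^ 2 - x) * (C ^ 2 - x)) := by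
  field_simp; ring

theorem dif0 (x : L) (hB : B ^ 2 - x ≠ 0) (hC : C ^ 2 - x ≠ 0) :
    1 / (B ^ 2 - x) - 1 / (C ^ 2 - x) = -((B - C) * (B + C) / ((B ^ 2 - x) * (C ^ 2 - x))) := by
  field_simp; ring

theorem dif1 (x : L) (hB : B ^ 2 - x ≠ 0) (hC : C ^ 2 - x ≠ 0) :
    B / (B ^ 2 - x) - C / (C ^ 2 - x) = -((B - C) * (B * C + x) / ((B ^ 2 - x) * (C ^ 2 - x))) := by
  field_simp; ring

/-- the hypotheses on the three roots -/
structure Tri (A B C g G : L) : Prop where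
  hg : g + 1 ≠ 0
  hm : g - 1 ≠ 0
  hG : G ≠ 0
  n1 : A ^ 2 - G ≠ 0
  hs : B + C = (1 - g * (3 - g) / (g + 1)) * G * A / (A ^ 2 - G)
  hp : B * C = G * (g * (3 - g) / (g + 1) * G - A ^ 2) / (A ^ 2 - G)
  eA : A ^ 2 - (3 - g) / (g + 1) * G ≠ 0
  eB : B ^ 2 - (3 - g) / (g + 1) * G ≠ 0
  eC : C ^ 2 - (3 - g) / (g + 1) * G ≠ 0
  gA : A ^ 2 - g * G ≠ 0
  gB : B ^ 2 - g * G ≠ 0
  gC : C ^ 2 - g * G ≠ 0
  d1 : 4 * A ^ 2 - (3 - g) * (g + 1) * G ≠ 0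
  d2 : (g + 1) ^ 2 * A ^ 2 - 4 * g * G ≠ 0

theorem Tri.s0 (h : Tri A B C g G) :
    1 / (B ^ 2 - (3 - g) / (g + 1) * G) + 1 / (C ^ 2 - (3 - g) / (g + 1) * G) =
      (g + 1) / ((g - 1) * G) - 1 / (A ^ 2 - (3 - g) / (g + 1) * G) := by
  rw [sum0 _ h.eB h.eC, prod_e h.hg h.n1 h.hs h.hp, h.hs, h.hp]
  obtain ⟨hg, hm, hG, n1, -, -, eA, -, -, -, -, -, d1, -⟩ := h
  generalize hu : A ^ 2 - G = u at *
  generalize hv : A ^ 2 - (3 - g) / (g + 1) * G = v at *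
  generalize hz : 4 * A ^ 2 - (3 - g) * (g + 1) * G = z at *
  field_simp
  subst hu hv hz
  field_simp
  ring

theorem Tri.s1 (h : Tri A B C g G) :
    B / (B ^ 2 - (3 - g) / (g + 1) * G) + C / (C ^ 2 - (3 - g) / (g + 1) * G) =
      -(A / (A ^ 2 - (3 - g) / (g + 1) * G)) := by
  rw [sum1 _ h.eB h.eC, prod_e h.hg h.n1 h.hs h.hp, h.hs, h.hp]
  obtain ⟨hg, hm, hG, n1, -, -, eA, -, -, -, -, -, d1, -⟩ := h
  generalize hu : A ^ 2 - G = u at *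
  generalize hv : A ^ 2 - (3 - g) / (g + 1) * G = v at *
  generalize hz : 4 * A ^ 2 - (3 - g) * (g + 1) * G = z at *
  field_simp
  subst hu hv hz
  field_simp
  ring

theorem Tri.i1 (h : Tri A B C g G) :
    ((A + B + C) ^ 2 - 4 * g ^ 3 / (g + 1) ^ 2 * G) *
      (2 * (A / (A ^ 2 - g * G)) - (B / (B ^ 2 - g * G) + C / (C ^ 2 - g * G))) =
    3 / (g + 1) * ((A - B) * (B - C) * (C - A)) *
      (1 / (B ^ 2 - (3 - g) / (g + 1) * G) - 1 / (C ^ 2 - (3 - g) / (g + 1) * G)) := by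
  have e1 : 3 / (g + 1) * ((A - B) * (B - C) * (C - A)) *
      (1 / (B ^ 2 - (3 - g) / (g + 1) * G) - 1 / (C ^ 2 - (3 - g) / (g + 1) * G)) =
      -(3 / (g + 1) * ((A - B) * (C - A)) * (B - C) ^ 2 * (B + C) /
        ((B ^ 2 - (3 - g) / (g + 1) * G) * (C ^ 2 - (3 - g) / (g + 1) * G))) := by
    rw [dif0 _ h.eB h.eC]; ring
  rw [e1, sum1 _ h.gB h.gC, prod_e h.hg h.n1 h.hs h.hp, prod_g h.hg h.n1 h.hs h.hp,
    disc h.hg h.n1 h.hs h.hp, qd h.hg h.n1 h.hs h.hp, nd h.hg h.n1 h.hs, h.hs, h.hp]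
  obtain ⟨hg, hm, hG, n1, -, -, eA, -, -, gA, -, -, d1, d2⟩ := h
  generalize hu : A ^ 2 - G = u at *
  generalize hv : A ^ 2 - (3 - g) / (g + 1) * G = v at *
  generalize hz : 4 * A ^ 2 - (3 - g) * (g + 1) * G = z at *
  generalize hy : (g + 1) ^ 2 * A ^ 2 - 4 * g * G = y at *
  generalize hx : A ^ 2 - g * G = x at *
  field_simp
  subst hu hv hz hy hx
  field_simp
  ring

theorem Tri.i0 (h : Tri A B C g G) :
    ((A + B + C) ^ 2 - 4 * g ^ 3 / (g + 1) ^ 2 * G) *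
      (2 * (1 / (A ^ 2 - g * G)) - (1 / (B ^ 2 - g * G) + 1 / (C ^ 2 - g * G))) =
    -1 / ((g + 1) * G) * ((A - B) * (B - C) * (C - A)) *
      (B / (B ^ 2 - (3 - g) / (g + 1) * G) - C / (C ^ 2 - (3 - g) / (g + 1) * G)) := by
  have e1 : -1 / ((g + 1) * G) * ((A - B) * (B - C) * (C - A)) *
      (B / (B ^ 2 - (3 - g) / (g + 1) * G) - C / (C ^ 2 - (3 - g) / (g + 1) * G)) =
      1 / ((g + 1) * G) * ((A - B) * (C - A)) * (B - C) ^ 2 * (B * C + (3 - g) / (g + 1) * G) /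
        ((B ^ 2 - (3 - g) / (g + 1) * G) * (C ^ 2 - (3 - g) / (g + 1) * G)) := by
    rw [dif1 _ h.eB h.eC]; ring
  rw [e1, sum0 _ h.gB h.gC, prod_e h.hg h.n1 h.hs h.hp, prod_g h.hg h.n1 h.hs h.hp,
    disc h.hg h.n1 h.hs h.hp, qd h.hg h.n1 h.hs h.hp, nd h.hg h.n1 h.hs, h.hs, h.hp]
  obtain ⟨hg, hm, hG, n1, -, -, eA, -, -, gA, -, -, d1, d2⟩ := h
  generalize hu : A ^ 2 - G = u at *
  generalize hv : A ^ 2 - (3 - g) / (g + 1) * G = v at *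
  generalize hz : 4 * A ^ 2 - (3 - g) * (g + 1) * G = z at *
  generalize hy : (g + 1) ^ 2 * A ^ 2 - 4 * g * G = y at *
  generalize hx : A ^ 2 - g * G = x at *
  field_simp
  subst hu hv hz hy hx
  field_simp
  ring

end

end Vale.Agent.P027M.B.Crt
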